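import Mathlib
import Crest.Agent.S0047_Check

/-!
Row 35 (S0047, Snaky): a faster version of the checker of `S0047_Check`.  THIS is the checker used
by the certificates.  Token format (13-bit tokens, least significant first):
`m + 1` (`m < 4096`) = Maker move, followed either by `4104 + o`, `s` (leaf: copy with orientation
`o`, shift `s`) or by kid kid … `0`;  `4097`, `k` = reference to the `k`-th external lemma.
Implementation:
raw `Nat` operations (accelerated by the kernel), `Bool.rec` instead of decidable propositions,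
continuation passing instead of option/tuple results.
-/

set_option autoImplicit false

namespace Crest.Agent.S0047F

open Crest.Agent.S0047G Crest.Agent.S0047C Crest.CombinatoricsR.PolyominoGame

/-- raw conditional. -/
noncomputable def iteB (c t e : Bool) : Bool := @Bool.rec (fun _ => Bool) e t c

@[simp] theorem iteB_true (t e : Bool) : iteB true t e = t := rfl
@[simp] theorem iteB_false (t e : Bool) : iteB false t e = e := rfl

theorem iteB_ff {c t : Bool} (h : iteB c t false = true) : c = true ∧ t = true := by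
  cases c <;> simp_all

theorem iteB_tf {c e : Bool} (h : iteB c false e = true) : c = false ∧ e = true := by
  cases c <;> simp_all

theorem r_land (a b : ℕ) : Nat.land a b = a &&& b := rfl
theorem r_lor (a b : ℕ) : Nat.lor a b = a ||| b := rfl
theorem r_shl (a b : ℕ) : Nat.shiftLeft a b = a <<< b := rfl
theorem r_shr (a b : ℕ) : Nat.shiftRight a b = a >>> b := rfl
theorem r_mod (a b : ℕ) : Nat.mod a b = a % b := rfl
theorem r_div (a b : ℕ) : Nat.div a b = a / b := rfl
theorem r_sub (a b : ℕ) : Nat.sub a b = a - b := rfl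
theorem r_mul (a b : ℕ) : Nat.mul a b = a * b := rfl

/-- the masks of the eight orientations, 512 bits each. -/
def tbl : ℕ := 0x20000000000000002000000000000000200000000000000030000000000000001000000000000000000000000000000000000000000000000000000000000000100000000000000010000000000000001000000000000000300000000000000020000000000000000000000000000000000000000000000000000000000000001000000000000000300000000000000020000000000000002000000000000000200000000000000000000000000000000000000000000000000000000000000020000000000000003000000000000000100000000000000010000000000000001000000000000000000000000000000000000000000000000000000000000000000000000000000000000000000000000000000000000001e0000000000000003000000000000000000000000000000000000000000000000000000000000000000000000000000000000000000000000000000000000000f00000000000000180000000000000000000000000000000000000000000000000000000000000000000000000000000000000000000000000000000000000003000000000000001e0000000000000000000000000000000000000000000000000000000000000000000000000000000000000000000000000000000000000018000000000000000f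

def pmask (o : ℕ) : ℕ := Nat.mod (Nat.shiftRight tbl (Nat.mul 512 o)) (Nat.pow 2 512)

noncomputable def leafF (M s o : ℕ) : Bool :=
  iteB (Nat.ble o 7)
    (iteB (Nat.ble (Nat.mod s 64) 59)
      (Nat.beq (Nat.land (Nat.shiftLeft (pmask o) s) M) (Nat.shiftLeft (pmask o) s)) false) false

theorem pmask_spec (o : ℕ) (ho : o ≤ 7) :
    ∃ offs ∈ orient, ∀ q ∈ offs, (pmask o).testBit (q.1 + 64 * q.2) = true := by
  interval_cases o
  · exact ⟨orient[0], List.getElem_mem _, by decide +kernel⟩
  · exact ⟨orient[1], List.getElem_mem _, by decide +kernel⟩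
  · exact ⟨orient[2], List.getElem_mem _, by decide +kernel⟩
  · exact ⟨orient[3], List.getElem_mem _, by decide +kernel⟩
  · exact ⟨orient[4], List.getElem_mem _, by decide +kernel⟩
  · exact ⟨orient[5], List.getElem_mem _, by decide +kernel⟩
  · exact ⟨orient[6], List.getElem_mem _, by decide +kernel⟩
  · exact ⟨orient[7], List.getElem_mem _, by decide +kernel⟩

theorem testBit_of_shift_land {P s M : ℕ} (h : (P <<< s) &&& M = P <<< s) (c : ℕ)
    (hc : P.testBit c = true) : M.testBit (s + c) = true := by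
  have h1 : ((P <<< s) &&& M).testBit (s + c) = (P <<< s).testBit (s + c) := by rw [h]
  rw [Nat.testBit_land, Nat.testBit_shiftLeft] at h1
  simpa [hc] using h1

theorem leafF_sound {M s o : ℕ} (h : leafF M s o = true) : ContainsCopy (cells M) := by
  unfold leafF at h
  obtain ⟨h1, h⟩ := iteB_ff h
  obtain ⟨h2, h3⟩ := iteB_ff h
  rw [Nat.ble_eq] at h1 h2
  rw [Nat.beq_eq] at h3
  simp only [r_land, r_shl, r_mod] at h2 h3
  obtain ⟨offs, ho, hq⟩ := pmask_spec o h1
  exact copy_of_orient M s (by omega) offs ho fun q hqm => testBit_of_shift_land h3 _ (hq q hqm)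

/-- type of continuations and of the recursive call. -/
abbrev K := ℕ → ℕ → ℕ → Bool
abbrev R := Bool → ℕ → ℕ → ℕ → ℕ → ℕ → K → Bool

noncomputable def look : List (ℕ × ℕ × ℕ) → ℕ → K → Bool
  | [], _, _ => false
  | e :: t, n, k => iteB (Nat.beq n 0) (k e.1 e.2.1 e.2.2) (look t (Nat.sub n 1) k)

theorem look_sound : ∀ (ext : List (ℕ × ℕ × ℕ)) (n : ℕ) (k : K), look ext n k = true →
    ∃ e ∈ ext, k e.1 e.2.1 e.2.2 = true
  | [], _, _, h => by simp [look] at h
  | e :: t, n, k, h => by
    rw [look] at h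
    cases hc : Nat.beq n 0 with
    | true => rw [hc] at h; exact ⟨e, List.mem_cons_self, h⟩
    | false =>
      rw [hc] at h
      obtain ⟨e', he', hk⟩ := look_sound t _ k h
      exact ⟨e', List.mem_cons_of_mem _ he', hk⟩

noncomputable def extStep (ext : List (ℕ × ℕ × ℕ)) (d M s1 : ℕ) (k : K) : Bool :=
  look ext (Nat.mod s1 8192) fun d0 M0 z0 =>
    iteB (Nat.ble d0 d) (iteB (Nat.beq M0 M) (iteB (Nat.ble z0 full)
      (k z0 0 (Nat.div s1 8192)) false) false) false

noncomputable def leafStep (M' bit o s2 : ℕ) (k : K) : Bool :=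
  iteB (leafF M' (Nat.mod s2 8192) o) (k bit 0 (Nat.div s2 8192)) false

noncomputable def moveStep3 (rec : R) (d' M' bit s1 t1 : ℕ) (k : K) : Bool :=
  iteB (Nat.ble 4100 t1)
    (leafStep M' bit (Nat.mod t1 8) (Nat.div s1 8192) k)
    (rec false d' M' s1 full 0 fun i u r => iteB (Nat.beq i 0) (k (Nat.lor u bit) 0 r) false)

noncomputable def moveStep2 (rec : R) (d' M bit s1 : ℕ) (k : K) : Bool :=
  iteB (Nat.beq (Nat.land M bit) 0)
    (moveStep3 rec d' (Nat.lor M bit) bit s1 (Nat.mod s1 8192) k) false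

noncomputable def moveStep (rec : R) (d' M t s1 : ℕ) (k : K) : Bool :=
  iteB (Nat.beq t 0) false
    (iteB (Nat.ble t 4096) (moveStep2 rec d' M (Nat.shiftLeft 1 (Nat.sub t 1)) s1 k) false)

noncomputable def nodeStep (ext : List (ℕ × ℕ × ℕ)) (rec : R) (d M s : ℕ) (k : K) : Bool :=
  iteB (Nat.beq (Nat.mod s 8192) 4097) (extStep ext d M (Nat.div s 8192) k)
    (iteB (Nat.beq d 0) false
      (moveStep rec (Nat.sub d 1) M (Nat.mod s 8192) (Nat.div s 8192) k))

noncomputable def kidsStep (rec : R) (d M s i u : ℕ) (k : K) : Bool :=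
  iteB (Nat.beq (Nat.mod s 8192) 0) (k i u (Nat.div s 8192))
    (rec true d M s 0 0 fun z _ r => rec false d M r (Nat.land i z) (Nat.lor u z) k)

noncomputable def goF (ext : List (ℕ × ℕ × ℕ)) : ℕ → R
  | 0 => fun _ _ _ _ _ _ _ => false
  | f + 1 => fun mode d M s i u k =>
    iteB mode (nodeStep ext (goF ext f) d M s k) (kidsStep (goF ext f) d M s i u k)

/-- specification of the recursive call. -/
def RecSpec (rec : R) : Prop :=
  (∀ d M s i u (k : K), rec true d M s i u k = true →
    ∃ z r, (WinsZ d M z ∧ Bdd z) ∧ k z 0 r = true) ∧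
  (∀ d M s i u (k : K), rec false d M s i u k = true →
    ∃ i' u' r, KidsSpec d M i u i' u' ∧ k i' u' r = true)

theorem kidsSpec_refl (d M i u : ℕ) : KidsSpec d M i u i u :=
  ⟨fun _ hj => hj, fun _ hj => Or.inl hj, fun _ hj => Or.inl hj⟩

theorem kidsSpec_cons {d M i u z i' u' : ℕ} (hz : WinsZ d M z) (hzb : Bdd z)
    (h : KidsSpec d M (i &&& z) (u ||| z) i' u') : KidsSpec d M i u i' u' := by
  obtain ⟨k1, k2, k3⟩ := h
  refine ⟨fun j hj => k1 j (by simp [hj]), fun j hj => ?_, fun j hj => ?_⟩
  · rcases k2 j hj with h7 | h7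
    · rw [Nat.testBit_lor, Bool.or_eq_true] at h7
      rcases h7 with h7 | h7
      · exact Or.inl h7
      · exact Or.inr (hzb j h7)
    · exact Or.inr h7
  · rcases k3 j hj with h7 | h7
    · rw [Nat.testBit_land, Bool.and_eq_false_iff] at h7
      rcases h7 with h7 | h7
      · exact Or.inl h7
      · exact Or.inr ⟨z, hz, h7, fun j' hj' => k1 j' (by simp [hj']), hzb⟩
    · exact Or.inr h7

theorem kidsStep_sound {rec : R} (hr : RecSpec rec) {d M s i u : ℕ} {k : K}
    (h : kidsStep rec d M s i u k = true) :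
    ∃ i' u' r, KidsSpec d M i u i' u' ∧ k i' u' r = true := by
  unfold kidsStep at h
  cases hc : Nat.beq (Nat.mod s 8192) 0 with
  | true => rw [hc] at h; exact ⟨i, u, _, kidsSpec_refl d M i u, h⟩
  | false =>
    rw [hc] at h
    obtain ⟨z, r, ⟨hz, hzb⟩, h2⟩ := hr.1 _ _ _ _ _ _ h
    obtain ⟨i', u', r', hs, hk⟩ := hr.2 _ _ _ _ _ _ h2
    exact ⟨i', u', r', kidsSpec_cons hz hzb hs, hk⟩

theorem extStep_sound {ext : List (ℕ × ℕ × ℕ)} (hext : ∀ e ∈ ext, WinsZ e.1 e.2.1 e.2.2)
    {d M s1 : ℕ} {k : K} (h : extStep ext d M s1 k = true) :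
    ∃ z r, (WinsZ d M z ∧ Bdd z) ∧ k z 0 r = true := by
  unfold extStep at h
  obtain ⟨e, he, h⟩ := look_sound _ _ _ h
  obtain ⟨h1, h⟩ := iteB_ff h
  obtain ⟨h2, h⟩ := iteB_ff h
  obtain ⟨h3, h⟩ := iteB_ff h
  rw [Nat.ble_eq] at h1 h3
  rw [Nat.beq_eq] at h2
  have hw := hext e he
  rw [h2] at hw
  exact ⟨e.2.2, _, ⟨fun B hB => win_mono h1 _ _ (hw B hB), bdd_of_le_full h3⟩, h⟩

theorem testBit_false_of_land {M m : ℕ} (h : M &&& (1 <<< m) = 0) : M.testBit m = false := by
  have h1 : (M &&& (1 <<< m)).testBit m = false := by rw [h]; simp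
  rw [Nat.testBit_land, testBit_bit] at h1
  simpa using h1

theorem bdd_bit {m : ℕ} (hm : m < 4096) : Bdd (1 <<< m) := by
  intro j hj
  rw [testBit_bit] at hj
  have : m = j := by simpa using hj
  omega

theorem moveStep_sound {rec : R} (hr : RecSpec rec) {d' M t s1 : ℕ} {k : K}
    (h : moveStep rec d' M t s1 k = true) :
    ∃ z r, (WinsZ (d' + 1) M z ∧ Bdd z) ∧ k z 0 r = true := by
  unfold moveStep at h
  obtain ⟨h1, h⟩ := iteB_tf h
  obtain ⟨h2, h⟩ := iteB_ff h
  rw [Nat.ble_eq] at h2
  have h1' : t ≠ 0 := by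
    intro h0; rw [h0] at h1; simp at h1
  unfold moveStep2 at h
  obtain ⟨h3, h⟩ := iteB_ff h
  rw [Nat.beq_eq] at h3
  simp only [r_land, r_shl, r_sub, r_lor] at h3 h
  have hm : M.testBit (t - 1) = false := testBit_false_of_land h3
  have hlt : t - 1 < 4096 := by omega
  unfold moveStep3 at h
  cases hc : Nat.ble 4100 (Nat.mod s1 8192) with
  | false =>
    rw [hc] at h
    simp only [iteB_false] at h
    obtain ⟨i', u', r, hs, hk⟩ := hr.2 _ _ _ _ _ _ h
    obtain ⟨h4, hk⟩ := iteB_ff hk
    rw [Nat.beq_eq] at h4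
    subst h4
    refine ⟨_, r, ⟨winsZ_node hm hs, ?_⟩, hk⟩
    intro j hj
    rw [Nat.testBit_lor, Bool.or_eq_true] at hj
    rcases hj with hj | hj
    · rcases hs.2.1 j hj with h7 | h7
      · simp at h7
      · exact h7
    · exact bdd_bit hlt j hj
  | true =>
    rw [hc] at h
    simp only [iteB_true] at h
    unfold leafStep at h
    obtain ⟨h4, hk⟩ := iteB_ff h
    exact ⟨_, _, ⟨winsZ_leaf hm (leafF_sound h4), bdd_bit hlt⟩, hk⟩

theorem nodeStep_sound {ext : List (ℕ × ℕ × ℕ)} (hext : ∀ e ∈ ext, WinsZ e.1 e.2.1 e.2.2)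
    {rec : R} (hr : RecSpec rec) {d M s : ℕ} {k : K} (h : nodeStep ext rec d M s k = true) :
    ∃ z r, (WinsZ d M z ∧ Bdd z) ∧ k z 0 r = true := by
  unfold nodeStep at h
  cases hc : Nat.beq (Nat.mod s 8192) 4097 with
  | true => rw [hc] at h; exact extStep_sound hext h
  | false =>
    rw [hc] at h
    simp only [iteB_false] at h
    obtain ⟨h1, h⟩ := iteB_tf h
    have hd : d ≠ 0 := by
      intro h0; rw [h0] at h1; simp at h1
    have := moveStep_sound hr h
    rw [r_sub, Nat.sub_add_cancel (Nat.one_le_iff_ne_zero.mpr hd)] at this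
    exact this

theorem goF_sound {ext : List (ℕ × ℕ × ℕ)} (hext : ∀ e ∈ ext, WinsZ e.1 e.2.1 e.2.2) :
    ∀ f : ℕ, RecSpec (goF ext f)
  | 0 => ⟨fun _ _ _ _ _ _ h => by simp [goF] at h, fun _ _ _ _ _ _ h => by simp [goF] at h⟩
  | f + 1 =>
    ⟨fun _ _ _ _ _ _ h => nodeStep_sound hext (goF_sound hext f) h,
     fun _ _ _ _ _ _ h => kidsStep_sound (goF_sound hext f) h⟩

/-- conjunction of the external lemmas. -/
def AllW : List (ℕ × ℕ × ℕ) → Prop
  | [] => True
  | e :: t => WinsZ e.1 e.2.1 e.2.2 ∧ AllW t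

theorem AllW.nil : AllW [] := trivial

theorem AllW.cons {d M z : ℕ} {t : List (ℕ × ℕ × ℕ)} (h : WinsZ d M z) (ht : AllW t) :
    AllW ((d, M, z) :: t) := ⟨h, ht⟩

theorem allW_mem : ∀ {ext : List (ℕ × ℕ × ℕ)}, AllW ext → ∀ e ∈ ext, WinsZ e.1 e.2.1 e.2.2
  | [], _, e, he => by simp at he
  | a :: t, h, e, he => by
    rcases List.mem_cons.mp he with rfl | he
    · exact h.1
    · exact allW_mem h.2 e he

/-- Boolean form used for the certificates: the stream `s` proves `WinsZ d M z`. -/
noncomputable def chkF (ext : List (ℕ × ℕ × ℕ)) (f d M s z : ℕ) : Bool :=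
  goF ext f true d M s 0 0 fun z' _ _ => Nat.beq z' z

theorem winsZ_of_chkF {ext : List (ℕ × ℕ × ℕ)} (hext : AllW ext) {f d M s z : ℕ}
    (h : chkF ext f d M s z = true) : WinsZ d M z := by
  obtain ⟨z', r, ⟨hz, -⟩, hk⟩ := (goF_sound (allW_mem hext) f).1 _ _ _ _ _ _ h
  rw [Nat.beq_eq] at hk
  exact hk ▸ hz

theorem winsZ_mono {d d' M z : ℕ} (hd : d ≤ d') (h : WinsZ d M z) : WinsZ d' M z :=
  fun B hB => win_mono hd _ _ (h B hB)

end Crest.Agent.S0047F
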