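import Crest.Agent.S0170_Reach

/-!
# S0170, package P8b: any two configurations of disjoint boxes of the same sizes are connected by
elementary moves (pure combinatorics over `ℚ`)

Plan.  (0) `Move` is symmetric.  (1) `conn_of_sep`: if all pairs are separated in one coordinate `e`,
the other coordinates of the centres can be changed at will.  (2) `exists_lift`: from a valid
configuration reach one in which all pairs are separated in coordinate `2`: with `B` a bound of
`|c i 2| + w i 2` and `Λ = 2B+1`, lift the not yet lifted box with the highest lower face by `k Λ`,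
where `k + 1` is the number of boxes not yet lifted.  (3) `c → c₁` (lift)
`→ c₂ = (X i, ·, ·)` (by (1), `e = 2`), same for `c'`, and `c₂ → c₂'` by (1) with `e = 0`, where
`X i = i * Big`.
-/

set_option autoImplicit false

namespace Crest.Agent.S0170

variable {n : ℕ}

theorem SepAt.symm {c w : Fin n → Fin 3 → ℚ} {i i' : Fin n} {d : Fin 3} (h : SepAt c w i i' d) :
    SepAt c w i' i d := by
  unfold SepAt at *
  rw [abs_sub_comm]
  linarith

theorem Move.symm {w c c' : Fin n → Fin 3 → ℚ} (h : Move w c c') : Move w c' c := by
  obtain ⟨i0, j, v, rfl, hall⟩ := h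
  refine ⟨i0, j, -v, ?_, ?_⟩
  · funext i
    by_cases hi : i = i0
    · subst hi
      funext d
      by_cases hd : d = j
      · subst hd; simp
      · simp
    · simp [hi]
  · intro i hi
    rcases hall i hi with ⟨d, hd, hsep⟩ | h2 | h3
    · left
      refine ⟨d, hd, ?_⟩
      unfold SepAt at *
      simpa [hi, hd] using hsep
    · right; left
      simp only [Function.update_self, Function.update_of_ne hi]
      rw [min_comm]
      simpa using h2
    · right; right
      simp only [Function.update_self, Function.update_of_ne hi]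
      rw [max_comm]
      simpa using h3

theorem conn_symm {w c c' : Fin n → Fin 3 → ℚ} (h : Relation.ReflTransGen (Move w) c c') :
    Relation.ReflTransGen (Move w) c' c := by
  induction h with
  | refl => exact Relation.ReflTransGen.refl
  | tail _ hbc ih => exact Relation.ReflTransGen.head hbc.symm ih

/-- one coordinate of one box is changed, all pairs being separated in another coordinate -/
theorem move_of_sep {w c : Fin n → Fin 3 → ℚ} (e : Fin 3)
    (hsep : ∀ i i', i ≠ i' → SepAt c w i i' e) (i0 : Fin n) (j : Fin 3) (hj : j ≠ e) (x : ℚ) :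
    Move w c (Function.update c i0 (Function.update (c i0) j x)) := by
  refine ⟨i0, j, x - c i0 j, by simp, ?_⟩
  intro i hi
  exact Or.inl ⟨e, hj.symm, hsep i i0 hi⟩

theorem conn_of_sep {w c c' : Fin n → Fin 3 → ℚ} (e : Fin 3)
    (hsep : ∀ i i', i ≠ i' → SepAt c w i i' e) (hc : ∀ i, c' i e = c i e) :
    Relation.ReflTransGen (Move w) c c' := by
  classical
  -- hybrid configurations
  set hyb : Finset (Fin n × Fin 3) → Fin n → Fin 3 → ℚ :=
    fun S i d => if (i, d) ∈ S then c' i d else c i d with hhyb
  have hye : ∀ S i, hyb S i e = c i e := by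
    intro S i
    simp only [hhyb]
    split_ifs
    · exact hc i
    · rfl
  have key : ∀ S : Finset (Fin n × Fin 3), Relation.ReflTransGen (Move w) c (hyb S) := by
    intro S
    induction S using Finset.induction_on with
    | empty =>
      have : hyb ∅ = c := by funext i d; simp [hhyb]
      rw [this]
    | insert a S ha ih =>
      obtain ⟨i0, j⟩ := a
      have hupd : hyb (insert (i0, j) S) =
          Function.update (hyb S) i0 (Function.update (hyb S i0) j (c' i0 j)) := by
        funext i d
        by_cases hi : i = i0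
        · subst hi
          by_cases hd : d = j
          · subst hd; simp [hhyb]
          · simp [hhyb, hd]
        · simp [hhyb, hi]
      by_cases hj : j = e
      · subst hj
        have : hyb (insert (i0, j) S) = hyb S := by
          rw [hupd]
          funext i d
          by_cases hi : i = i0
          · subst hi
            by_cases hd : d = j
            · subst hd; simp [hye, hc]
            · simp [hd]
          · simp [hi]
        rw [this]; exact ih
      · refine ih.tail ?_
        rw [hupd]
        apply move_of_sep e _ i0 j hj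
        intro i i' hii
        have := hsep i i' hii
        unfold SepAt at *
        rw [hye, hye]; exact this
  have : hyb Finset.univ = c' := by funext i d; simp [hhyb]
  rw [← this]; exact key _

/-- the inductive lifting statement -/
theorem lift_aux {w : Fin n → Fin 3 → ℚ} (hw : ∀ i d, 0 < w i d) (B : ℚ) (k : ℕ) :
    ∀ (c : Fin n → Fin 3 → ℚ) (S : Finset (Fin n)), S.card = k →
      (∀ i ∈ S, |c i 2| + w i 2 ≤ B) →
      (∀ i, i ∉ S → (k : ℚ) * (2 * B + 1) - B ≤ c i 2 - w i 2) →
      (∀ i i', i ∉ S → i' ∉ S → i ≠ i' → SepAt c w i i' 2) →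
      (∀ i i', i ∈ S → i' ∈ S → i ≠ i' → ∃ d, SepAt c w i i' d) →
      ∃ c₁, Relation.ReflTransGen (Move w) c c₁ ∧ ∀ i i', i ≠ i' → SepAt c₁ w i i' 2 := by
  induction k with
  | zero =>
    intro c S hS _ _ hsep _
    have hS' : S = ∅ := Finset.card_eq_zero.mp hS
    subst hS'
    exact ⟨c, Relation.ReflTransGen.refl, fun i i' h => hsep i i' (by simp) (by simp) h⟩
  | succ k ih =>
    intro c S hS hB hlow hsep hval
    have hne : S.Nonempty := by
      rw [← Finset.card_pos, hS]; omega
    obtain ⟨i0, hi0, hmax⟩ := Finset.exists_max_image S (fun i => c i 2 - w i 2) hne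
    have hB0 : 0 ≤ B := by
      have h1 := hB i0 hi0
      have h2 := abs_nonneg (c i0 2)
      have h3 := hw i0 2
      linarith
    obtain ⟨v, hv⟩ : ∃ v : ℚ, v = (k : ℚ) * (2 * B + 1) := ⟨_, rfl⟩
    have hv0 : 0 ≤ v := by rw [hv]; positivity
    set cp : Fin n → Fin 3 → ℚ :=
      Function.update c i0 (Function.update (c i0) 2 (c i0 2 + v)) with hcp
    have hcp0 : cp i0 2 = c i0 2 + v := by simp [hcp]
    have hcpne : ∀ i, i ≠ i0 → cp i = c i := by
      intro i hi; simp [hcp, hi]
    have hi0B := hB i0 hi0
    have hi0abs := abs_le.mp (le_refl |c i0 2|)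
    have hlow' : ∀ i, i ∉ S → c i0 2 + v + w i0 2 < c i 2 - w i 2 := by
      intro i hi
      have h1 := hlow i hi
      push_cast at h1
      have h2 : ((k : ℚ) + 1) * (2 * B + 1) - B = v + B + 1 := by rw [hv]; ring
      rw [h2] at h1
      linarith [hi0abs.2]
    have hmove : Move w c cp := by
      refine ⟨i0, 2, v, rfl, ?_⟩
      intro i hi
      by_cases hiS : i ∈ S
      · obtain ⟨d, hd⟩ := hval i i0 hiS hi0 hi
        by_cases hd2 : d = 2
        · subst hd2
          right; left
          rw [min_eq_left (by linarith)]
          have hm := hmax i hiS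
          unfold SepAt at hd
          have hw0 := hw i0 2
          have hwi := hw i 2
          rcases le_total 0 (c i 2 - c i0 2) with h | h
          · rw [abs_of_nonneg h] at hd
            linarith
          · rw [abs_of_nonpos h] at hd
            linarith
        · exact Or.inl ⟨d, hd2, hd⟩
      · right; right
        rw [max_eq_right (by linarith)]
        exact hlow' i hiS
    obtain ⟨c₁, hreach, hfin⟩ := ih cp (S.erase i0) (by rw [Finset.card_erase_of_mem hi0, hS]; rfl)
      (by
        intro i hi
        have hne' := Finset.ne_of_mem_erase hi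
        rw [hcpne i hne']
        exact hB i (Finset.mem_of_mem_erase hi))
      (by
        intro i hi
        by_cases hii : i = i0
        · subst hii
          rw [hcp0]
          have : -B ≤ c i 2 - w i 2 := by linarith [hi0abs.1]
          rw [← hv]; linarith
        · rw [hcpne i hii]
          have hiS : i ∉ S := fun h => hi (Finset.mem_erase.mpr ⟨hii, h⟩)
          have h1 := hlow' i hiS
          have hw0 := hw i0 2
          rw [← hv]
          linarith [hi0abs.1])
      (by
        intro i i' hi hi' hii'
        have hcase : ∀ i, i ∉ S.erase i0 → i ≠ i0 → i ∉ S :=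
          fun i hi hne h => hi (Finset.mem_erase.mpr ⟨hne, h⟩)
        have hpair : ∀ i, i ∉ S → SepAt cp w i i0 2 := by
          intro i hiS
          have hne' : i ≠ i0 := fun h => hiS (h ▸ hi0)
          have h1 := hlow' i hiS
          unfold SepAt
          rw [hcpne i hne', hcp0, abs_of_pos (by have := hw i 2; have := hw i0 2; linarith)]
          linarith
        by_cases h1 : i = i0
        · subst h1
          exact (hpair i' (hcase i' hi' (Ne.symm hii'))).symm
        · by_cases h2 : i' = i0
          · subst h2
            exact hpair i (hcase i hi h1)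
          · have := hsep i i' (hcase i hi h1) (hcase i' hi' h2) hii'
            unfold SepAt at *
            rw [hcpne i h1, hcpne i' h2]; exact this)
      (by
        intro i i' hi hi' hii'
        obtain ⟨d, hd⟩ := hval i i' (Finset.mem_of_mem_erase hi) (Finset.mem_of_mem_erase hi') hii'
        refine ⟨d, ?_⟩
        unfold SepAt at *
        rw [hcpne i (Finset.ne_of_mem_erase hi), hcpne i' (Finset.ne_of_mem_erase hi')]
        exact hd)
    exact ⟨c₁, Relation.ReflTransGen.head hmove hreach, hfin⟩

theorem exists_lift {w c : Fin n → Fin 3 → ℚ} (hw : ∀ i d, 0 < w i d) (hc : Valid c w) :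
    ∃ c₁, Relation.ReflTransGen (Move w) c c₁ ∧ ∀ i i', i ≠ i' → SepAt c₁ w i i' 2 := by
  set B : ℚ := ∑ i, (|c i 2| + w i 2) with hB
  apply lift_aux hw B n c Finset.univ (by simp)
  · intro i _
    rw [hB]
    exact Finset.single_le_sum (f := fun i => |c i 2| + w i 2)
      (fun i _ => add_nonneg (abs_nonneg _) (hw i 2).le) (Finset.mem_univ i)
  · intro i hi; exact absurd (Finset.mem_univ i) hi
  · intro i _ hi; exact absurd (Finset.mem_univ i) hi
  · intro i i' _ _ h; exact hc i i' h

theorem conn_of_valid {w c c' : Fin n → Fin 3 → ℚ} (hw : ∀ i d, 0 < w i d)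
    (hc : Valid c w) (hc' : Valid c' w) : Relation.ReflTransGen (Move w) c c' := by
  obtain ⟨c₁, h1, hs1⟩ := exists_lift hw hc
  obtain ⟨c₁', h1', hs1'⟩ := exists_lift hw hc'
  -- spread in the coordinate 0
  set Big : ℚ := 2 * ∑ i, w i 0 + 1 with hBig
  have hwle : ∀ i, w i 0 ≤ ∑ i, w i 0 := fun i =>
    Finset.single_le_sum (f := fun i => w i 0) (fun i _ => (hw i 0).le) (Finset.mem_univ i)
  set X : Fin n → ℚ := fun i => (i : ℕ) * Big with hX
  have hBigpos : 0 < Big := by
    have : 0 ≤ ∑ i, w i 0 := Finset.sum_nonneg fun i _ => (hw i 0).le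
    rw [hBig]; linarith
  have hXsep : ∀ i i' : Fin n, i ≠ i' → w i 0 + w i' 0 < |X i - X i'| := by
    intro i i' hii
    have h1 : (1 : ℚ) ≤ |((i : ℕ) : ℚ) - ((i' : ℕ) : ℚ)| := by
      have hne : ((i : ℕ) : ℤ) - ((i' : ℕ) : ℤ) ≠ 0 := by
        intro h
        apply hii
        apply Fin.ext
        omega
      have := Int.one_le_abs hne
      have h2 : ((|((i : ℕ) : ℤ) - ((i' : ℕ) : ℤ)| : ℤ) : ℚ) = |((i : ℕ) : ℚ) - ((i' : ℕ) : ℚ)| := by
        push_cast; rfl
      rw [← h2]
      exact_mod_cast this
    have h2 : |X i - X i'| = |((i : ℕ) : ℚ) - ((i' : ℕ) : ℚ)| * Big := by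
      simp only [hX]
      rw [← sub_mul, abs_mul, abs_of_pos hBigpos]
    rw [h2]
    have h3 : Big ≤ |((i : ℕ) : ℚ) - ((i' : ℕ) : ℚ)| * Big := by nlinarith
    have := hwle i
    have := hwle i'
    rw [hBig] at h3 ⊢
    linarith
  set c₂ : Fin n → Fin 3 → ℚ := fun i => Function.update (c₁ i) 0 (X i) with hc₂
  set c₂' : Fin n → Fin 3 → ℚ := fun i => Function.update (c₁' i) 0 (X i) with hc₂'
  have h2 : Relation.ReflTransGen (Move w) c₁ c₂ :=
    conn_of_sep 2 hs1 (fun i => by simp [hc₂])
  have h2' : Relation.ReflTransGen (Move w) c₁' c₂' :=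
    conn_of_sep 2 hs1' (fun i => by simp [hc₂'])
  have h3 : Relation.ReflTransGen (Move w) c₂ c₂' :=
    conn_of_sep 0 (fun i i' hii => by
      unfold SepAt
      simpa [hc₂] using hXsep i i' hii) (fun i => by simp [hc₂, hc₂'])
  have hback : Relation.ReflTransGen (Move w) c₂' c' := conn_symm (h1'.trans h2')
  exact ((h1.trans h2).trans h3).trans hback

end Crest.Agent.S0170
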