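import Crest.Agent.S0170_Reach

/-!
# S0170, package P8c: rescaling the boxes when they are far apart

`diag(λ,1/λ)` in the coordinates `(p,q)` is the composition of the four shears (applied in this
order) `y_q += -λ y_p`, `y_p += ((1-λ)/λ) y_q`, `y_q += y_p`, `y_p += (λ-1) y_q`; and
`diag(λ₀,λ₁,λ₂) = diag(1,λ₀λ₁,1/(λ₀λ₁)) ∘ diag(λ₀,1/λ₀,1)` when `λ₀λ₁λ₂ = 1`.  A shear about the centre `C`
is `shear j m (-β * C m) β`.  All intermediate images of the box stay in a cube of half-size `B` about
`C` (`B` exists by compactness, or explicitly).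
-/

set_option autoImplicit false
open Crest.AnalysisR.BoxFlow

namespace Crest.Agent.S0170

variable {n : ℕ}

/-- shear about the centre `c` -/
def cshear (c : Fin 3 → ℚ) (j m : Fin 3) (β : ℚ) (y : R3) : R3 := shear j m (-β * c m) β y

theorem cshear_apply (c : Fin 3 → ℚ) (j m : Fin 3) (β : ℚ) (y : R3) (d : Fin 3) :
    cshear c j m β y d = if d = j then y d + (β : ℝ) * (y m - (c m : ℝ)) else y d := by
  unfold cshear shear
  by_cases h : d = j
  · subst h
    simp
    ring
  · simp [h]

theorem continuous_cshear (c : Fin 3 → ℚ) (j m : Fin 3) (β : ℚ) : Continuous (cshear c j m β) := by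
  unfold cshear shear
  fun_prop

theorem cshear_bound (c : Fin 3 → ℚ) (j m : Fin 3) (β : ℚ) (y : R3) (b : ℝ)
    (hy : ∀ d, |y d - (c d : ℝ)| ≤ b) (d : Fin 3) :
    |cshear c j m β y d - (c d : ℝ)| ≤ (1 + |(β : ℝ)|) * b := by
  have hb : 0 ≤ b := (abs_nonneg _).trans (hy 0)
  rw [cshear_apply]
  split_ifs with h
  · calc |y d + (β : ℝ) * (y m - (c m : ℝ)) - (c d : ℝ)|
        = |(y d - (c d : ℝ)) + (β : ℝ) * (y m - (c m : ℝ))| := by ring_nf
      _ ≤ |y d - (c d : ℝ)| + |(β : ℝ) * (y m - (c m : ℝ))| := abs_add_le _ _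
      _ ≤ b + |(β : ℝ)| * b := by
          rw [abs_mul]
          exact add_le_add (hy d) (mul_le_mul_of_nonneg_left (hy m) (abs_nonneg _))
      _ = _ := by ring
  · calc |y d - (c d : ℝ)| ≤ b := hy d
      _ ≤ (1 + |(β : ℝ)|) * b := by nlinarith [abs_nonneg (β : ℝ)]

theorem Reach.cshear_step {K : Fin n → Set R3} {A : Fin n → R3 → R3} (h : Reach K A)
    (hA : ∀ i, Continuous (A i)) (C : Fin n → Fin 3 → ℚ) (B : ℚ)
    (hsep : ∀ i i', i ≠ i' → 2 * B + 1 < |C i 0 - C i' 0|)
    (i0 : Fin n) (j m : Fin 3) (hjm : j ≠ m) (β : ℚ)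
    (hin : ∀ x ∈ K i0, ∀ d, |A i0 x d - (C i0 d : ℝ)| < (B : ℝ))
    (hin' : ∀ x ∈ K i0, ∀ d, |cshear (C i0) j m β (A i0 x) d - (C i0 d : ℝ)| < (B : ℝ))
    (hout : ∀ i, i ≠ i0 → ∀ x ∈ K i, |A i x 0 - (C i 0 : ℝ)| ≤ (B : ℝ)) :
    Reach K (Function.update A i0 (fun x => cshear (C i0) j m β (A i0 x))) := by
  refine h.shear_step hA i0 j m hjm (-β * C i0 m) β (fun d => C i0 d - B) (fun d => C i0 d + B) 1
    one_pos ?_ ?_
  · intro x hx d
    have h1 := abs_lt.mp (hin x hx d)
    have h2 := abs_lt.mp (hin' x hx d)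
    unfold cshear at h2
    push_cast
    refine ⟨by linarith, by linarith, by linarith, by linarith⟩
  · intro i hi x hx
    refine ⟨0, ?_⟩
    have h1 := abs_le.mp (hout i hi x hx)
    have h2 : 2 * (B : ℝ) + 1 < |(C i 0 : ℝ) - (C i0 0 : ℝ)| := by exact_mod_cast hsep i i0 hi
    push_cast
    rcases lt_abs.mp h2 with h3 | h3
    · right; linarith
    · left; linarith

/-- composition of a list of centred shears (head applied first) -/
def applyL (c : Fin 3 → ℚ) : List (Fin 3 × Fin 3 × ℚ) → R3 → R3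
  | [], y => y
  | t :: l, y => applyL c l (cshear c t.1 t.2.1 t.2.2 y)

/-- growth factor of a list of shears -/
def factor : List (Fin 3 × Fin 3 × ℚ) → ℚ
  | [] => 1
  | t :: l => (1 + |t.2.2|) * factor l

theorem one_le_factor (l : List (Fin 3 × Fin 3 × ℚ)) : 1 ≤ factor l := by
  induction l with
  | nil => simp [factor]
  | cons t l ih =>
    simp only [factor]
    nlinarith [abs_nonneg t.2.2]

theorem Reach.shears {K : Fin n → Set R3} (C : Fin n → Fin 3 → ℚ) (B : ℚ)
    (hsep : ∀ i i', i ≠ i' → 2 * B + 1 < |C i 0 - C i' 0|) (i0 : Fin n)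
    (l : List (Fin 3 × Fin 3 × ℚ)) (hl : ∀ t ∈ l, t.1 ≠ t.2.1) :
    ∀ (A : Fin n → R3 → R3) (b : ℝ), Reach K A → (∀ i, Continuous (A i)) → 0 ≤ b →
      (∀ x ∈ K i0, ∀ d, |A i0 x d - (C i0 d : ℝ)| ≤ b) → b * (factor l : ℝ) < (B : ℝ) →
      (∀ i, i ≠ i0 → ∀ x ∈ K i, |A i x 0 - (C i 0 : ℝ)| ≤ (B : ℝ)) →
      Reach K (Function.update A i0 (fun x => applyL (C i0) l (A i0 x))) := by
  induction l with
  | nil =>
    intro A b h _ _ _ _ _
    simpa [applyL] using h
  | cons t l ih =>
    intro A b h hA hb hin hB hout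
    have hf1 : (1 : ℝ) ≤ (factor l : ℝ) := by exact_mod_cast one_le_factor l
    have hfac : (factor (t :: l) : ℝ) = (1 + |(t.2.2 : ℝ)|) * (factor l : ℝ) := by
      simp [factor]
    rw [hfac] at hB
    have habs : 0 ≤ |(t.2.2 : ℝ)| := abs_nonneg _
    have hb1 : (1 + |(t.2.2 : ℝ)|) * b < (B : ℝ) := by
      refine lt_of_le_of_lt ?_ hB
      have : 0 ≤ (1 + |(t.2.2 : ℝ)|) * b := by positivity
      nlinarith
    have hb0 : b < (B : ℝ) := by
      refine lt_of_le_of_lt ?_ hb1
      nlinarith
    have hstep := h.cshear_step hA C B hsep i0 t.1 t.2.1 (hl t (by simp)) t.2.2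
      (fun x hx d => lt_of_le_of_lt (hin x hx d) hb0)
      (fun x hx d => lt_of_le_of_lt (cshear_bound _ _ _ _ _ b (hin x hx) d) hb1) hout
    have := ih (fun t' ht' => hl t' (by simp [ht']))
      (Function.update A i0 (fun x => cshear (C i0) t.1 t.2.1 t.2.2 (A i0 x)))
      ((1 + |(t.2.2 : ℝ)|) * b) hstep ?_ (by positivity) ?_ ?_ ?_
    · simpa [applyL] using this
    · intro i
      by_cases hi : i = i0
      · subst hi
        rw [Function.update_self]
        exact (continuous_cshear _ _ _ _).comp (hA i)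
      · simpa [Function.update_of_ne hi] using hA i
    · intro x hx d
      simpa using cshear_bound _ _ _ _ _ b (hin x hx) d
    · calc (1 + |(t.2.2 : ℝ)|) * b * (factor l : ℝ) = b * ((1 + |(t.2.2 : ℝ)|) * (factor l : ℝ)) := by
            ring
        _ < _ := hB
    · intro i hi x hx
      simpa [Function.update_of_ne hi] using hout i hi x hx

/-- the four shears whose composition is `diag(λ, 1/λ)` in the coordinates `(p, q)` -/
def diagList (p q : Fin 3) (lam : ℚ) : List (Fin 3 × Fin 3 × ℚ) :=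
  [(q, p, -lam), (p, q, (1 - lam) / lam), (q, p, 1), (p, q, lam - 1)]

/-- the eight shears for `diag(l 0, l 1, l 2)` -/
def scaleList (l : Fin 3 → ℚ) : List (Fin 3 × Fin 3 × ℚ) :=
  diagList 0 1 (l 0) ++ diagList 1 2 (l 0 * l 1)

theorem scaleList_ne (l : Fin 3 → ℚ) : ∀ t ∈ scaleList l, t.1 ≠ t.2.1 := by
  intro t ht
  simp only [scaleList, diagList, List.cons_append, List.nil_append, List.mem_cons,
    List.not_mem_nil, or_false] at ht
  rcases ht with rfl | rfl | rfl | rfl | rfl | rfl | rfl | rfl <;> simp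

theorem applyL_scaleList (c l : Fin 3 → ℚ) (hl : ∀ d, 0 < l d) (hprod : l 0 * l 1 * l 2 = 1)
    (y : R3) : applyL c (scaleList l) y = fun d => (c d : ℝ) + (l d : ℝ) * (y d - (c d : ℝ)) := by
  have h0 : (l 0 : ℝ) ≠ 0 := by exact_mod_cast (hl 0).ne'
  have h1 : (l 1 : ℝ) ≠ 0 := by exact_mod_cast (hl 1).ne'
  have h2 : (l 2 : ℝ) = ((l 0 : ℝ) * (l 1 : ℝ))⁻¹ := by
    have : (l 0 : ℝ) * (l 1 : ℝ) * (l 2 : ℝ) = 1 := by exact_mod_cast hprod
    field_simp
    linarith
  funext d
  fin_cases d
  · simp [applyL, scaleList, diagList, cshear_apply]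
    field_simp
    ring
  · simp [applyL, scaleList, diagList, cshear_apply]
    field_simp
    ring
  · simp [applyL, scaleList, diagList, cshear_apply, h2]
    field_simp
    ring


theorem exists_rescale (n : ℕ) (a h k : Fin n → Fin 3 → ℚ)
    (hh : ∀ i j, 0 < h i j) (hk : ∀ i j, 0 < k i j) (hvol : ∀ i, ∏ j : Fin 3, k i j / h i j = 1) :
    ∃ B : ℚ, 0 < B ∧ (∀ i d, h i d ≤ B ∧ k i d ≤ B) ∧
      ∀ C : Fin n → Fin 3 → ℚ, (∀ i i', i ≠ i' → 2 * B + 1 < |C i 0 - C i' 0|) →
        Reach (fun i => box (a i) (h i)) (fun i x => x + ratPoint (C i - a i)) →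
        Reach (fun i => box (a i) (h i))
          (fun i x j => (C i j : ℝ) + ((k i j / h i j : ℚ) : ℝ) * (x j - (a i j : ℝ))) := by
  classical
  set lam : Fin n → Fin 3 → ℚ := fun i j => k i j / h i j with hlam
  have hlam0 : ∀ i j, 0 < lam i j := fun i j => div_pos (hk i j) (hh i j)
  have hprod : ∀ i, lam i 0 * lam i 1 * lam i 2 = 1 := by
    intro i
    have := hvol i
    rwa [Fin.prod_univ_three] at this
  set bb : Fin n → ℚ := fun i => ∑ d, (h i d + k i d) with hbb
  have hbb0 : ∀ i, 0 ≤ bb i := fun i =>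
    Finset.sum_nonneg fun d _ => (add_pos (hh i d) (hk i d)).le
  have hbbh : ∀ i d, h i d + k i d ≤ bb i := fun i d =>
    Finset.single_le_sum (f := fun d => h i d + k i d)
      (fun d _ => (add_pos (hh i d) (hk i d)).le) (Finset.mem_univ d)
  set T : Fin n → ℚ := fun i => bb i * factor (scaleList (lam i)) with hT
  have hT0 : ∀ i, 0 ≤ T i := fun i =>
    mul_nonneg (hbb0 i) (zero_le_one.trans (one_le_factor _))
  have hTb : ∀ i, bb i ≤ T i := fun i => by
    have := one_le_factor (scaleList (lam i))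
    simp only [hT]
    nlinarith [hbb0 i]
  set B : ℚ := 1 + ∑ i, T i with hB
  have hTB : ∀ i, T i < B := fun i => by
    have := Finset.single_le_sum (f := T) (fun i _ => hT0 i) (Finset.mem_univ i)
    simp only [hB]
    linarith
  have hhB : ∀ i d, h i d ≤ B ∧ k i d ≤ B := fun i d => by
    have h1 := hbbh i d
    have h2 := hTb i
    have h3 := hTB i
    have h4 := hh i d
    have h5 := hk i d
    constructor <;> linarith
  refine ⟨B, by have := Finset.sum_nonneg (fun i (_ : i ∈ Finset.univ) => hT0 i); linarith, hhB, ?_⟩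
  intro C hsep hR
  set K : Fin n → Set R3 := fun i => box (a i) (h i) with hK
  set Tr : Fin n → R3 → R3 := fun i x => x + ratPoint (C i - a i) with hTr
  set F : Fin n → R3 → R3 :=
    fun i x j => (C i j : ℝ) + ((k i j / h i j : ℚ) : ℝ) * (x j - (a i j : ℝ)) with hF
  have hTrc : ∀ i, Continuous (Tr i) := fun i => by
    simp only [hTr]; fun_prop
  have hFc : ∀ i, Continuous (F i) := fun i => by
    simp only [hF]; fun_prop
  have hTrb : ∀ i, ∀ x ∈ K i, ∀ d, |Tr i x d - (C i d : ℝ)| ≤ (h i d : ℝ) := by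
    intro i x hx d
    have := hx d
    simp only [hTr, ratPoint, Pi.add_apply, Pi.sub_apply]
    push_cast
    convert this using 2
    ring
  have hFb : ∀ i, ∀ x ∈ K i, ∀ d, |F i x d - (C i d : ℝ)| ≤ (k i d : ℝ) := by
    intro i x hx d
    have := hx d
    have hpos : (0 : ℝ) < (h i d : ℝ) := by exact_mod_cast hh i d
    have hkpos : (0 : ℝ) < (k i d : ℝ) := by exact_mod_cast hk i d
    simp only [hF]
    push_cast
    rw [add_sub_cancel_left, abs_mul, abs_of_pos (div_pos hkpos hpos), div_mul_eq_mul_div,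
      div_le_iff₀ hpos]
    exact mul_le_mul_of_nonneg_left this hkpos.le
  have key : ∀ s : Finset (Fin n), Reach K (fun i => if i ∈ s then F i else Tr i) := by
    intro s
    induction s using Finset.induction_on with
    | empty => simpa using hR
    | insert i0 s hi0 ih =>
      have hc : ∀ i, Continuous ((fun i => if i ∈ s then F i else Tr i) i) := by
        intro i
        by_cases hi : i ∈ s
        · simpa [hi] using hFc i
        · simpa [hi] using hTrc i
      have := Reach.shears C B hsep i0 (scaleList (lam i0)) (scaleList_ne _)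
        (fun i => if i ∈ s then F i else Tr i) (bb i0 : ℝ) ih hc (by exact_mod_cast hbb0 i0) ?_ ?_ ?_
      · convert this using 1
        funext i
        by_cases hi : i = i0
        · subst hi
          simp only [Finset.mem_insert, true_or, if_true, Function.update_self, hi0, if_false]
          funext x
          rw [applyL_scaleList _ _ (hlam0 i) (hprod i)]
          funext d
          simp only [hF, hTr, hlam, ratPoint, Pi.add_apply, Pi.sub_apply]
          push_cast
          ring
        · simp [Finset.mem_insert, hi]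
      · intro x hx d
        simp only [hi0, if_false]
        refine (hTrb i0 x hx d).trans ?_
        have h1 := hbbh i0 d
        have h2 := hk i0 d
        exact_mod_cast (by linarith : h i0 d ≤ bb i0)
      · exact_mod_cast hTB i0
      · intro i _ x hx
        by_cases his : i ∈ s
        · simp only [his, if_true]
          exact (hFb i x hx 0).trans (by exact_mod_cast (hhB i 0).2)
        · simp only [his, if_false]
          exact (hTrb i x hx 0).trans (by exact_mod_cast (hhB i 0).1)
  simpa using key Finset.univ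

end Crest.Agent.S0170
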