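import Crest.Statements.S0170
import Crest.Agent.S0170_Conn
import Crest.Agent.S0170_Rescale

set_option autoImplicit false
open scoped ContDiff
open Crest.AnalysisR.BoxFlow
open Crest Crest.AnalysisR

namespace Crest.Agent.S0170

theorem valid_of_disjoint {n : ℕ} (a h : Fin n → Fin 3 → ℚ) (hh : ∀ i j, 0 < h i j)
    (ha : Pairwise fun i i' => Disjoint (box (a i) (h i)) (box (a i') (h i'))) : Valid a h := by
  intro i i' hii
  by_contra hcon
  push Not at hcon
  have hd : Disjoint (box (a i) (h i)) (box (a i') (h i')) := ha hii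
  rw [Set.disjoint_left] at hd
  refine hd (a := fun d => ((max (a i d - h i d) (a i' d - h i' d) : ℚ) : ℝ)) ?_ ?_
  · intro d
    have h1 := hcon d
    unfold SepAt at h1
    rw [not_lt] at h1
    have h2 := hh i d
    have h3 := hh i' d
    have key : |max (a i d - h i d) (a i' d - h i' d) - a i d| ≤ h i d := by
      rw [abs_le] at h1 ⊢
      constructor
      · have := le_max_left (a i d - h i d) (a i' d - h i' d); linarith
      · have : max (a i d - h i d) (a i' d - h i' d) ≤ a i d + h i d :=
          max_le (by linarith) (by linarith [h1.1])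
        linarith
    show |((max (a i d - h i d) (a i' d - h i' d) : ℚ) : ℝ) - (a i d : ℝ)| ≤ (h i d : ℝ)
    exact_mod_cast key
  · intro d
    have h1 := hcon d
    unfold SepAt at h1
    rw [not_lt] at h1
    have h2 := hh i d
    have h3 := hh i' d
    have key : |max (a i d - h i d) (a i' d - h i' d) - a i' d| ≤ h i' d := by
      rw [abs_le] at h1 ⊢
      constructor
      · have := le_max_right (a i d - h i d) (a i' d - h i' d); linarith
      · have : max (a i d - h i d) (a i' d - h i' d) ≤ a i' d + h i' d :=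
          max_le (by linarith [h1.2]) (by linarith)
        linarith
    show |((max (a i d - h i d) (a i' d - h i' d) : ℚ) : ℝ) - (a i' d : ℝ)| ≤ (h i' d : ℝ)
    exact_mod_cast key

theorem exists_realizable (n : ℕ) (a b h k : Fin n → Fin 3 → ℚ)
    (hh : ∀ i j, 0 < h i j) (hk : ∀ i j, 0 < k i j)
    (ha : Pairwise fun i i' => Disjoint (box (a i) (h i)) (box (a i') (h i')))
    (hb : Pairwise fun i i' => Disjoint (box (b i) (k i)) (box (b i') (k i')))
    (hvol : ∀ i, ∏ j : Fin 3, k i j / h i j = 1) :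
    Reach (fun i => box (a i) (h i))
      (fun i x j => (b i j : ℝ) + ((k i j / h i j : ℚ) : ℝ) * (x j - (a i j : ℝ))) := by
  obtain ⟨B, hB0, hB, hres⟩ := exists_rescale n a h k hh hk hvol
  -- canonical centres
  set C : Fin n → Fin 3 → ℚ := fun i d => if d = 0 then (i : ℚ) * (2 * B + 2) else 0 with hC
  have hfar : ∀ i i' : Fin n, i ≠ i' → 2 * B + 1 < |C i 0 - C i' 0| := by
    intro i i' hii
    have h1 : C i 0 - C i' 0 = ((i : ℚ) - (i' : ℚ)) * (2 * B + 2) := by simp [hC]; ring
    rw [h1, abs_mul, abs_of_pos (by linarith : (0 : ℚ) < 2 * B + 2)]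
    have h2 : (1 : ℚ) ≤ |(i : ℚ) - (i' : ℚ)| := by
      have h3 : ((i : ℕ) : ℤ) - ((i' : ℕ) : ℤ) ≠ 0 := by
        intro h4
        apply hii
        apply Fin.ext
        omega
      have h5 : (1 : ℤ) ≤ |((i : ℕ) : ℤ) - ((i' : ℕ) : ℤ)| := Int.one_le_abs h3
      exact_mod_cast h5
    nlinarith
  have hvalC : ∀ w : Fin n → Fin 3 → ℚ, (∀ i d, w i d ≤ B) → Valid C w := by
    intro w hw i i' hii
    refine ⟨0, ?_⟩
    unfold SepAt
    have := hfar i i' hii
    linarith [hw i 0, hw i' 0]
  have hVa : Valid a h := valid_of_disjoint a h hh ha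
  have hVb : Valid b k := valid_of_disjoint b k hk hb
  -- step 1: translate to canonical position
  have s1 : Reach (fun i => box (a i) (h i)) (fun i x => x + ratPoint (C i - a i)) :=
    Reach.conn (w := h) (c := a) (c' := C) (reach_id _) (fun _ => continuous_id)
      (fun i x hx => hx) (conn_of_valid hh hVa (hvalC h fun i d => (hB i d).1))
  -- step 2: rescale
  have s2 := hres C hfar s1
  -- step 3: translate to the targets
  have hcont : ∀ i : Fin n, Continuous
      (fun (x : R3) (j : Fin 3) => (C i j : ℝ) + ((k i j / h i j : ℚ) : ℝ) * (x j - (a i j : ℝ))) := by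
    intro i
    fun_prop
  have hsub : ∀ i : Fin n, ∀ x ∈ box (a i) (h i),
      (fun j : Fin 3 => (C i j : ℝ) + ((k i j / h i j : ℚ) : ℝ) * (x j - (a i j : ℝ))) ∈
        box (C i) (k i) := by
    intro i x hx j
    have h1 := hx j
    have h2 : (0 : ℝ) < (h i j : ℝ) := by exact_mod_cast hh i j
    have h3 : (0 : ℝ) < (k i j : ℝ) := by exact_mod_cast hk i j
    simp only [add_sub_cancel_left]
    rw [abs_mul]
    push_cast
    rw [abs_of_pos (div_pos h3 h2), div_mul_eq_mul_div, div_le_iff₀ h2]
    exact mul_le_mul_of_nonneg_left h1 h3.le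
  have s3 := Reach.conn (w := k) (c := C) (c' := b) s2 hcont hsub
    (conn_of_valid hk (hvalC k fun i d => (hB i d).2) hVb)
  convert s3 using 3 with i x
  ext j
  simp [ratPoint]
  ring

/-- Finitely many pairwise disjoint rational boxes in 3-space are carried onto disjoint target boxes, each a translated determinant-one positive diagonal rescaling of its source, by the time-one flow of a smooth, compactly supported, effective, divergence-free velocity field active only in [1/4,3/4]. The flow equals the prescribed affine map on a neighbourhood of each source box. Effective: computably approximable mixed derivatives at rational points and computable global derivative bounds. -/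
theorem result
    (n : ℕ) (a b h k : Fin n → Fin 3 → ℚ)
    (hh : ∀ i j, 0 < h i j) (hk : ∀ i j, 0 < k i j)
    (ha : Pairwise fun i i' => Disjoint (box (a i) (h i)) (box (a i') (h i')))
    (hb : Pairwise fun i i' => Disjoint (box (b i) (k i)) (box (b i') (k i')))
    (hvol : ∀ i, ∏ j : Fin 3, k i j / h i j = 1) :
    ∃ (U : Field) (Φ : ℝ → (Fin 3 → ℝ) → (Fin 3 → ℝ)),
      ContDiff ℝ ∞ U ∧ HasCompactSupport U ∧ Effective U ∧
      (∀ p : ℝ × (Fin 3 → ℝ), p.1 ∉ Set.Icc (1 / 4 : ℝ) (3 / 4) → U p = 0) ∧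
      (∀ p : ℝ × (Fin 3 → ℝ), spaceDiv U p = 0) ∧ IsFlow U Φ ∧
      ∀ i : Fin n, ∃ O : Set (Fin 3 → ℝ), IsOpen O ∧ box (a i) (h i) ⊆ O ∧
        ∀ x ∈ O, Φ 1 x = fun j => (b i j : ℝ) + ((k i j / h i j : ℚ) : ℝ) * (x j - (a i j : ℝ)) := by
  obtain ⟨Ψ, hΨ, hO⟩ := exists_realizable n a b h k hh hk ha hb hvol
  obtain ⟨U, Φ, hG, h1⟩ := hΨ (1 / 4) (3 / 4) (by norm_num) (by norm_num) (by norm_num)
  refine ⟨U, Φ, hG.smooth, hG.supp, hG.eff, ?_, hG.div, hG.flow, ?_⟩
  · intro p hp
    apply hG.time p
    simpa using hp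
  · intro i
    obtain ⟨O, hO1, hO2, hO3⟩ := hO i
    exact ⟨O, hO1, hO2, fun x hx => by rw [h1]; exact hO3 x hx⟩

end Crest.Agent.S0170
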