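import Crest.Prelude.Def_BoxFlow

/-!
# S0170 (row 126): shared definitions

Plan (see notes/row126_plan.md).  All fields are finite sums of "stage fields"
`U (t,x) = χ'(t) • V(x)` whose components are products of one–variable functions (`sepField`).
One–variable functions are built from one smooth step function `step` (base-2 version of
`Real.smoothTransition`, so that its values at rational points can be compared with rationals by
integer arithmetic only).
-/

set_option autoImplicit false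

open scoped ContDiff
open Crest.AnalysisR.BoxFlow

namespace Crest.Agent.S0170

/-- three-space -/
abbrev R3 : Type := Fin 3 → ℝ

/-! ## One-variable layer -/

/-- `2^(-1/x)` for `x > 0`, `0` for `x ≤ 0`. -/
noncomputable def flat2 (x : ℝ) : ℝ := expNegInvGlue (x / Real.log 2)

/-- Smooth step: `0` on `(-∞,0]`, `1` on `[1,∞)`, and `1/(1+2^(1/x-1/(1-x)))` on `(0,1)`. -/
noncomputable def step (x : ℝ) : ℝ := flat2 x / (flat2 x + flat2 (1 - x))

/-- Plateau function: `1` on `[lo,hi]`, `0` outside `(lo-η,hi+η)`. -/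
noncomputable def plat (lo hi η : ℚ) (s : ℝ) : ℝ :=
  step ((s - lo + η) / η) * step ((hi + η - s) / η)

/-- values at rational points are approximable by a primitive recursive function -/
def Approx1 (g : ℝ → ℝ) : Prop :=
  ∃ a : ℚ × ℕ → ℚ, Primrec a ∧
    ∀ (x : ℚ) (n : ℕ), |g (x : ℝ) - (a (x, n) : ℝ)| ≤ 1 / ((n : ℝ) + 1)

/-- all derivatives are globally bounded, by a primitive recursive function of the order -/
def Bdd1 (g : ℝ → ℝ) : Prop :=
  ∃ β : ℕ → ℕ, Primrec β ∧ ∀ (k : ℕ) (x : ℝ), |iteratedDeriv k g x| ≤ (β k : ℝ)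

/-- one-variable effectivity -/
structure Nice1 (g : ℝ → ℝ) : Prop where
  smooth : ContDiff ℝ ∞ g
  approx : ∃ a : ℕ × ℚ × ℕ → ℚ, Primrec a ∧ ∀ (k : ℕ) (x : ℚ) (n : ℕ),
    |iteratedDeriv k g (x : ℝ) - (a (k, x, n) : ℝ)| ≤ 1 / ((n : ℝ) + 1)
  bdd : Bdd1 g

/-! ## Separable fields -/

/-- the `d`-th space-time coordinate (`0` = time) -/
def coord (d : Fin 4) (p : ℝ × R3) : ℝ := if h : d = 0 then p.1 else p.2 (d.pred h)

/-- the field whose `j`-th component is `∏ d, g j d (coord d p)` -/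
noncomputable def sepField (g : Fin 3 → Fin 4 → ℝ → ℝ) : Field :=
  fun p j => ∏ d : Fin 4, g j d (coord d p)

/-! ## Realizable maps -/

/-- `U` is an admissible field active only during `[T0,T1]` and `Φ` is its flow. -/
structure GoodOn (T0 T1 : ℝ) (U : Field) (Φ : ℝ → R3 → R3) : Prop where
  smooth : ContDiff ℝ ∞ U
  supp : HasCompactSupport U
  eff : Effective U
  time : ∀ p : ℝ × R3, p.1 ∉ Set.Icc T0 T1 → U p = 0
  div : ∀ p : ℝ × R3, spaceDiv U p = 0
  flow : IsFlow U Φ

/-- `Ψ` is the time-one map of an admissible flow, which can be scheduled in any rational time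
window inside `(0,1)`. -/
def Realizable (Ψ : R3 → R3) : Prop :=
  ∀ T0 T1 : ℚ, 0 < T0 → T0 < T1 → T1 < 1 →
    ∃ (U : Field) (Φ : ℝ → R3 → R3), GoodOn (T0 : ℝ) (T1 : ℝ) U Φ ∧ Φ 1 = Ψ

/-- the shear `y ↦ y + (α + β y_m) e_j` -/
def shear (j m : Fin 3) (α β : ℚ) (y : R3) : R3 :=
  y + ((α : ℝ) + (β : ℝ) * y m) • (Pi.single j (1 : ℝ) : R3)

/-- closed rational box given by lower and upper corners -/
def cbox (lo hi : Fin 3 → ℚ) : Set R3 := {y | ∀ d, (lo d : ℝ) ≤ y d ∧ y d ≤ (hi d : ℝ)}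

/-- `Reach K A`: some realizable map agrees with `A i` on a neighbourhood of `K i`, for all `i`. -/
def Reach {n : ℕ} (K : Fin n → Set R3) (A : Fin n → R3 → R3) : Prop :=
  ∃ Ψ : R3 → R3, Realizable Ψ ∧
    ∀ i, ∃ O : Set R3, IsOpen O ∧ K i ⊆ O ∧ ∀ x ∈ O, Ψ x = A i x

end Crest.Agent.S0170
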