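import Crest.Agent.S0170_Sep

/-!
# S0170, package P6: flows of smooth compactly supported fields; composition of realizable maps
-/

set_option autoImplicit false
open scoped ContDiff
open Crest.AnalysisR.BoxFlow

namespace Crest.Agent.S0170

/-- a solution on `[-(n+1), n+1]` -/
theorem exists_curve_Icc {U : Field} (hU : Continuous U) {K : NNReal}
    (hK : ∀ t, LipschitzWith K (fun x => U (t, x))) {L : ℝ} (hL : ∀ p, ‖U p‖ ≤ L) (x : R3) (n : ℕ) :
    ∃ α : ℝ → R3, α 0 = x ∧ ∀ t ∈ Set.Ioo (-((n : ℝ) + 1)) ((n : ℝ) + 1),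
      HasDerivAt α (U (t, α t)) t := by
  have hL0 : 0 ≤ L := le_trans (norm_nonneg _) (hL (0, 0))
  set T : ℝ := (n : ℝ) + 1 with hT
  have hTpos : 0 < T := by positivity
  have h0 : (0 : ℝ) ∈ Set.Icc (-T) T := ⟨by linarith, by linarith⟩
  have hPL : IsPicardLindelof (fun t y => U (t, y)) (tmin := -T) (tmax := T) ⟨0, h0⟩ x
      (Real.toNNReal (L * T)) 0 (Real.toNNReal L) K := by
    refine ⟨fun t _ => (hK t).lipschitzOnWith, fun y _ => ?_, fun t _ y _ => ?_, ?_⟩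
    · exact (hU.comp (by fun_prop : Continuous fun t : ℝ => (t, y))).continuousOn
    · rw [Real.coe_toNNReal _ hL0]; exact hL _
    · rw [Real.coe_toNNReal _ hL0, Real.coe_toNNReal _ (by positivity)]
      simp
  obtain ⟨α, hα0, hα⟩ := hPL.exists_eq_forall_mem_Icc_hasDerivWithinAt₀
  refine ⟨α, hα0, fun t ht => ?_⟩
  exact (hα t (Set.Ioo_subset_Icc_self ht)).hasDerivAt (Icc_mem_nhds ht.1 ht.2)

theorem exists_curve {U : Field} (hU : Continuous U) {K : NNReal}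
    (hK : ∀ t, LipschitzWith K (fun x => U (t, x))) {L : ℝ} (hL : ∀ p, ‖U p‖ ≤ L) (x : R3) :
    ∃ γ : ℝ → R3, γ 0 = x ∧ ∀ t, HasDerivAt γ (U (t, γ t)) t := by
  choose α hα0 hα using fun n : ℕ => exists_curve_Icc hU hK hL x n
  -- compatibility
  have hcompat : ∀ n m : ℕ, n ≤ m → Set.EqOn (α n) (α m) (Set.Ioo (-((n : ℝ) + 1)) ((n : ℝ) + 1)) := by
    intro n m hnm
    have hnm' : (n : ℝ) ≤ m := by exact_mod_cast hnm
    have hn0 : (0 : ℝ) ≤ n := Nat.cast_nonneg n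
    apply ODE_solution_unique_of_mem_Ioo (v := fun t y => U (t, y)) (s := fun _ => Set.univ)
      (K := K) (t₀ := 0)
    · intro t _; exact (hK t).lipschitzOnWith
    · constructor <;> linarith
    · intro t ht; exact ⟨hα n t ht, trivial⟩
    · intro t ht
      exact ⟨hα m t ⟨by linarith [ht.1], by linarith [ht.2]⟩, trivial⟩
    · rw [hα0, hα0]
  refine ⟨fun t => α ⌈|t|⌉₊ t, ?_, fun t => ?_⟩
  · simp [hα0]
  · set N : ℕ := ⌈|t|⌉₊ + 1 with hN
    have hmem : ∀ s : ℝ, s ∈ Set.Ioo (-((⌈|s|⌉₊ : ℝ) + 1)) ((⌈|s|⌉₊ : ℝ) + 1) := by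
      intro s
      have h1 : |s| ≤ (⌈|s|⌉₊ : ℝ) := Nat.le_ceil _
      have h2 := abs_le.mp h1
      constructor <;> linarith [h2.1, h2.2]
    have hev : (fun s => α ⌈|s|⌉₊ s) =ᶠ[nhds t] α N := by
      have hball : Set.Ioo (t - 1) (t + 1) ∈ nhds t := Ioo_mem_nhds (by linarith) (by linarith)
      filter_upwards [hball] with s hs
      have hle : ⌈|s|⌉₊ ≤ N := by
        rw [hN, Nat.ceil_le]
        push_cast
        have h1 : |t| ≤ (⌈|t|⌉₊ : ℝ) := Nat.le_ceil _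
        have h2 : |s| ≤ |t| + 1 := by
          have : |s - t| ≤ 1 := by rw [abs_le]; constructor <;> linarith [hs.1, hs.2]
          calc |s| = |t + (s - t)| := by ring_nf
            _ ≤ |t| + |s - t| := abs_add_le _ _
            _ ≤ |t| + 1 := by linarith
        linarith
      exact hcompat _ _ hle (hmem s)
    have htN : t ∈ Set.Ioo (-((N : ℝ) + 1)) ((N : ℝ) + 1) := by
      have := hmem t
      rw [hN]; push_cast
      constructor <;> linarith [this.1, this.2]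
    have hval : α ⌈|t|⌉₊ t = α N t := hev.eq_of_nhds
    have := hα N t htN
    show HasDerivAt (fun s => α ⌈|s|⌉₊ s) (U (t, α ⌈|t|⌉₊ t)) t
    rw [hval]
    exact this.congr_of_eventuallyEq hev

/-- global existence (Picard–Lindelöf on `[-1,2]` with a large ball, then extend; or glue) for
bounded fields which are Lipschitz in space, uniformly in time.  Also used for autonomous fields. -/
theorem exists_flow_of_lipschitz {U : Field} (hU : Continuous U) {K : NNReal}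
    (hK : ∀ t, LipschitzWith K (fun x => U (t, x))) {L : ℝ} (hL : ∀ p, ‖U p‖ ≤ L) :
    ∃ Φ : ℝ → R3 → R3, IsFlow U Φ := by
  choose γ hγ0 hγ using fun x : R3 => exists_curve hU hK hL x
  exact ⟨fun t x => γ x t, fun x => hγ0 x, fun t x => hγ x t⟩

/-- uniqueness of integral curves -/
theorem flow_eq_of_curve_of_lipschitz {U : Field} {K : NNReal}
    (hK : ∀ t, LipschitzWith K (fun x => U (t, x)))
    {Φ : ℝ → R3 → R3} (hΦ : IsFlow U Φ) (γ : ℝ → R3)
    (hγ : ∀ t, HasDerivAt γ (U (t, γ t)) t) (t : ℝ) : Φ t (γ 0) = γ t := by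
  have := ODE_solution_unique_univ (v := fun t y => U (t, y)) (s := fun _ => Set.univ) (K := K)
    (f := fun s => Φ s (γ 0)) (g := γ) (t₀ := 0)
    (fun t => (hK t).lipschitzOnWith) (fun t => ⟨hΦ.2 t (γ 0), trivial⟩)
    (fun t => ⟨hγ t, trivial⟩) (hΦ.1 (γ 0))
  exact congrFun this t

theorem exists_lipschitz_of_smooth {U : Field} (hU : ContDiff ℝ ∞ U) (hc : HasCompactSupport U) :
    ∃ K : NNReal, ∀ t, LipschitzWith K (fun x => U (t, x)) := by
  obtain ⟨C, hC⟩ := ContDiff.lipschitzWith_of_hasCompactSupport hc hU (by simp)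
  refine ⟨C, fun t => ?_⟩
  have h1 : LipschitzWith 1 (fun x : R3 => ((t, x) : ℝ × R3)) := by
    apply LipschitzWith.of_dist_le_mul
    intro x y
    simp [Prod.dist_eq]
  have h2 := hC.comp h1
  rw [mul_one] at h2
  exact h2

theorem exists_bound_of_smooth {U : Field} (hU : ContDiff ℝ ∞ U) (hc : HasCompactSupport U) :
    ∃ L : ℝ, ∀ p, ‖U p‖ ≤ L :=
  hc.exists_bound_of_continuous hU.continuous

theorem exists_flow {U : Field} (hU : ContDiff ℝ ∞ U) (hc : HasCompactSupport U) :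
    ∃ Φ : ℝ → R3 → R3, IsFlow U Φ := by
  obtain ⟨K, hK⟩ := exists_lipschitz_of_smooth hU hc
  obtain ⟨L, hL⟩ := exists_bound_of_smooth hU hc
  exact exists_flow_of_lipschitz hU.continuous hK hL

theorem flow_eq_of_curve {U : Field} (hU : ContDiff ℝ ∞ U) (hc : HasCompactSupport U)
    {Φ : ℝ → R3 → R3} (hΦ : IsFlow U Φ) (γ : ℝ → R3)
    (hγ : ∀ t, HasDerivAt γ (U (t, γ t)) t) (t : ℝ) : Φ t (γ 0) = γ t := by
  obtain ⟨K, hK⟩ := exists_lipschitz_of_smooth hU hc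
  exact flow_eq_of_curve_of_lipschitz hK hΦ γ hγ t

theorem realizable_id : Realizable (fun y => y) := by
  intro T0 T1 _ _ _
  refine ⟨fun _ => 0, fun _ x => x, ⟨contDiff_const, HasCompactSupport.zero, effective_zero,
    fun _ _ => rfl, fun p => ?_, fun _ => rfl, fun t x => ?_⟩, rfl⟩
  · simp [spaceDiv]
  · simpa using hasDerivAt_const t x

/-- a flow is stationary on an open interval on which the field vanishes -/
theorem flow_const_of_zero {U : Field} {Φ : ℝ → R3 → R3} (hΦ : IsFlow U Φ) {s : Set ℝ}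
    (hs : IsOpen s) (hs' : IsPreconnected s) (hz : ∀ p : ℝ × R3, p.1 ∈ s → U p = 0)
    {t t' : ℝ} (ht : t ∈ s) (ht' : t' ∈ s) (x : R3) : Φ t x = Φ t' x := by
  apply hs.is_const_of_deriv_eq_zero hs' (f := fun r => Φ r x)
  · intro r _; exact (hΦ.2 r x).differentiableAt.differentiableWithinAt
  · intro r hr
    rw [(hΦ.2 r x).deriv, hz _ hr]; rfl
  · exact ht
  · exact ht'

theorem spaceDiv_add {U V : Field} (hU : ContDiff ℝ ∞ U) (hV : ContDiff ℝ ∞ V) (p : ℝ × R3) :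
    spaceDiv (fun p => U p + V p) p = spaceDiv U p + spaceDiv V p := by
  have h1 : DifferentiableAt ℝ U p := (hU.differentiable (by simp)).differentiableAt
  have h2 : DifferentiableAt ℝ V p := (hV.differentiable (by simp)).differentiableAt
  unfold spaceDiv
  rw [fderiv_fun_add h1 h2, ← Finset.sum_add_distrib]
  rfl

/-- schedule `Ψ₁` in `[T0,(2T0+T1)/3]` and `Ψ₂` in `[(T0+2T1)/3,T1]`; the flow of the sum of the two
fields is `Φ t x = Φ₂ t (Φ₁ t x)`. -/
theorem Realizable.comp {Ψ₁ Ψ₂ : R3 → R3} (h₁ : Realizable Ψ₁) (h₂ : Realizable Ψ₂) :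
    Realizable (fun y => Ψ₂ (Ψ₁ y)) := by
  intro T0 T1 h0 h01 h1
  set Ta : ℚ := (2 * T0 + T1) / 3 with hTa
  set Tb : ℚ := (T0 + 2 * T1) / 3 with hTb
  have ha1 : T0 < Ta := by rw [hTa]; linarith
  have hab : Ta < Tb := by rw [hTa, hTb]; linarith
  have hb1 : Tb < T1 := by rw [hTb]; linarith
  obtain ⟨U₁, Φ₁, g₁, e₁⟩ := h₁ T0 Ta h0 ha1 (by linarith)
  obtain ⟨U₂, Φ₂, g₂, e₂⟩ := h₂ Tb T1 (by linarith) hb1 h1
  have h0' : (0 : ℝ) < T0 := by exact_mod_cast h0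
  have ha1' : (T0 : ℝ) < Ta := by exact_mod_cast ha1
  have hab' : (Ta : ℝ) < Tb := by exact_mod_cast hab
  have hb1' : (Tb : ℝ) < T1 := by exact_mod_cast hb1
  have h1' : (T1 : ℝ) < 1 := by exact_mod_cast h1
  -- `Φ₂` is the identity before `Tb`
  have hΦ₂ : ∀ s : ℝ, s < Tb → ∀ y, Φ₂ s y = y := by
    intro s hs y
    refine Eq.trans ?_ (g₂.flow.1 y)
    apply flow_const_of_zero g₂.flow (s := Set.Iio (Tb : ℝ)) isOpen_Iio isPreconnected_Iio
    · intro p hp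
      apply g₂.time
      intro hp'
      exact absurd hp'.1 (not_le.mpr hp)
    · exact hs
    · show (0 : ℝ) < Tb
      linarith
  -- `Φ₁` is stationary after `Ta`
  have hΦ₁ : ∀ s : ℝ, (Ta : ℝ) < s → ∀ y, Φ₁ s y = Ψ₁ y := by
    intro s hs y
    rw [← e₁]
    apply flow_const_of_zero g₁.flow (s := Set.Ioi (Ta : ℝ)) isOpen_Ioi isPreconnected_Ioi
    · intro p hp
      apply g₁.time
      intro hp'
      exact absurd hp'.2 (not_le.mpr hp)
    · exact hs
    · show (Ta : ℝ) < 1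
      linarith
  refine ⟨fun p => U₁ p + U₂ p, fun t x => Φ₂ t (Φ₁ t x), ⟨g₁.smooth.add g₂.smooth,
    g₁.supp.add g₂.supp, effective_add g₁.smooth g₂.smooth g₁.eff g₂.eff, ?_, ?_, ?_, ?_⟩, ?_⟩
  · intro p hp
    rw [g₁.time p (fun h => hp ⟨h.1, by linarith [h.2]⟩),
      g₂.time p (fun h => hp ⟨by linarith [h.1], h.2⟩), add_zero]
  · intro p
    rw [spaceDiv_add g₁.smooth g₂.smooth, g₁.div, g₂.div, add_zero]
  · intro x
    show Φ₂ 0 (Φ₁ 0 x) = x
    rw [g₁.flow.1, g₂.flow.1]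
  · intro t x
    rcases lt_or_ge t (Tb : ℝ) with ht | ht
    · -- before `Tb`
      have hev : (fun s => Φ₂ s (Φ₁ s x)) =ᶠ[nhds t] fun s => Φ₁ s x := by
        filter_upwards [Iio_mem_nhds ht] with s hs
        exact hΦ₂ s hs _
      have hU₂ : U₂ (t, Φ₂ t (Φ₁ t x)) = 0 :=
        g₂.time _ (fun h => absurd h.1 (not_le.mpr ht))
      show HasDerivAt (fun s => Φ₂ s (Φ₁ s x)) (U₁ (t, Φ₂ t (Φ₁ t x)) + U₂ (t, Φ₂ t (Φ₁ t x))) t
      rw [hU₂, add_zero, hΦ₂ t ht]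
      exact (g₁.flow.2 t x).congr_of_eventuallyEq hev
    · -- after `Ta`
      have ht' : (Ta : ℝ) < t := by linarith
      have hev : (fun s => Φ₂ s (Φ₁ s x)) =ᶠ[nhds t] fun s => Φ₂ s (Ψ₁ x) := by
        filter_upwards [Ioi_mem_nhds ht'] with s hs
        rw [hΦ₁ s hs]
      have hU₁ : U₁ (t, Φ₂ t (Φ₁ t x)) = 0 :=
        g₁.time _ (fun h => absurd h.2 (not_le.mpr ht'))
      show HasDerivAt (fun s => Φ₂ s (Φ₁ s x)) (U₁ (t, Φ₂ t (Φ₁ t x)) + U₂ (t, Φ₂ t (Φ₁ t x))) t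
      rw [hU₁, zero_add, hΦ₁ t ht']
      exact (g₂.flow.2 t (Ψ₁ x)).congr_of_eventuallyEq hev
  · funext x
    show Φ₂ 1 (Φ₁ 1 x) = Ψ₂ (Ψ₁ x)
    rw [e₁, e₂]

end Crest.Agent.S0170
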