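import Crest.Agent.S0170_NiceDefs

/-!
# S0170, package P4b (helper27): primitive recursiveness of the approximator, closure of `Approx1`

Also: reduction of `fdApprox_error` to the pure analysis statement on forward differences
(`fdApprox_error_of_fdiff`).
-/

set_option autoImplicit false
open scoped ContDiff

namespace Crest.Agent.S0170

/-! ## weights and offsets of the forward difference -/

theorem primrec_fdList : Primrec fdList := by
  have h : Primrec (Nat.rec (motive := fun _ => List (ℚ × ℕ)) [((1 : ℚ), 0)]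
      (fun _ (l : List (ℚ × ℕ)) =>
        l.map (fun p => (p.1, p.2 + 1)) ++ l.map (fun p => (-p.1, p.2)))) := by
    apply Primrec.nat_rec₁
    apply Primrec.list_append.comp
    · apply Primrec.list_map Primrec.snd
      apply Primrec.pair
      · exact Primrec.fst.comp Primrec.snd
      · exact Primrec.succ.comp (Primrec.snd.comp Primrec.snd)
    · apply Primrec.list_map Primrec.snd
      apply Primrec.pair
      · exact primrec_rat_neg.comp (Primrec.fst.comp Primrec.snd)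
      · exact Primrec.snd.comp Primrec.snd
  refine h.of_eq fun k => ?_
  induction k with
  | zero => rfl
  | succ k ih => simp only [fdList, ← ih]

/-- iterated forward difference with step `h` -/
noncomputable def fdiff (g : ℝ → ℝ) (h : ℝ) : ℕ → ℝ → ℝ
  | 0, x => g x
  | k+1, x => fdiff g h k (x + h) - fdiff g h k x

theorem list_sum_map_neg {α : Type*} (l : List α) (f : α → ℝ) :
    (l.map fun b => - f b).sum = - (l.map f).sum := by
  induction l with
  | nil => simp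
  | cons a l ih => simp only [List.map_cons, List.sum_cons, ih]; ring

theorem fdiff_eq_sum (g : ℝ → ℝ) (h : ℝ) (k : ℕ) (x : ℝ) :
    fdiff g h k x = ((fdList k).map (fun p => (p.1 : ℝ) * g (x + p.2 * h))).sum := by
  induction k generalizing x with
  | zero => simp [fdiff, fdList]
  | succ k ih =>
    simp only [fdiff, fdList, ih, List.map_append, List.map_map, List.sum_append]
    have e1 : ((fun p : ℚ × ℕ => (p.1 : ℝ) * g (x + p.2 * h)) ∘ fun p : ℚ × ℕ => (p.1, p.2 + 1))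
        = fun p : ℚ × ℕ => (p.1 : ℝ) * g (x + h + p.2 * h) := by
      funext p
      simp only [Function.comp]
      congr 2
      push_cast
      ring
    have e2 : ((fun p : ℚ × ℕ => (p.1 : ℝ) * g (x + p.2 * h)) ∘ fun p : ℚ × ℕ => (-p.1, p.2))
        = fun p : ℚ × ℕ => - ((p.1 : ℝ) * g (x + p.2 * h)) := by
      funext p
      simp only [Function.comp]
      push_cast
      ring
    rw [e1, e2, list_sum_map_neg]
    ring

theorem fdList_abs_sum (k : ℕ) : ((fdList k).map (fun p => |(p.1 : ℝ)|)).sum = 2 ^ k := by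
  induction k with
  | zero => simp [fdList]
  | succ k ih =>
    simp only [fdList, List.map_append, List.map_map, List.sum_append]
    have e1 : ((fun p : ℚ × ℕ => |(p.1 : ℝ)|) ∘ fun p : ℚ × ℕ => (p.1, p.2 + 1))
        = fun p : ℚ × ℕ => |(p.1 : ℝ)| := by
      funext p; simp
    have e2 : ((fun p : ℚ × ℕ => |(p.1 : ℝ)|) ∘ fun p : ℚ × ℕ => (-p.1, p.2))
        = fun p : ℚ × ℕ => |(p.1 : ℝ)| := by
      funext p; simp
    rw [e1, e2, ih]
    ring

/-! ## the finite difference approximator -/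

theorem primrec_fdN {β : ℕ → ℕ} (hβ : Primrec β) :
    Primrec (fun p : ℕ × ℚ × ℕ => fdN β p.1 p.2.2) := by
  unfold fdN
  have hk : Primrec (fun p : ℕ × ℚ × ℕ => p.1) := Primrec.fst
  have hn : Primrec (fun p : ℕ × ℚ × ℕ => p.2.2) := Primrec.snd.comp Primrec.snd
  exact Primrec.succ.comp (Primrec.nat_mul.comp (Primrec.nat_mul.comp
    (Primrec.nat_mul.comp (Primrec.const 2) (Primrec.succ.comp hn)) hk)
    (hβ.comp (Primrec.succ.comp hk)))

theorem primrec_fdM {β : ℕ → ℕ} (hβ : Primrec β) :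
    Primrec (fun p : ℕ × ℚ × ℕ => fdM β p.1 p.2.2) := by
  unfold fdM
  have hk : Primrec (fun p : ℕ × ℚ × ℕ => p.1) := Primrec.fst
  have hn : Primrec (fun p : ℕ × ℚ × ℕ => p.2.2) := Primrec.snd.comp Primrec.snd
  exact Primrec.nat_mul.comp (Primrec.nat_mul.comp
    (Primrec.nat_mul.comp (Primrec.const 2) (Primrec.succ.comp hn))
    (primrec_nat_pow.comp (Primrec.const 2) hk))
    (primrec_nat_pow.comp (primrec_fdN hβ) hk)

theorem primrec_fdApprox {a₀ : ℚ × ℕ → ℚ} {β : ℕ → ℕ} (ha : Primrec a₀) (hβ : Primrec β) :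
    Primrec (fdApprox a₀ β) := by
  unfold fdApprox
  have hk : Primrec (fun p : ℕ × ℚ × ℕ => p.1) := Primrec.fst
  have hx : Primrec (fun p : ℕ × ℚ × ℕ => p.2.1) := Primrec.fst.comp Primrec.snd
  have hN : Primrec (fun p : ℕ × ℚ × ℕ => (fdN β p.1 p.2.2 : ℚ)) :=
    primrec_rat_natCast.comp (primrec_fdN hβ)
  apply primrec_rat_mul.comp (primrec_rat_pow.comp hN hk)
  apply primrec_rat_list_sum.comp
  apply Primrec.list_map (primrec_fdList.comp hk)
  apply primrec_rat_mul.comp (Primrec.fst.comp Primrec.snd)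
  apply ha.comp
  apply Primrec.pair
  · apply primrec_rat_add.comp (hx.comp Primrec.fst)
    exact primrec_rat_div.comp (primrec_rat_natCast.comp (Primrec.snd.comp Primrec.snd))
      (hN.comp Primrec.fst)
  · exact (primrec_fdM hβ).comp Primrec.fst

theorem list_abs_sum_le {α : Type*} (l : List α) (f w : α → ℝ) (hf : ∀ a ∈ l, |f a| ≤ w a) :
    |(l.map f).sum| ≤ (l.map w).sum := by
  induction l with
  | nil => simp
  | cons a l ih =>
    simp only [List.map_cons, List.sum_cons]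
    refine (abs_add_le _ _).trans (add_le_add (hf a (by simp)) (ih fun b hb => hf b (by simp [hb])))

theorem list_sum_map_sub {α : Type*} (l : List α) (f g : α → ℝ) :
    (l.map fun b => f b - g b).sum = (l.map f).sum - (l.map g).sum := by
  induction l with
  | nil => simp
  | cons a l ih => simp only [List.map_cons, List.sum_cons, ih]; ring

/-- `fdApprox_error`, reduced to the analysis statement `hfd` on forward differences. -/
theorem fdApprox_error_of_fdiff {g : ℝ → ℝ}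
    (hfd : ∀ (k : ℕ) (B : ℝ), (∀ x, |iteratedDeriv (k+1) g x| ≤ B) → ∀ (h : ℝ), 0 < h → ∀ x : ℝ,
      |iteratedDeriv k g x - fdiff g h k x / h ^ k| ≤ k * h * B) {a₀ : ℚ × ℕ → ℚ}
    (ha : ∀ (x : ℚ) (n : ℕ), |g (x : ℝ) - (a₀ (x, n) : ℝ)| ≤ 1 / ((n : ℝ) + 1))
    {β : ℕ → ℕ} (hβ : ∀ (k : ℕ) (x : ℝ), |iteratedDeriv k g x| ≤ (β k : ℝ))
    (k : ℕ) (x : ℚ) (n : ℕ) :
    |iteratedDeriv k g (x : ℝ) - (fdApprox a₀ β (k, x, n) : ℝ)| ≤ 1 / ((n : ℝ) + 1) := by
  set N : ℕ := fdN β k n with hN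
  set M : ℕ := fdM β k n with hM
  have hNpos : (0 : ℝ) < N := by
    have : 0 < N := by rw [hN]; unfold fdN; omega
    exact_mod_cast this
  have hn1 : (0 : ℝ) < (n : ℝ) + 1 := by positivity
  have hNge : 2 * ((n : ℝ) + 1) * k * β (k + 1) ≤ N := by
    have : 2 * (n + 1) * k * β (k + 1) ≤ N := by rw [hN]; unfold fdN; omega
    exact_mod_cast this
  have hMeq : (M : ℝ) = 2 * ((n : ℝ) + 1) * 2 ^ k * (N : ℝ) ^ k := by
    rw [hM]; unfold fdM; push_cast; rfl
  -- analysis part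
  have h1 : |iteratedDeriv k g (x : ℝ) - fdiff g (1 / (N : ℝ)) k x / (1 / (N : ℝ)) ^ k|
      ≤ 1 / (2 * ((n : ℝ) + 1)) := by
    refine (hfd k (β (k + 1)) (hβ (k + 1)) _ (by positivity) (x : ℝ)).trans ?_
    rw [le_div_iff₀ (by positivity)]
    have : (k : ℝ) * (1 / (N : ℝ)) * β (k + 1) * (2 * ((n : ℝ) + 1))
        = (2 * ((n : ℝ) + 1) * k * β (k + 1)) / N := by
      field_simp
    rw [this, div_le_one hNpos]
    exact hNge
  -- approximation part
  have hcast : (fdApprox a₀ β (k, x, n) : ℝ) = (N : ℝ) ^ k *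
      ((fdList k).map (fun q : ℚ × ℕ =>
        (q.1 : ℝ) * (a₀ (x + (q.2 : ℚ) / (N : ℚ), M) : ℝ))).sum := by
    unfold fdApprox
    simp only [Rat.cast_mul, Rat.cast_pow, Rat.cast_natCast, Rat.cast_list_sum, List.map_map]
    congr 3
    funext q
    simp only [Function.comp, Rat.cast_mul]
    rfl
  have h2 : |fdiff g (1 / (N : ℝ)) k x / (1 / (N : ℝ)) ^ k - (fdApprox a₀ β (k, x, n) : ℝ)|
      ≤ 1 / (2 * ((n : ℝ) + 1)) := by
    rw [hcast, fdiff_eq_sum]
    have e : ((fdList k).map (fun p : ℚ × ℕ =>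
          (p.1 : ℝ) * g ((x : ℝ) + p.2 * (1 / (N : ℝ))))).sum / (1 / (N : ℝ)) ^ k
        - (N : ℝ) ^ k * ((fdList k).map (fun q : ℚ × ℕ =>
          (q.1 : ℝ) * (a₀ (x + (q.2 : ℚ) / (N : ℚ), M) : ℝ))).sum
        = (N : ℝ) ^ k * ((fdList k).map (fun q : ℚ × ℕ =>
          (q.1 : ℝ) * g ((x : ℝ) + q.2 * (1 / (N : ℝ)))
            - (q.1 : ℝ) * (a₀ (x + (q.2 : ℚ) / (N : ℚ), M) : ℝ))).sum := by
      rw [list_sum_map_sub, one_div, inv_pow, div_inv_eq_mul]
      ring
    rw [e, abs_mul, abs_of_nonneg (by positivity : (0 : ℝ) ≤ (N : ℝ) ^ k)]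
    have h3 : |((fdList k).map (fun q : ℚ × ℕ =>
          (q.1 : ℝ) * g ((x : ℝ) + q.2 * (1 / (N : ℝ)))
            - (q.1 : ℝ) * (a₀ (x + (q.2 : ℚ) / (N : ℚ), M) : ℝ))).sum|
        ≤ ((fdList k).map (fun q : ℚ × ℕ => (1 / ((M : ℝ) + 1)) * |(q.1 : ℝ)|)).sum := by
      apply list_abs_sum_le
      intro q _
      have := ha (x + (q.2 : ℚ) / (N : ℚ)) M
      have e2 : (((x + (q.2 : ℚ) / (N : ℚ) : ℚ)) : ℝ) = (x : ℝ) + q.2 * (1 / (N : ℝ)) := by
        push_cast; ring
      rw [e2] at this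
      rw [← mul_sub, abs_mul, mul_comm]
      exact mul_le_mul_of_nonneg_right this (abs_nonneg _)
    rw [List.sum_map_mul_left, fdList_abs_sum] at h3
    calc (N : ℝ) ^ k * _ ≤ (N : ℝ) ^ k * (1 / ((M : ℝ) + 1) * 2 ^ k) :=
          mul_le_mul_of_nonneg_left h3 (by positivity)
      _ ≤ 1 / (2 * ((n : ℝ) + 1)) := by
          rw [le_div_iff₀ (by positivity)]
          have hM1 : (0 : ℝ) < (M : ℝ) + 1 := by positivity
          have : (N : ℝ) ^ k * (1 / ((M : ℝ) + 1) * 2 ^ k) * (2 * ((n : ℝ) + 1))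
              = (M : ℝ) / ((M : ℝ) + 1) := by
            rw [hMeq]; field_simp
          rw [this, div_le_one hM1]
          linarith
  calc |iteratedDeriv k g (x : ℝ) - (fdApprox a₀ β (k, x, n) : ℝ)|
      ≤ |iteratedDeriv k g (x : ℝ) - fdiff g (1 / (N : ℝ)) k x / (1 / (N : ℝ)) ^ k|
        + |fdiff g (1 / (N : ℝ)) k x / (1 / (N : ℝ)) ^ k - (fdApprox a₀ β (k, x, n) : ℝ)| :=
        abs_sub_le _ _ _
    _ ≤ 1 / (2 * ((n : ℝ) + 1)) + 1 / (2 * ((n : ℝ) + 1)) := add_le_add h1 h2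
    _ = 1 / ((n : ℝ) + 1) := by field_simp; ring

/-! ## simple closure properties of `Nice1` -/

theorem Nice1.deriv {g : ℝ → ℝ} (h : Nice1 g) : Nice1 (deriv g) := by
  obtain ⟨hs, ⟨a, ha, ha'⟩, ⟨β, hβ, hβ'⟩⟩ := h
  refine ⟨?_, ⟨fun p => a (p.1 + 1, p.2), ?_, ?_⟩, ⟨fun k => β (k + 1), ?_, ?_⟩⟩
  · exact ((contDiff_infty_iff_deriv).1 hs).2
  · exact ha.comp (Primrec.pair (Primrec.succ.comp Primrec.fst) Primrec.snd)
  · intro k x n
    rw [← iteratedDeriv_succ']
    exact ha' (k + 1) x n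
  · exact hβ.comp Primrec.succ
  · intro k x
    rw [← iteratedDeriv_succ']
    exact hβ' (k + 1) x

theorem Nice1.neg {g : ℝ → ℝ} (h : Nice1 g) : Nice1 (fun s => - g s) := by
  obtain ⟨hs, ⟨a, ha, ha'⟩, ⟨β, hβ, hβ'⟩⟩ := h
  have e : ∀ k x, iteratedDeriv k (fun s => - g s) x = - iteratedDeriv k g x := by
    intro k x
    exact iteratedDeriv_neg k g x
  refine ⟨hs.neg, ⟨fun p => - a p, primrec_rat_neg.comp ha, ?_⟩, ⟨β, hβ, ?_⟩⟩
  · intro k x n
    rw [e]
    have := ha' k x n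
    rw [abs_sub_comm] at this
    push_cast
    convert this using 2
    ring
  · intro k x
    rw [e, abs_neg]
    exact hβ' k x

theorem nice1_zero : Nice1 (fun _ => 0) := by
  have e : ∀ k x, iteratedDeriv k (fun _ : ℝ => (0 : ℝ)) x = 0 := by
    intro k x
    induction k generalizing x with
    | zero => simp
    | succ k ih =>
      rw [iteratedDeriv_succ]
      have : iteratedDeriv k (fun _ : ℝ => (0 : ℝ)) = fun _ => 0 := funext ih
      rw [this]; simp
  refine ⟨contDiff_const, ⟨fun _ => 0, Primrec.const 0, ?_⟩, ⟨fun _ => 0, Primrec.const 0, ?_⟩⟩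
  · intro k x n
    rw [e]; simp; positivity
  · intro k x
    rw [e]; simp

/-! ## closure properties of `Approx1` -/

theorem Approx1.comp_affine {g : ℝ → ℝ} (h : Approx1 g) (a b : ℚ) :
    Approx1 (fun s : ℝ => g ((a : ℝ) * s + (b : ℝ))) := by
  obtain ⟨f, hf, hf'⟩ := h
  refine ⟨fun p => f (a * p.1 + b, p.2), ?_, ?_⟩
  · exact hf.comp (Primrec.pair (primrec_rat_add.comp
      (primrec_rat_mul.comp (Primrec.const a) Primrec.fst) (Primrec.const b)) Primrec.snd)
  · intro x n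
    have := hf' (a * x + b) n
    push_cast at this
    exact this

/-- product of two bounded approximable functions -/
theorem Approx1.mul {f g : ℝ → ℝ} (hf : Approx1 f) (hg : Approx1 g) (Bf Bg : ℕ)
    (hBf : ∀ x, |f x| ≤ Bf) (hBg : ∀ x, |g x| ≤ Bg) : Approx1 (fun s => f s * g s) := by
  obtain ⟨a, ha, ha'⟩ := hf
  obtain ⟨b, hb, hb'⟩ := hg
  have hm : Primrec (fun p : ℚ × ℕ => (p.1, (p.2 + 1) * (Bf + Bg + 1))) :=
    Primrec.pair Primrec.fst (Primrec.nat_mul.comp (Primrec.succ.comp Primrec.snd)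
      (Primrec.const (Bf + Bg + 1)))
  refine ⟨fun p => a (p.1, (p.2 + 1) * (Bf + Bg + 1)) * b (p.1, (p.2 + 1) * (Bf + Bg + 1)),
    primrec_rat_mul.comp (ha.comp hm) (hb.comp hm), ?_⟩
  intro x n
  set m : ℕ := (n + 1) * (Bf + Bg + 1) with hmdef
  have h1 := ha' x m
  have h2 := hb' x m
  have hm1 : (0 : ℝ) < (m : ℝ) + 1 := by positivity
  have hle1 : 1 / ((m : ℝ) + 1) ≤ 1 := by
    rw [div_le_one hm1]; linarith [(Nat.cast_nonneg m : (0 : ℝ) ≤ m)]
  have hb1 : |(b (x, m) : ℝ)| ≤ Bg + 1 := by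
    have : |(b (x, m) : ℝ)| ≤ |g x| + |g x - b (x, m)| := by
      have := abs_sub_abs_le_abs_sub ((b (x, m) : ℝ)) (g x)
      rw [abs_sub_comm] at this
      linarith
    linarith [hBg x]
  have e : f x * g x - ((a (x, m) * b (x, m) : ℚ) : ℝ)
      = f x * (g x - b (x, m)) + (f x - a (x, m)) * b (x, m) := by
    push_cast; ring
  rw [e]
  have hBf0 : (0 : ℝ) ≤ Bf := Nat.cast_nonneg _
  have hBg0 : (0 : ℝ) ≤ Bg := Nat.cast_nonneg _
  calc |f x * (g x - b (x, m)) + (f x - a (x, m)) * b (x, m)|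
      ≤ |f x| * |g x - b (x, m)| + |f x - a (x, m)| * |(b (x, m) : ℝ)| := by
        refine (abs_add_le _ _).trans ?_
        rw [abs_mul, abs_mul]
    _ ≤ Bf * (1 / ((m : ℝ) + 1)) + (1 / ((m : ℝ) + 1)) * (Bg + 1) := by
        apply add_le_add
        · exact mul_le_mul (hBf x) h2 (abs_nonneg _) hBf0
        · exact mul_le_mul h1 hb1 (abs_nonneg _) (by positivity)
    _ = ((Bf : ℝ) + Bg + 1) / ((m : ℝ) + 1) := by ring
    _ ≤ 1 / ((n : ℝ) + 1) := by
        rw [div_le_div_iff₀ hm1 (by positivity)]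
        rw [hmdef]; push_cast
        nlinarith

theorem abs_rat_cast_le_natAbs (q : ℚ) : |(q : ℝ)| ≤ (q.num.natAbs : ℝ) := by
  have hden : (1 : ℝ) ≤ q.den := by exact_mod_cast q.den_pos
  rw [Rat.cast_def, abs_div, abs_of_pos (by linarith : (0 : ℝ) < q.den)]
  have : |(q.num : ℝ)| = (q.num.natAbs : ℝ) := by
    rw [Nat.cast_natAbs]; push_cast; rfl
  rw [this]
  exact div_le_self (Nat.cast_nonneg _) hden

/-- multiplication by a function that is exactly computable at rational points -/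
theorem Approx1.mul_exact {f : ℝ → ℝ} (hf : Approx1 f) (P : ℝ → ℝ) (p : ℚ → ℚ) (hp : Primrec p)
    (hP : ∀ x : ℚ, P (x : ℝ) = (p x : ℝ)) : Approx1 (fun s => f s * P s) := by
  obtain ⟨a, ha, ha'⟩ := hf
  refine ⟨fun q => a (q.1, (q.2 + 1) * ((p q.1).num.natAbs + 1)) * p q.1, ?_, ?_⟩
  · refine primrec_rat_mul.comp (ha.comp (Primrec.pair Primrec.fst ?_)) (hp.comp Primrec.fst)
    exact Primrec.nat_mul.comp (Primrec.succ.comp Primrec.snd)
      (Primrec.succ.comp (primrec_rat_num_natAbs.comp (hp.comp Primrec.fst)))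
  · intro x n
    simp only
    set A : ℕ := (p x).num.natAbs with hA
    set m : ℕ := (n + 1) * (A + 1) with hmdef
    have h1 := ha' x m
    have hm1 : (0 : ℝ) < (m : ℝ) + 1 := by positivity
    have hpA : |(p x : ℝ)| ≤ A := abs_rat_cast_le_natAbs (p x)
    have e : f x * P x - ((a (x, m) * p x : ℚ) : ℝ) = (f x - a (x, m)) * (p x : ℝ) := by
      rw [hP]; push_cast; ring
    rw [e, abs_mul]
    have hA0 : (0 : ℝ) ≤ A := Nat.cast_nonneg _
    calc |f x - a (x, m)| * |(p x : ℝ)| ≤ (1 / ((m : ℝ) + 1)) * A :=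
          mul_le_mul h1 hpA (abs_nonneg _) (by positivity)
      _ = (A : ℝ) / ((m : ℝ) + 1) := by ring
      _ ≤ 1 / ((n : ℝ) + 1) := by
          rw [div_le_div_iff₀ hm1 (by positivity)]
          rw [hmdef]; push_cast
          nlinarith

theorem Approx1.mul_poly {f : ℝ → ℝ} (hf : Approx1 f) (c0 c1 c2 : ℚ) :
    Approx1 (fun s : ℝ => f s * ((c0 : ℝ) + (c1 : ℝ) * s + (c2 : ℝ) * s ^ 2)) := by
  refine hf.mul_exact _ (fun x => c0 + c1 * x + c2 * x ^ 2) ?_ ?_
  · exact primrec_rat_add.comp (primrec_rat_add.comp (Primrec.const c0)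
      (primrec_rat_mul.comp (Primrec.const c1) Primrec.id))
      (primrec_rat_mul.comp (Primrec.const c2) (primrec_rat_pow.comp Primrec.id (Primrec.const 2)))
  · intro x; push_cast; ring

end Crest.Agent.S0170
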