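import Crest.Agent.S0170_NiceA
import Crest.Agent.S0170_NiceB

/-!
# S0170, package P4: calculus of one-variable effective functions (assembly)

`Nice1.deriv`, `Nice1.neg`, `nice1_zero` live in `S0170_NiceB.lean`.
-/

set_option autoImplicit false
open scoped ContDiff

namespace Crest.Agent.S0170

/-- Finite differences: see `fdApprox`. -/
theorem nice1_of {g : ℝ → ℝ} (hs : ContDiff ℝ ∞ g) (ha : Approx1 g) (hb : Bdd1 g) : Nice1 g := by
  obtain ⟨a₀, ha₀, ha₀'⟩ := ha
  obtain ⟨β, hβ, hβ'⟩ := hb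
  exact ⟨hs, ⟨fdApprox a₀ β, primrec_fdApprox ha₀ hβ, fdApprox_error hs ha₀' hβ'⟩, ⟨β, hβ, hβ'⟩⟩

theorem contDiff_step_affine (a b : ℚ) :
    ContDiff ℝ ∞ (fun s : ℝ => step ((a : ℝ) * s + (b : ℝ))) :=
  step_contDiff.comp (by fun_prop)

theorem nice1_step_affine (a b : ℚ) : Nice1 (fun s : ℝ => step ((a : ℝ) * s + (b : ℝ))) :=
  nice1_of (contDiff_step_affine a b) (approx1_step.comp_affine a b)
    (bdd1_step.comp_affine step_contDiff a b)

theorem plat_eq (lo hi η : ℚ) (hη : 0 < η) :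
    plat lo hi η = fun s : ℝ =>
      step (((1 / η : ℚ) : ℝ) * s + (((η - lo) / η : ℚ) : ℝ)) *
        step (((-(1 / η) : ℚ) : ℝ) * s + (((hi + η) / η : ℚ) : ℝ)) := by
  have hη' : (η : ℝ) ≠ 0 := by exact_mod_cast hη.ne'
  funext s
  unfold plat
  congr 2
  · push_cast; field_simp; ring
  · push_cast; field_simp; ring

theorem nice1_plat_mul_poly (lo hi η c0 c1 c2 : ℚ) (hη : 0 < η) :
    Nice1 (fun s : ℝ => plat lo hi η s * ((c0 : ℝ) + (c1 : ℝ) * s + (c2 : ℝ) * s ^ 2)) := by
  have hη' : (0 : ℝ) < (η : ℝ) := by exact_mod_cast hη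
  have hsm : ContDiff ℝ ∞ (plat lo hi η) := by
    rw [plat_eq lo hi η hη]
    exact (contDiff_step_affine _ _).mul (contDiff_step_affine _ _)
  have hab : ∀ x : ℝ, |step x| ≤ ((1 : ℕ) : ℝ) := by
    intro x
    rw [abs_of_nonneg (step_nonneg x)]
    simpa using step_le_one x
  have happ : Approx1 (plat lo hi η) := by
    rw [plat_eq lo hi η hη]
    exact (approx1_step.comp_affine _ _).mul (approx1_step.comp_affine _ _) 1 1
      (fun x => hab _) (fun x => hab _)
  have hbd : Bdd1 (plat lo hi η) := by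
    rw [plat_eq lo hi η hη]
    exact (bdd1_step.comp_affine step_contDiff _ _).mul (contDiff_step_affine _ _)
      (contDiff_step_affine _ _) (bdd1_step.comp_affine step_contDiff _ _)
  obtain ⟨R, hR⟩ := exists_nat_ge (|(lo : ℝ)| + |(hi : ℝ)| + (η : ℝ))
  have hsupp : ∀ x : ℝ, (R : ℝ) < |x| → plat lo hi η x = 0 := by
    intro x hx
    unfold plat
    rcases lt_abs.mp hx with h | h
    · have : (hi + η - x) / (η : ℝ) ≤ 0 := by
        apply div_nonpos_of_nonpos_of_nonneg _ hη'.le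
        have := le_abs_self (hi : ℝ)
        have := abs_nonneg (lo : ℝ)
        linarith
      rw [step_of_nonpos this, mul_zero]
    · have : (x - lo + η) / (η : ℝ) ≤ 0 := by
        apply div_nonpos_of_nonpos_of_nonneg _ hη'.le
        have := neg_abs_le (lo : ℝ)
        have := abs_nonneg (hi : ℝ)
        linarith
      rw [step_of_nonpos this, zero_mul]
  exact nice1_of (hsm.mul (by fun_prop)) (happ.mul_poly c0 c1 c2)
    (hbd.mul_poly hsm R hsupp c0 c1 c2)

end Crest.Agent.S0170
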