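import Crest.Agent.S0170_NiceDefs

/-!
# S0170, package P4a (helper5): analysis of difference quotients, closure of `Bdd1`
-/

set_option autoImplicit false
open scoped ContDiff

namespace Crest.Agent.S0170


/-- real finite difference sum -/
noncomputable def fdSum (k : ℕ) (h : ℝ) (g : ℝ → ℝ) (x : ℝ) : ℝ :=
  ((fdList k).map (fun p : ℚ × ℕ => (p.1 : ℝ) * g (x + (p.2 : ℝ) * h))).sum

theorem fdSum_zero (h : ℝ) (g : ℝ → ℝ) (x : ℝ) : fdSum 0 h g x = g x := by
  simp [fdSum, fdList]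

theorem list_sum_aux (l : List (ℚ × ℕ)) (A B : ℚ × ℕ → ℝ) :
    (l.map (fun p => (p.1 : ℝ) * A p)).sum + (l.map (fun p => ((-p.1 : ℚ) : ℝ) * B p)).sum =
      (l.map (fun p => (p.1 : ℝ) * (A p - B p))).sum := by
  induction l with
  | nil => simp
  | cons a l ih =>
    simp only [List.map_cons, List.sum_cons]
    rw [← ih]
    push_cast
    ring

theorem fdSum_succ (k : ℕ) (h : ℝ) (g : ℝ → ℝ) (x : ℝ) :
    fdSum (k + 1) h g x = fdSum k h (fun y => g (y + h) - g y) x := by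
  simp only [fdSum, fdList, List.map_append, List.map_map, List.sum_append]
  rw [← list_sum_aux]
  congr 2
  apply List.map_congr_left
  intro p _
  simp only [Function.comp_apply]
  congr 2
  push_cast
  ring

theorem fdSum_const_mul (k : ℕ) (h c : ℝ) (g : ℝ → ℝ) (x : ℝ) :
    fdSum k h (fun y => c * g y) x = c * fdSum k h g x := by
  simp only [fdSum]
  rw [← List.sum_map_mul_left]
  congr 1
  apply List.map_congr_left
  intro p _
  ring

theorem abs_sub_le_of_deriv_bound {φ : ℝ → ℝ} (hφ : Differentiable ℝ φ) {C : ℝ}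
    (hC : ∀ y, |deriv φ y| ≤ C) (x y : ℝ) : |φ y - φ x| ≤ C * |y - x| := by
  have := Convex.norm_image_sub_le_of_norm_deriv_le (f := φ) (C := C) (s := Set.univ)
    (x := x) (y := y) (fun z _ => hφ z) (fun z _ => by simpa using hC z) convex_univ
    (Set.mem_univ _) (Set.mem_univ _)
  simpa using this

/-- first order Taylor bound for a difference quotient -/
theorem diffquot_error {φ : ℝ → ℝ} (hφ : Differentiable ℝ φ) (hφ' : Differentiable ℝ (deriv φ))
    {C : ℝ} (hC : ∀ y, |deriv (deriv φ) y| ≤ C) (x h : ℝ) (hh : 0 < h) :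
    |(φ (x + h) - φ x) / h - deriv φ x| ≤ h * C := by
  have hC0 : 0 ≤ C := le_trans (abs_nonneg _) (hC x)
  set ψ : ℝ → ℝ := fun y => φ y - deriv φ x * y with hψ
  have hψd : ∀ y, HasDerivAt ψ (deriv φ y - deriv φ x) y := by
    intro y
    have := (hφ y).hasDerivAt.sub ((hasDerivAt_id y).const_mul (deriv φ x))
    rw [mul_one] at this
    exact this
  have hb : ∀ y ∈ Set.Icc x (x + h), ‖deriv ψ y‖ ≤ C * h := by
    intro y hy
    rw [(hψd y).deriv, Real.norm_eq_abs]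
    calc |deriv φ y - deriv φ x| ≤ C * |y - x| := abs_sub_le_of_deriv_bound hφ' hC x y
      _ ≤ C * h := by
        apply mul_le_mul_of_nonneg_left _ hC0
        rw [abs_of_nonneg (by linarith [hy.1])]
        linarith [hy.2]
  have := Convex.norm_image_sub_le_of_norm_deriv_le (f := ψ) (C := C * h) (s := Set.Icc x (x + h))
    (x := x) (y := x + h) (fun z _ => (hψd z).differentiableAt) hb (convex_Icc _ _)
    ⟨le_refl _, by linarith⟩ ⟨by linarith, le_refl _⟩
  rw [Real.norm_eq_abs, Real.norm_eq_abs] at this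
  have e1 : (φ (x + h) - φ x) / h - deriv φ x = (ψ (x + h) - ψ x) / h := by
    simp only [hψ]
    field_simp
    ring
  rw [e1, abs_div, abs_of_pos hh, div_le_iff₀ hh]
  calc |ψ (x + h) - ψ x| ≤ C * h * |x + h - x| := this
    _ = h * C * h := by
      rw [add_sub_cancel_left, abs_of_pos hh]; ring

theorem fd_error (k : ℕ) : ∀ (g : ℝ → ℝ), ContDiff ℝ ∞ g → ∀ (B : ℝ),
    (∀ x, |iteratedDeriv (k + 1) g x| ≤ B) → ∀ (h : ℝ), 0 < h → ∀ x : ℝ,
    |fdSum k h g x / h ^ k - iteratedDeriv k g x| ≤ k * h * B := by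
  induction k with
  | zero =>
    intro g _ B _ h _ x
    simp [fdSum_zero]
  | succ k ih =>
    intro g hg B hB h hh x
    set G : ℝ → ℝ := fun y => (g (y + h) - g y) / h with hG
    have hGs : ContDiff ℝ ∞ G := by
      apply ContDiff.div_const
      exact (hg.comp (by fun_prop)).sub hg
    have hder : ∀ j y, iteratedDeriv j G y =
        (iteratedDeriv j g (y + h) - iteratedDeriv j g y) / h := by
      intro j y
      have hj : ((j : ℕ∞) : WithTop ℕ∞) ≤ ∞ := by exact_mod_cast le_top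
      have h1 : ContDiffAt ℝ j (fun z => g (z + h)) y :=
        ((hg.comp (by fun_prop : ContDiff ℝ ∞ (fun z : ℝ => z + h))).of_le hj).contDiffAt
      have h2 : ContDiffAt ℝ j g y := (hg.of_le hj).contDiffAt
      rw [hG, iteratedDeriv_div_const]
      have := iteratedDeriv_sub h1 h2
      rw [show (fun y => g (y + h) - g y) = (fun z => g (z + h)) - g from rfl, this,
        iteratedDeriv_comp_add_const]
    have hdiff : ∀ j, Differentiable ℝ (iteratedDeriv j g) := fun j =>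
      hg.differentiable_iteratedDeriv j (by exact_mod_cast WithTop.coe_lt_top _)
    have hB0 : 0 ≤ B := le_trans (abs_nonneg _) (hB x)
    have hGB : ∀ y, |iteratedDeriv (k + 1) G y| ≤ B := by
      intro y
      rw [hder, abs_div, abs_of_pos hh, div_le_iff₀ hh]
      have := abs_sub_le_of_deriv_bound (hdiff (k + 1)) (C := B)
        (by intro z; rw [← iteratedDeriv_succ]; exact hB z) y (y + h)
      rwa [add_sub_cancel_left, abs_of_pos hh] at this
    have h1 := ih G hGs B hGB h hh x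
    have h2 : |iteratedDeriv k G x - iteratedDeriv (k + 1) g x| ≤ h * B := by
      rw [hder, iteratedDeriv_succ]
      apply diffquot_error (hdiff k) (by rw [← iteratedDeriv_succ]; exact hdiff (k + 1)) _ x h hh
      intro y
      rw [← iteratedDeriv_succ, ← iteratedDeriv_succ]
      exact hB y
    have e : fdSum (k + 1) h g x / h ^ (k + 1) = fdSum k h G x / h ^ k := by
      rw [fdSum_succ]
      have : (fun y => g (y + h) - g y) = fun y => h * G y := by
        funext y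
        simp only [hG]
        field_simp
      rw [this, fdSum_const_mul, pow_succ]
      field_simp
    rw [e]
    calc |fdSum k h G x / h ^ k - iteratedDeriv (k + 1) g x|
        ≤ |fdSum k h G x / h ^ k - iteratedDeriv k G x| +
          |iteratedDeriv k G x - iteratedDeriv (k + 1) g x| := abs_sub_le _ _ _
      _ ≤ k * h * B + h * B := add_le_add h1 h2
      _ = ((k + 1 : ℕ) : ℝ) * h * B := by push_cast; ring

theorem list_sum_diff_le (l : List (ℚ × ℕ)) (u v : ℚ × ℕ → ℝ) (ε : ℝ)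
    (h : ∀ p, |u p - v p| ≤ ε) :
    |(l.map (fun p => (p.1 : ℝ) * u p)).sum - (l.map (fun p => (p.1 : ℝ) * v p)).sum| ≤
      (l.map (fun p => |(p.1 : ℝ)|)).sum * ε := by
  induction l with
  | nil => simp
  | cons a l ih =>
    simp only [List.map_cons, List.sum_cons]
    have h1 : |(a.1 : ℝ) * u a - (a.1 : ℝ) * v a| ≤ |(a.1 : ℝ)| * ε := by
      rw [← mul_sub, abs_mul]
      exact mul_le_mul_of_nonneg_left (h a) (abs_nonneg _)
    calc |(a.1 : ℝ) * u a + (l.map (fun p => (p.1 : ℝ) * u p)).sum -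
          ((a.1 : ℝ) * v a + (l.map (fun p => (p.1 : ℝ) * v p)).sum)|
        = |((a.1 : ℝ) * u a - (a.1 : ℝ) * v a) + ((l.map (fun p => (p.1 : ℝ) * u p)).sum -
          (l.map (fun p => (p.1 : ℝ) * v p)).sum)| := by congr 1; ring
      _ ≤ |(a.1 : ℝ) * u a - (a.1 : ℝ) * v a| + |(l.map (fun p => (p.1 : ℝ) * u p)).sum -
          (l.map (fun p => (p.1 : ℝ) * v p)).sum| := abs_add_le _ _
      _ ≤ |(a.1 : ℝ)| * ε + (l.map (fun p => |(p.1 : ℝ)|)).sum * ε := add_le_add h1 ih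
      _ = (|(a.1 : ℝ)| + (l.map (fun p => |(p.1 : ℝ)|)).sum) * ε := by ring

theorem fdList_abs_sumA (k : ℕ) :
    ((fdList k).map (fun p : ℚ × ℕ => |(p.1 : ℝ)|)).sum = 2 ^ k := by
  induction k with
  | zero => simp [fdList]
  | succ k ih =>
    simp only [fdList, List.map_append, List.map_map, List.sum_append]
    have e1 : ((fun p : ℚ × ℕ => |(p.1 : ℝ)|) ∘ fun p : ℚ × ℕ => (p.1, p.2 + 1)) =
        fun p : ℚ × ℕ => |(p.1 : ℝ)| := by
      funext p; simp
    have e2 : ((fun p : ℚ × ℕ => |(p.1 : ℝ)|) ∘ fun p : ℚ × ℕ => (-p.1, p.2)) =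
        fun p : ℚ × ℕ => |(p.1 : ℝ)| := by
      funext p; simp
    rw [e1, e2, ih]
    ring

theorem fdApprox_cast (a₀ : ℚ × ℕ → ℚ) (β : ℕ → ℕ) (k : ℕ) (x : ℚ) (n : ℕ) :
    (fdApprox a₀ β (k, x, n) : ℝ) = (fdN β k n : ℝ) ^ k *
      ((fdList k).map (fun p : ℚ × ℕ =>
        (p.1 : ℝ) * (a₀ (x + (p.2 : ℚ) / (fdN β k n : ℚ), fdM β k n) : ℝ))).sum := by
  simp only [fdApprox]
  push_cast
  congr 1
  rw [List.map_map]
  congr 1
  apply List.map_congr_left
  intro p _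
  simp

theorem fdApprox_error {g : ℝ → ℝ} (hs : ContDiff ℝ ∞ g) {a₀ : ℚ × ℕ → ℚ}
    (ha : ∀ (x : ℚ) (n : ℕ), |g (x : ℝ) - (a₀ (x, n) : ℝ)| ≤ 1 / ((n : ℝ) + 1))
    {β : ℕ → ℕ} (hβ : ∀ (k : ℕ) (x : ℝ), |iteratedDeriv k g x| ≤ (β k : ℝ))
    (k : ℕ) (x : ℚ) (n : ℕ) :
    |iteratedDeriv k g (x : ℝ) - (fdApprox a₀ β (k, x, n) : ℝ)| ≤ 1 / ((n : ℝ) + 1) := by
  set N : ℕ := fdN β k n with hN
  set M : ℕ := fdM β k n with hM
  have hNpos : (0 : ℝ) < (N : ℝ) := by
    have : 0 < N := by rw [hN, fdN]; omega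
    exact_mod_cast this
  have hn1 : (0 : ℝ) < (n : ℝ) + 1 := by positivity
  have hh : (0 : ℝ) < 1 / (N : ℝ) := by positivity
  have h1 := fd_error k g hs (β (k + 1)) (hβ (k + 1)) (1 / (N : ℝ)) hh (x : ℝ)
  have e1 : fdSum k (1 / (N : ℝ)) g x / (1 / (N : ℝ)) ^ k = (N : ℝ) ^ k * fdSum k (1 / (N : ℝ)) g x := by
    rw [one_div, inv_pow, div_inv_eq_mul, mul_comm]
  rw [e1] at h1
  -- first error: exact difference quotient
  have hE1 : (k : ℝ) * (1 / (N : ℝ)) * (β (k + 1) : ℝ) ≤ 1 / (2 * ((n : ℝ) + 1)) := by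
    have hNval : (N : ℝ) = 2 * ((n : ℝ) + 1) * k * β (k + 1) + 1 := by
      rw [hN, fdN]; push_cast; ring
    rw [mul_one_div, div_mul_eq_mul_div, div_le_div_iff₀ hNpos (by positivity), hNval]
    nlinarith
  -- second error: replacing the values by their approximations
  have hMval : (M : ℝ) = 2 * ((n : ℝ) + 1) * 2 ^ k * (N : ℝ) ^ k := by
    rw [hM, fdM]; push_cast; ring
  have hMpos : (0 : ℝ) < (M : ℝ) := by rw [hMval]; positivity
  have h2 := list_sum_diff_le (fdList k)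
    (fun p : ℚ × ℕ => g ((x : ℝ) + (p.2 : ℝ) * (1 / (N : ℝ))))
    (fun p : ℚ × ℕ => (a₀ (x + (p.2 : ℚ) / (N : ℚ), M) : ℝ)) (1 / ((M : ℝ) + 1))
    (by
      intro p
      have := ha (x + (p.2 : ℚ) / (N : ℚ)) M
      have e : (((x + (p.2 : ℚ) / (N : ℚ) : ℚ)) : ℝ) = (x : ℝ) + (p.2 : ℝ) * (1 / (N : ℝ)) := by
        push_cast; ring
      rw [e] at this
      exact this)
  rw [fdList_abs_sumA] at h2
  have hE2 : (N : ℝ) ^ k * (2 ^ k * (1 / ((M : ℝ) + 1))) ≤ 1 / (2 * ((n : ℝ) + 1)) := by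
    have : (N : ℝ) ^ k * (2 ^ k * (1 / ((M : ℝ) + 1))) = ((N : ℝ) ^ k * 2 ^ k) / ((M : ℝ) + 1) := by
      ring
    rw [this, div_le_div_iff₀ (by positivity) (by positivity), hMval]
    nlinarith [pow_pos hNpos k, pow_pos (two_pos : (0 : ℝ) < 2) k]
  rw [fdApprox_cast]
  have h3 : |(N : ℝ) ^ k * fdSum k (1 / (N : ℝ)) g x - (N : ℝ) ^ k *
      ((fdList k).map (fun p : ℚ × ℕ =>
        (p.1 : ℝ) * (a₀ (x + (p.2 : ℚ) / (N : ℚ), M) : ℝ))).sum| ≤
      (N : ℝ) ^ k * (2 ^ k * (1 / ((M : ℝ) + 1))) := by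
    rw [← mul_sub, abs_mul, abs_of_pos (pow_pos hNpos k)]
    exact mul_le_mul_of_nonneg_left h2 (pow_pos hNpos k).le
  have hfin : 1 / (2 * ((n : ℝ) + 1)) + 1 / (2 * ((n : ℝ) + 1)) = 1 / ((n : ℝ) + 1) := by
    field_simp
    ring
  rw [← hfin]
  calc |iteratedDeriv k g (x : ℝ) - _| ≤
      |iteratedDeriv k g (x : ℝ) - (N : ℝ) ^ k * fdSum k (1 / (N : ℝ)) g x| +
      |(N : ℝ) ^ k * fdSum k (1 / (N : ℝ)) g x - (N : ℝ) ^ k *
      ((fdList k).map (fun p : ℚ × ℕ =>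
        (p.1 : ℝ) * (a₀ (x + (p.2 : ℚ) / (N : ℚ), M) : ℝ))).sum| := abs_sub_le _ _ _
    _ ≤ _ := by
      apply add_le_add
      · rw [abs_sub_comm]; exact h1.trans hE1
      · exact h3.trans hE2



theorem contDiffAt_of_smooth {g : ℝ → ℝ} (hs : ContDiff ℝ ∞ g) (k : ℕ) (x : ℝ) :
    ContDiffAt ℝ k g x :=
  (hs.of_le (by exact_mod_cast le_top)).contDiffAt

theorem iteratedDeriv_comp_affine {g : ℝ → ℝ} (hs : ContDiff ℝ ∞ g) (a b : ℝ) (k : ℕ) (x : ℝ) :
    iteratedDeriv k (fun s : ℝ => g (a * s + b)) x = a ^ k * iteratedDeriv k g (a * x + b) := by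
  have h1 : ContDiff ℝ k (fun z : ℝ => g (z + b)) :=
    (hs.comp (by fun_prop : ContDiff ℝ ∞ (fun z : ℝ => z + b))).of_le (by exact_mod_cast le_top)
  have := iteratedDeriv_comp_const_mul h1 a
  rw [this, iteratedDeriv_comp_add_const]

theorem Bdd1.comp_affine {g : ℝ → ℝ} (hs : ContDiff ℝ ∞ g) (h : Bdd1 g) (a b : ℚ) :
    Bdd1 (fun s : ℝ => g ((a : ℝ) * s + (b : ℝ))) := by
  obtain ⟨β, hβ, hβ'⟩ := h
  obtain ⟨A, hA⟩ := exists_nat_ge |(a : ℝ)|
  refine ⟨fun k => A ^ k * β k, ?_, ?_⟩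
  · exact Primrec.nat_mul.comp (primrec_nat_pow.comp (Primrec.const A) Primrec.id) hβ
  · intro k x
    rw [iteratedDeriv_comp_affine hs, abs_mul, abs_pow]
    push_cast
    exact mul_le_mul (pow_le_pow_left₀ (abs_nonneg _) hA k) (hβ' k _) (abs_nonneg _) (by positivity)

/-- cumulative sums of a bound function (a monotone majorant) -/
def cum (β : ℕ → ℕ) : ℕ → ℕ
  | 0 => β 0
  | k + 1 => cum β k + β (k + 1)

theorem primrec_cum {β : ℕ → ℕ} (hβ : Primrec β) : Primrec (cum β) := by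
  have h : Primrec (Nat.rec (motive := fun _ => ℕ) (β 0) (fun k acc => acc + β (k + 1))) := by
    apply Primrec.nat_rec₁
    exact Primrec.nat_add.comp Primrec.snd (hβ.comp (Primrec.succ.comp Primrec.fst))
  refine h.of_eq ?_
  intro n
  induction n with
  | zero => rfl
  | succ k ih => simp only [cum]; rw [← ih]

theorem le_cum (β : ℕ → ℕ) {i k : ℕ} (h : i ≤ k) : β i ≤ cum β k := by
  induction k with
  | zero => simp at h; subst h; exact le_refl _
  | succ k ih =>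
    rcases Nat.lt_or_ge i (k + 1) with h' | h'
    · exact (ih (by omega)).trans (by simp [cum])
    · have : i = k + 1 := by omega
      subst this
      simp [cum]

theorem abs_iteratedDeriv_mul_le {f g : ℝ → ℝ} (hf : ContDiff ℝ ∞ f) (hg : ContDiff ℝ ∞ g)
    (k : ℕ) (x F G : ℝ) (hF : ∀ i ≤ k, |iteratedDeriv i f x| ≤ F)
    (hG : ∀ i ≤ k, |iteratedDeriv i g x| ≤ G) :
    |iteratedDeriv k (fun s => f s * g s) x| ≤ 2 ^ k * F * G := by
  have hF0 : 0 ≤ F := le_trans (abs_nonneg _) (hF 0 (Nat.zero_le _))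
  have hG0 : 0 ≤ G := le_trans (abs_nonneg _) (hG 0 (Nat.zero_le _))
  have := iteratedDeriv_mul (contDiffAt_of_smooth hf k x) (contDiffAt_of_smooth hg k x)
  rw [show (fun s => f s * g s) = f * g from rfl, this]
  calc |∑ i ∈ Finset.range (k + 1), (k.choose i : ℝ) * iteratedDeriv i f x *
        iteratedDeriv (k - i) g x|
      ≤ ∑ i ∈ Finset.range (k + 1), |(k.choose i : ℝ) * iteratedDeriv i f x *
        iteratedDeriv (k - i) g x| := Finset.abs_sum_le_sum_abs _ _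
    _ ≤ ∑ i ∈ Finset.range (k + 1), (k.choose i : ℝ) * F * G := by
        apply Finset.sum_le_sum
        intro i hi
        have hi' : i ≤ k := by
          have := Finset.mem_range.mp hi
          omega
        rw [abs_mul, abs_mul, Nat.abs_cast]
        exact mul_le_mul (mul_le_mul_of_nonneg_left (hF i hi') (by positivity))
          (hG (k - i) (by omega)) (abs_nonneg _) (by positivity)
    _ = 2 ^ k * F * G := by
        rw [← Finset.sum_mul, ← Finset.sum_mul]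
        congr 2
        have := Nat.sum_range_choose k
        exact_mod_cast this

theorem Bdd1.mul {f g : ℝ → ℝ} (hfs : ContDiff ℝ ∞ f) (hgs : ContDiff ℝ ∞ g) (hf : Bdd1 f)
    (hg : Bdd1 g) : Bdd1 (fun s : ℝ => f s * g s) := by
  obtain ⟨β, hβ, hβ'⟩ := hf
  obtain ⟨γ, hγ, hγ'⟩ := hg
  refine ⟨fun k => 2 ^ k * cum β k * cum γ k, ?_, ?_⟩
  · exact Primrec.nat_mul.comp (Primrec.nat_mul.comp
      (primrec_nat_pow.comp (Primrec.const 2) Primrec.id) (primrec_cum hβ)) (primrec_cum hγ)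
  · intro k x
    have := abs_iteratedDeriv_mul_le hfs hgs k x (cum β k) (cum γ k)
      (fun i hi => (hβ' i x).trans (by exact_mod_cast le_cum β hi))
      (fun i hi => (hγ' i x).trans (by exact_mod_cast le_cum γ hi))
    push_cast
    exact this

theorem poly_iteratedDeriv_bound (c0 c1 c2 : ℝ) (C0 C1 C2 R : ℕ) (h0 : |c0| ≤ C0) (h1 : |c1| ≤ C1)
    (h2 : |c2| ≤ C2) (i : ℕ) (x : ℝ) (hx : |x| ≤ R) :
    |iteratedDeriv i (fun s : ℝ => c0 + c1 * s + c2 * s ^ 2) x| ≤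
      ((C0 + C1 * (R + 1) + 2 * C2 * (R + 1) ^ 2 : ℕ) : ℝ) := by
  have hd1 : deriv (fun s : ℝ => c0 + c1 * s + c2 * s ^ 2) = fun s => c1 + 2 * c2 * s := by
    funext s
    have : HasDerivAt (fun s : ℝ => c0 + c1 * s + c2 * s ^ 2) (0 + c1 * 1 + c2 * (2 * s ^ 1 * 1)) s := by
      exact ((hasDerivAt_const s c0).add ((hasDerivAt_id s).const_mul c1)).add
        (((hasDerivAt_id s).pow 2).const_mul c2)
    rw [this.deriv]; ring
  have hd2 : deriv (fun s : ℝ => c1 + 2 * c2 * s) = fun _ => 2 * c2 := by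
    funext s
    have : HasDerivAt (fun s : ℝ => c1 + 2 * c2 * s) (0 + 2 * c2 * 1) s :=
      (hasDerivAt_const s c1).add ((hasDerivAt_id s).const_mul (2 * c2))
    rw [this.deriv]; ring
  have hR0 : (0 : ℝ) ≤ R := Nat.cast_nonneg R
  have hC1 : (0 : ℝ) ≤ C1 := Nat.cast_nonneg _
  have hC2 : (0 : ℝ) ≤ C2 := Nat.cast_nonneg _
  have hC0 : (0 : ℝ) ≤ C0 := Nat.cast_nonneg _
  have hx2 : |x| ^ 2 ≤ (R : ℝ) ^ 2 := pow_le_pow_left₀ (abs_nonneg _) hx 2
  have m1 : |c1 * x| ≤ C1 * R := by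
    rw [abs_mul]; exact mul_le_mul h1 hx (abs_nonneg _) hC1
  have m2 : |c2 * x ^ 2| ≤ C2 * (R : ℝ) ^ 2 := by
    rw [abs_mul, abs_pow]; exact mul_le_mul h2 hx2 (by positivity) hC2
  have m3 : |2 * c2 * x| ≤ 2 * C2 * R := by
    rw [abs_mul, abs_mul, abs_two]
    exact mul_le_mul (mul_le_mul_of_nonneg_left h2 (by norm_num)) hx (abs_nonneg _) (by positivity)
  push_cast
  match i with
  | 0 =>
    rw [iteratedDeriv_zero]
    calc |c0 + c1 * x + c2 * x ^ 2| ≤ |c0 + c1 * x| + |c2 * x ^ 2| := abs_add_le _ _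
      _ ≤ |c0| + |c1 * x| + |c2 * x ^ 2| := by gcongr; exact abs_add_le _ _
      _ ≤ C0 + C1 * R + C2 * (R : ℝ) ^ 2 := by gcongr
      _ ≤ _ := by nlinarith
  | 1 =>
    rw [iteratedDeriv_one, hd1]
    calc |c1 + 2 * c2 * x| ≤ |c1| + |2 * c2 * x| := abs_add_le _ _
      _ ≤ C1 + 2 * C2 * R := by gcongr
      _ ≤ _ := by nlinarith
  | 2 =>
    rw [iteratedDeriv_succ', iteratedDeriv_one, hd1, hd2, abs_mul, abs_two]
    nlinarith
  | j + 3 =>
    rw [iteratedDeriv_succ', iteratedDeriv_succ', iteratedDeriv_succ', hd1, hd2]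
    simp only [deriv_const']
    rw [iteratedDeriv_fun_const_zero, abs_zero]
    positivity

theorem Bdd1.mul_poly {f : ℝ → ℝ} (hfs : ContDiff ℝ ∞ f) (hf : Bdd1 f) (R : ℕ)
    (hsupp : ∀ x : ℝ, (R : ℝ) < |x| → f x = 0) (c0 c1 c2 : ℚ) :
    Bdd1 (fun s : ℝ => f s * ((c0 : ℝ) + (c1 : ℝ) * s + (c2 : ℝ) * s ^ 2)) := by
  obtain ⟨β, hβ, hβ'⟩ := hf
  obtain ⟨C0, hC0⟩ := exists_nat_ge |(c0 : ℝ)|
  obtain ⟨C1, hC1⟩ := exists_nat_ge |(c1 : ℝ)|
  obtain ⟨C2, hC2⟩ := exists_nat_ge |(c2 : ℝ)|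
  refine ⟨fun k => 2 ^ k * cum β k * (C0 + C1 * (R + 1) + 2 * C2 * (R + 1) ^ 2), ?_, ?_⟩
  · exact Primrec.nat_mul.comp (Primrec.nat_mul.comp
      (primrec_nat_pow.comp (Primrec.const 2) Primrec.id) (primrec_cum hβ)) (Primrec.const _)
  · intro k x
    by_cases hx : |x| ≤ R
    · have := abs_iteratedDeriv_mul_le hfs
        (by fun_prop : ContDiff ℝ ∞ (fun s : ℝ => (c0 : ℝ) + (c1 : ℝ) * s + (c2 : ℝ) * s ^ 2))
        k x (cum β k) ((C0 + C1 * (R + 1) + 2 * C2 * (R + 1) ^ 2 : ℕ) : ℝ)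
        (fun i hi => (hβ' i x).trans (by exact_mod_cast le_cum β hi))
        (fun i _ => poly_iteratedDeriv_bound _ _ _ C0 C1 C2 R hC0 hC1 hC2 i x hx)
      rw [Nat.cast_mul, Nat.cast_mul, Nat.cast_pow, Nat.cast_two]
      exact this
    · rw [not_le] at hx
      have hev : (fun s : ℝ => f s * ((c0 : ℝ) + (c1 : ℝ) * s + (c2 : ℝ) * s ^ 2)) =ᶠ[nhds x]
          fun _ => 0 := by
        have hopen : IsOpen {y : ℝ | (R : ℝ) < |y|} := isOpen_lt continuous_const continuous_abs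
        filter_upwards [hopen.mem_nhds hx] with y hy
        rw [hsupp y hy, zero_mul]
      rw [hev.iteratedDeriv_eq, iteratedDeriv_fun_const_zero, abs_zero]
      positivity

end Crest.Agent.S0170
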