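import Crest.Agent.S0170_NiceB

/-!
# S0170, package P4 (helper27): error of the exact forward difference quotient
-/

set_option autoImplicit false
open scoped ContDiff

namespace Crest.Agent.S0170

theorem fdiff_succ' (g : ℝ → ℝ) (h : ℝ) (k : ℕ) (x : ℝ) :
    fdiff g h (k + 1) x = fdiff (fun y => g (y + h) - g y) h k x := by
  induction k generalizing x with
  | zero => rfl
  | succ k ih =>
    calc fdiff g h (k + 1 + 1) x = fdiff g h (k + 1) (x + h) - fdiff g h (k + 1) x := rfl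
      _ = fdiff (fun y => g (y + h) - g y) h k (x + h) - fdiff (fun y => g (y + h) - g y) h k x := by
          rw [ih, ih]
      _ = fdiff (fun y => g (y + h) - g y) h (k + 1) x := rfl

theorem iteratedDeriv_shift_sub {g : ℝ → ℝ} (hs : ContDiff ℝ ∞ g) (h : ℝ) (k : ℕ) (x : ℝ) :
    iteratedDeriv k (fun y => g (y + h) - g y) x
      = iteratedDeriv k g (x + h) - iteratedDeriv k g x := by
  have h1 : ContDiff ℝ ∞ (fun y => g (y + h)) := hs.comp (by fun_prop)
  have hk : ((k : ℕ∞) : WithTop ℕ∞) ≤ ∞ := by exact_mod_cast le_top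
  rw [iteratedDeriv_fun_sub (h1.of_le hk).contDiffAt (hs.of_le hk).contDiffAt,
    iteratedDeriv_comp_add_const]

theorem fdiff_mvt {g : ℝ → ℝ} (hs : ContDiff ℝ ∞ g) (k : ℕ) {h : ℝ} (hh : 0 < h) (x : ℝ) :
    ∃ ξ ∈ Set.Icc x (x + k * h), fdiff g h k x = h ^ k * iteratedDeriv k g ξ := by
  induction k generalizing g with
  | zero => exact ⟨x, by simp, by simp [fdiff]⟩
  | succ k ih =>
    have hG : ContDiff ℝ ∞ (fun y => g (y + h) - g y) := (hs.comp (by fun_prop)).sub hs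
    obtain ⟨ξ, hξ, he⟩ := ih hG
    rw [iteratedDeriv_shift_sub hs] at he
    have hd : Differentiable ℝ (iteratedDeriv k g) :=
      hs.differentiable_iteratedDeriv k (by exact_mod_cast WithTop.coe_lt_top _)
    obtain ⟨c, hc, hc'⟩ := exists_deriv_eq_slope (iteratedDeriv k g) (by linarith : ξ < ξ + h)
      hd.continuous.continuousOn hd.differentiableOn
    refine ⟨c, ⟨by linarith [hξ.1, hc.1], ?_⟩, ?_⟩
    · have := hc.2; have := hξ.2; push_cast; linarith
    · rw [fdiff_succ', he, iteratedDeriv_succ, hc', add_sub_cancel_left, pow_succ]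
      have hh' : h ≠ 0 := hh.ne'
      field_simp

theorem fdiff_error {g : ℝ → ℝ} (hs : ContDiff ℝ ∞ g) (k : ℕ) (B : ℝ)
    (hB : ∀ x, |iteratedDeriv (k+1) g x| ≤ B) (h : ℝ) (hh : 0 < h) (x : ℝ) :
    |iteratedDeriv k g x - fdiff g h k x / h ^ k| ≤ k * h * B := by
  obtain ⟨ξ, hξ, he⟩ := fdiff_mvt hs k hh x
  have hd : Differentiable ℝ (iteratedDeriv k g) :=
    hs.differentiable_iteratedDeriv k (by exact_mod_cast WithTop.coe_lt_top _)
  have hB0 : 0 ≤ B := (abs_nonneg _).trans (hB x)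
  rw [he, mul_div_assoc, mul_comm, div_mul_cancel₀ _ (pow_pos hh k).ne']
  have := Convex.norm_image_sub_le_of_norm_deriv_le (f := iteratedDeriv k g) (C := B)
    (s := Set.univ) (fun y _ => hd y) (fun y _ => by
      rw [← iteratedDeriv_succ]; exact hB y) convex_univ (Set.mem_univ ξ) (Set.mem_univ x)
  simp only [Real.norm_eq_abs] at this
  refine this.trans ?_
  have h1 : |x - ξ| ≤ k * h := by
    rw [abs_sub_comm, abs_of_nonneg (by linarith [hξ.1])]
    linarith [hξ.2]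
  calc B * |x - ξ| ≤ B * (k * h) := mul_le_mul_of_nonneg_left h1 hB0
    _ = k * h * B := by ring

/-- `fdApprox_error` with exactly the statement of the stub in `S0170_NiceA.lean`. -/
theorem fdApprox_error' {g : ℝ → ℝ} (hs : ContDiff ℝ ∞ g) {a₀ : ℚ × ℕ → ℚ}
    (ha : ∀ (x : ℚ) (n : ℕ), |g (x : ℝ) - (a₀ (x, n) : ℝ)| ≤ 1 / ((n : ℝ) + 1))
    {β : ℕ → ℕ} (hβ : ∀ (k : ℕ) (x : ℝ), |iteratedDeriv k g x| ≤ (β k : ℝ))
    (k : ℕ) (x : ℚ) (n : ℕ) :
    |iteratedDeriv k g (x : ℝ) - (fdApprox a₀ β (k, x, n) : ℝ)| ≤ 1 / ((n : ℝ) + 1) :=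
  fdApprox_error_of_fdiff (fun k B hB h hh x => fdiff_error hs k B hB h hh x) ha hβ k x n

end Crest.Agent.S0170
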