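import Crest.Agent.S0170_StepBound

/-!
# S0170, package P4: shared definitions (finite-difference approximator)
-/

set_option autoImplicit false

namespace Crest.Agent.S0170

/-- weights and offsets of the `k`-th forward difference:
`Δ^k g (x) = ∑_{(w,o) ∈ fdList k} w * g (x + o h)`. -/
def fdList : ℕ → List (ℚ × ℕ)
  | 0 => [(1, 0)]
  | k + 1 => (fdList k).map (fun p => (p.1, p.2 + 1)) ++ (fdList k).map (fun p => (-p.1, p.2))

/-- realises the equation lemmas of `fdList` in this module, so that no two later modules generate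
their own copies -/
theorem fdList_realize : (fdList 0 = [(1, 0)]) ∧ (∀ k, fdList (k + 1) =
    (fdList k).map (fun p => (p.1, p.2 + 1)) ++ (fdList k).map (fun p => (-p.1, p.2))) ∧ True :=
  ⟨by simp only [fdList], fun k => by simp only [fdList], (fun _ => trivial) @fdList.eq_def⟩

/-- inverse mesh used for the `k`-th derivative at precision `n` -/
def fdN (β : ℕ → ℕ) (k n : ℕ) : ℕ := 2 * (n + 1) * k * β (k + 1) + 1

/-- precision requested from the value approximator -/
def fdM (β : ℕ → ℕ) (k n : ℕ) : ℕ := 2 * (n + 1) * 2 ^ k * fdN β k n ^ k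

/-- the finite-difference approximator of all derivatives, built from a value approximator `a₀`
and a bound `β` of the derivatives -/
def fdApprox (a₀ : ℚ × ℕ → ℚ) (β : ℕ → ℕ) (q : ℕ × ℚ × ℕ) : ℚ :=
  (fdN β q.1 q.2.2 : ℚ) ^ q.1 *
    ((fdList q.1).map (fun p : ℚ × ℕ =>
      p.1 * a₀ (q.2.1 + (p.2 : ℚ) / (fdN β q.1 q.2.2 : ℚ), fdM β q.1 q.2.2))).sum

end Crest.Agent.S0170
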