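import Mathlib
/-!
# S0170, package P1: primitive recursive arithmetic on `ℤ` and `ℚ`

`Primcodable ℚ` is `Primcodable.ofDenumerable ℚ` (with `Denumerable.ofEncodableOfInfinite`).
Main tool: `primrec_rat_iff`.
-/

set_option autoImplicit false
namespace Crest.Agent.S0170
open Encodable Denumerable

theorem primrec_nat_pow : Primrec₂ (fun a k : ℕ => a ^ k) := Primrec₂.unpaired'.1 Nat.Primrec.pow

/-! ### integers -/

theorem encode_int_ofNat (n : ℕ) : encode (Int.ofNat n) = 2 * n := by
  show Nat.bit false n = _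
  simp [Nat.bit]

theorem encode_int_negSucc (n : ℕ) : encode (Int.negSucc n) = 2 * n + 1 := by
  show Nat.bit true n = _
  simp [Nat.bit]

theorem encode_int_natAbs (z : ℤ) : z.natAbs = (encode z + 1) / 2 := by
  cases z with
  | ofNat n => rw [encode_int_ofNat]; simp; omega
  | negSucc n => rw [encode_int_negSucc]; simp; omega

theorem encode_int_toNat (z : ℤ) : z.toNat = if encode z % 2 = 0 then encode z / 2 else 0 := by
  cases z with
  | ofNat n => rw [encode_int_ofNat]; simp
  | negSucc n => rw [encode_int_negSucc]; simp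

theorem encode_int_neg_toNat (z : ℤ) : (-z).toNat = if encode z % 2 = 0 then 0 else (encode z + 1) / 2 := by
  cases z with
  | ofNat n => rw [encode_int_ofNat]; simp
  | negSucc n => rw [encode_int_negSucc]; simp [Int.neg_negSucc]; omega

theorem primrec_int_natAbs : Primrec (fun z : ℤ => z.natAbs) := by
  have : Primrec (fun z : ℤ => (encode z + 1) / 2) :=
    Primrec.nat_div.comp (Primrec.nat_add.comp Primrec.encode (Primrec.const 1)) (Primrec.const 2)
  exact this.of_eq fun z => (encode_int_natAbs z).symm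

theorem primrecPred_even_encode : PrimrecPred (fun z : ℤ => encode z % 2 = 0) :=
  Primrec.eq.comp (Primrec.nat_mod.comp Primrec.encode (Primrec.const 2)) (Primrec.const 0)

theorem primrec_int_toNat : Primrec (fun z : ℤ => z.toNat) := by
  have : Primrec (fun z : ℤ => if encode z % 2 = 0 then encode z / 2 else 0) :=
    Primrec.ite primrecPred_even_encode (Primrec.nat_div.comp Primrec.encode (Primrec.const 2))
      (Primrec.const 0)
  exact this.of_eq fun z => (encode_int_toNat z).symm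

theorem primrec_int_neg_toNat : Primrec (fun z : ℤ => (-z).toNat) := by
  have : Primrec (fun z : ℤ => if encode z % 2 = 0 then 0 else (encode z + 1) / 2) :=
    Primrec.ite primrecPred_even_encode (Primrec.const 0)
      (Primrec.nat_div.comp (Primrec.nat_add.comp Primrec.encode (Primrec.const 1)) (Primrec.const 2))
  exact this.of_eq fun z => (encode_int_neg_toNat z).symm

theorem encode_int_sub (a b : ℕ) :
    encode ((a : ℤ) - (b : ℤ)) = if b ≤ a then 2 * (a - b) else 2 * (b - a) - 1 := by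
  split_ifs with h
  · have : ((a : ℤ) - (b : ℤ)) = Int.ofNat (a - b) := by simp; omega
    rw [this, encode_int_ofNat]
  · have : ((a : ℤ) - (b : ℤ)) = Int.negSucc (b - a - 1) := by
      rw [Int.negSucc_eq]; omega
    rw [this, encode_int_negSucc]; omega

/-- `(a,b) ↦ a - b : ℤ` -/
theorem primrec_int_subNat : Primrec₂ (fun a b : ℕ => (a : ℤ) - (b : ℤ)) := by
  apply Primrec.encode_iff.1
  have : Primrec (fun p : ℕ × ℕ => if p.2 ≤ p.1 then 2 * (p.1 - p.2) else 2 * (p.2 - p.1) - 1) :=
    Primrec.ite (Primrec.nat_le.comp Primrec.snd Primrec.fst)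
      (Primrec.nat_mul.comp (Primrec.const 2) (Primrec.nat_sub.comp Primrec.fst Primrec.snd))
      (Primrec.nat_sub.comp
        (Primrec.nat_mul.comp (Primrec.const 2) (Primrec.nat_sub.comp Primrec.snd Primrec.fst))
        (Primrec.const 1))
  exact this.of_eq fun p => (encode_int_sub p.1 p.2).symm

theorem int_eq_sub (z : ℤ) : z = (z.toNat : ℤ) - ((-z).toNat : ℤ) := by omega

theorem primrec_int_natCast : Primrec (fun n : ℕ => (n : ℤ)) :=
  (primrec_int_subNat.comp Primrec.id (Primrec.const 0)).of_eq fun n => by simp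

theorem primrec_int_neg : Primrec (fun z : ℤ => -z) :=
  (primrec_int_subNat.comp primrec_int_neg_toNat primrec_int_toNat).of_eq fun z => by omega

theorem primrec_int_add : Primrec₂ (fun a b : ℤ => a + b) := by
  have : Primrec (fun p : ℤ × ℤ => ((p.1.toNat + p.2.toNat : ℕ) : ℤ) - (((-p.1).toNat + (-p.2).toNat : ℕ) : ℤ)) :=
    primrec_int_subNat.comp
      (Primrec.nat_add.comp (primrec_int_toNat.comp Primrec.fst) (primrec_int_toNat.comp Primrec.snd))
      (Primrec.nat_add.comp (primrec_int_neg_toNat.comp Primrec.fst)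
        (primrec_int_neg_toNat.comp Primrec.snd))
  exact this.of_eq fun p => by push_cast; omega

theorem primrec_int_sub : Primrec₂ (fun a b : ℤ => a - b) :=
  (primrec_int_add.comp Primrec.fst (primrec_int_neg.comp Primrec.snd)).of_eq fun p => by
    simp [sub_eq_add_neg]

theorem primrec_int_mul : Primrec₂ (fun a b : ℤ => a * b) := by
  have : Primrec (fun p : ℤ × ℤ =>
      ((p.1.toNat * p.2.toNat + (-p.1).toNat * (-p.2).toNat : ℕ) : ℤ) -
        ((p.1.toNat * (-p.2).toNat + (-p.1).toNat * p.2.toNat : ℕ) : ℤ)) :=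
    primrec_int_subNat.comp
      (Primrec.nat_add.comp
        (Primrec.nat_mul.comp (primrec_int_toNat.comp Primrec.fst) (primrec_int_toNat.comp Primrec.snd))
        (Primrec.nat_mul.comp (primrec_int_neg_toNat.comp Primrec.fst)
          (primrec_int_neg_toNat.comp Primrec.snd)))
      (Primrec.nat_add.comp
        (Primrec.nat_mul.comp (primrec_int_toNat.comp Primrec.fst)
          (primrec_int_neg_toNat.comp Primrec.snd))
        (Primrec.nat_mul.comp (primrec_int_neg_toNat.comp Primrec.fst)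
          (primrec_int_toNat.comp Primrec.snd)))
  refine this.of_eq fun p => ?_
  obtain ⟨a, b⟩ := p
  conv_rhs => rw [int_eq_sub a, int_eq_sub b]
  push_cast
  ring

theorem primrecRel_int_le : PrimrecRel (fun a b : ℤ => a ≤ b) := by
  have : PrimrecPred (fun p : ℤ × ℤ => (p.1 - p.2).toNat = 0) :=
    Primrec.eq.comp (primrec_int_toNat.comp primrec_int_sub) (Primrec.const 0)
  exact this.of_eq fun p => by simp [Int.toNat_eq_zero]


/-! ### gcd -/

theorem primrecRel_dvd : PrimrecRel (fun k a : ℕ => k ∣ a) := by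
  have : PrimrecRel (fun k a : ℕ => a % k = 0) :=
    Primrec.eq.comp (Primrec.nat_mod.comp Primrec.snd Primrec.fst) (Primrec.const 0)
  exact this.of_eq fun k a => (Nat.dvd_iff_mod_eq_zero).symm

theorem gcd_eq_findGreatest (a b : ℕ) :
    Nat.gcd a b = Nat.findGreatest (fun k => k ∣ a ∧ k ∣ b) (a + b) := by
  symm
  rw [Nat.findGreatest_eq_iff]
  refine ⟨?_, fun _ => ⟨Nat.gcd_dvd_left a b, Nat.gcd_dvd_right a b⟩, ?_⟩
  · rcases Nat.eq_zero_or_pos a with h | h
    · subst h; simp
    · exact (Nat.gcd_le_left b h).trans (Nat.le_add_right a b)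
  · rintro n hn hn' ⟨h1, h2⟩
    have hd : n ∣ Nat.gcd a b := Nat.dvd_gcd h1 h2
    have hpos : 0 < Nat.gcd a b := by
      rcases Nat.eq_zero_or_pos (Nat.gcd a b) with h | h
      · rw [Nat.gcd_eq_zero_iff] at h
        omega
      · exact h
    exact absurd (Nat.le_of_dvd hpos hd) (by omega)

theorem primrec_gcd : Primrec₂ (fun a b : ℕ => Nat.gcd a b) := by
  have h : PrimrecRel (fun (p : ℕ × ℕ) (k : ℕ) => k ∣ p.1 ∧ k ∣ p.2) :=
    PrimrecPred.and (primrecRel_dvd.comp Primrec.snd (Primrec.fst.comp Primrec.fst))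
      (primrecRel_dvd.comp Primrec.snd (Primrec.snd.comp Primrec.fst))
  have : Primrec (fun p : ℕ × ℕ => Nat.findGreatest (fun k => k ∣ p.1 ∧ k ∣ p.2) (p.1 + p.2)) :=
    Primrec.nat_findGreatest (Primrec.nat_add.comp Primrec.fst Primrec.snd) h
  exact this.of_eq fun p => (gcd_eq_findGreatest p.1 p.2).symm

/-! ### the code of a rational -/

/-- the code of `q` for `Rat.instEncodable` -/
def e0 (q : ℚ) : ℕ := Nat.pair (encode q.num) q.den

theorem e0_eq (q : ℚ) : e0 q = @Encodable.encode ℚ Rat.instEncodable q := rfl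

theorem e0_injective : Function.Injective e0 := by
  intro a b h
  exact @Encodable.encode_injective ℚ Rat.instEncodable a b h

/-- the set of codes -/
abbrev SQ : Set ℕ := Set.range (@Encodable.encode ℚ Rat.instEncodable)

instance instDecSQ : DecidablePred (· ∈ SQ) := @Encodable.decidableRangeEncode ℚ Rat.instEncodable

instance instInfSQ : Infinite SQ :=
  Infinite.of_injective _
    (Equiv.ofInjective _ (@Encodable.encode_injective ℚ Rat.instEncodable)).injective

theorem e0_ofNat (n : ℕ) : e0 (Denumerable.ofNat ℚ n) = (Nat.Subtype.ofNat SQ n : ℕ) := by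
  have h1 : Denumerable.ofNat ℚ n = (@Encodable.equivRangeEncode ℚ Rat.instEncodable).symm
      (@Denumerable.ofNat SQ (Nat.Subtype.denumerable SQ) n) :=
    @Denumerable.ofEquiv_ofNat SQ ℚ (Nat.Subtype.denumerable SQ)
      (@Encodable.equivRangeEncode ℚ Rat.instEncodable) n
  have h2 : @Denumerable.ofNat SQ (Nat.Subtype.denumerable SQ) n = Nat.Subtype.ofNat SQ n := rfl
  rw [h1, h2]
  have := (@Encodable.equivRangeEncode ℚ Rat.instEncodable).apply_symm_apply
    (Nat.Subtype.ofNat SQ n)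
  conv_rhs => rw [← this]
  rfl

theorem mem_SQ_iff (m : ℕ) :
    m ∈ SQ ↔ 0 < m.unpair.2 ∧ Nat.gcd ((m.unpair.1 + 1) / 2) m.unpair.2 = 1 := by
  constructor
  · rintro ⟨q, rfl⟩
    rw [← e0_eq, e0, Nat.unpair_pair]
    refine ⟨q.den_pos, ?_⟩
    simp only
    rw [← encode_int_natAbs]
    exact q.reduced
  · rintro ⟨h1, h2⟩
    have hz : (Denumerable.ofNat ℤ m.unpair.1).natAbs = (m.unpair.1 + 1) / 2 := by
      rw [encode_int_natAbs, Denumerable.encode_ofNat]
    refine ⟨⟨Denumerable.ofNat ℤ m.unpair.1, m.unpair.2, h1.ne', by rw [Nat.Coprime, hz]; exact h2⟩, ?_⟩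
    rw [← e0_eq, e0]
    simp only [Denumerable.encode_ofNat]
    exact Nat.pair_unpair m

theorem primrecPred_mem_SQ : PrimrecPred (fun m : ℕ => m ∈ SQ) := by
  have h : PrimrecPred (fun m : ℕ => 0 < m.unpair.2 ∧ Nat.gcd ((m.unpair.1 + 1) / 2) m.unpair.2 = 1) :=
    PrimrecPred.and (Primrec.nat_lt.comp (Primrec.const 0) (Primrec.snd.comp Primrec.unpair))
      (Primrec.eq.comp
        (primrec_gcd.comp
          (Primrec.nat_div.comp
            (Primrec.nat_add.comp (Primrec.fst.comp Primrec.unpair) (Primrec.const 1)) (Primrec.const 2))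
          (Primrec.snd.comp Primrec.unpair))
        (Primrec.const 1))
  exact h.of_eq fun m => (mem_SQ_iff m).symm


theorem pair_one_mem_SQ (x : ℕ) : Nat.pair x 1 ∈ SQ := by
  rw [mem_SQ_iff, Nat.unpair_pair]
  simp

theorem exists_gt_mem_SQ (y : ℕ) : ∃ m, y < m ∧ m ∈ SQ :=
  ⟨Nat.pair (y + 1) 1, lt_of_lt_of_le (Nat.lt_succ_self y) (Nat.left_le_pair _ _), pair_one_mem_SQ _⟩

/-- the least code greater than `y` -/
def nxt (y : ℕ) : ℕ := Nat.find (exists_gt_mem_SQ y)

theorem nxt_spec (y : ℕ) : y < nxt y ∧ nxt y ∈ SQ := Nat.find_spec (exists_gt_mem_SQ y)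

theorem nxt_le {y m : ℕ} (h1 : y < m) (h2 : m ∈ SQ) : nxt y ≤ m :=
  Nat.find_min' (exists_gt_mem_SQ y) ⟨h1, h2⟩

theorem nxt_eq_iff (y m : ℕ) :
    nxt y = m ↔ (y < m ∧ m ∈ SQ) ∧ ∀ z < m, ¬ (y < z ∧ z ∈ SQ) := by
  unfold nxt
  rw [Nat.find_eq_iff]

theorem primrec_nxt : Primrec nxt := by
  apply Primrec.of_graph
  · exact ⟨fun y => Nat.pair (y + 1) 1,
      Primrec₂.natPair.comp (Primrec.succ) (Primrec.const 1), fun y =>
      nxt_le (lt_of_lt_of_le (Nat.lt_succ_self y) (Nat.left_le_pair _ _)) (pair_one_mem_SQ _)⟩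
  · have hR : PrimrecRel (fun z y : ℕ => ¬ (y < z ∧ z ∈ SQ)) :=
      PrimrecPred.not (PrimrecPred.and (Primrec.nat_lt.comp Primrec.snd Primrec.fst)
        (primrecPred_mem_SQ.comp Primrec.fst))
    have h2 : PrimrecRel (fun y m : ℕ => ∀ z < m, ¬ (y < z ∧ z ∈ SQ)) := hR.forall_lt.swap
    have h1 : PrimrecRel (fun y m : ℕ => y < m ∧ m ∈ SQ) :=
      PrimrecPred.and Primrec.nat_lt (primrecPred_mem_SQ.comp Primrec.snd)
    exact (PrimrecPred.and h1 h2).of_eq fun p => (nxt_eq_iff p.1 p.2).symm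

/-- the code of the `n`-th rational -/
def cQ (n : ℕ) : ℕ := (Nat.Subtype.ofNat SQ n : ℕ)

theorem cQ_succ (n : ℕ) : cQ (n + 1) = nxt (cQ n) := by
  have h1 : cQ (n + 1) = (Nat.Subtype.succ (Nat.Subtype.ofNat SQ n) : ℕ) := rfl
  apply le_antisymm
  · have hs := nxt_spec (cQ n)
    have : Nat.Subtype.succ (Nat.Subtype.ofNat SQ n) ≤ ⟨nxt (cQ n), hs.2⟩ :=
      Nat.Subtype.succ_le_of_lt (show Nat.Subtype.ofNat SQ n < ⟨nxt (cQ n), hs.2⟩ from hs.1)
    rw [h1]; exact this
  · apply nxt_le
    · rw [h1]; exact Nat.Subtype.lt_succ_self (Nat.Subtype.ofNat SQ n)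
    · exact (Nat.Subtype.ofNat SQ (n + 1)).2

theorem primrec_cQ : Primrec cQ := by
  have : Primrec (fun n : ℕ => (Nat.rec (cQ 0) (fun _ y => nxt y) n : ℕ)) :=
    Primrec.nat_rec₁ (cQ 0) (primrec_nxt.comp Primrec.snd).to₂
  refine this.of_eq fun n => ?_
  induction n with
  | zero => rfl
  | succ n ih => rw [cQ_succ, ← ih]

theorem cQ_strictMono : StrictMono cQ :=
  strictMono_nat_of_lt_succ fun n => by rw [cQ_succ]; exact (nxt_spec _).1

theorem primrec_e0 : Primrec e0 :=
  Primrec.ofNat_iff.2 (primrec_cQ.of_eq fun n => (e0_ofNat n).symm)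

/-- the code of `q` for the `Primcodable` instance -/
def encQ (q : ℚ) : ℕ := @Encodable.encode ℚ (Primcodable.ofDenumerable ℚ).toEncodable q

theorem cQ_encode (q : ℚ) : cQ (encQ q) = e0 q := by
  rw [cQ, ← e0_ofNat, encQ]
  congr 1
  exact Denumerable.ofNat_encode q

theorem encode_rat_eq (q : ℚ) :
    encQ q = Nat.findGreatest (fun n => cQ n ≤ e0 q) (e0 q) := by
  symm
  rw [Nat.findGreatest_eq_iff]
  refine ⟨?_, fun _ => (cQ_encode q).le, ?_⟩
  · rw [← cQ_encode]; exact cQ_strictMono.le_apply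
  · intro n hn _ h
    have := cQ_strictMono hn
    rw [cQ_encode] at this
    omega

/-- a function into `ℚ` is primitive recursive iff its code is -/
theorem primrec_rat_iff {α : Type*} [Primcodable α] {f : α → ℚ} :
    Primrec f ↔ Primrec (fun a => e0 (f a)) := by
  constructor
  · intro h; exact primrec_e0.comp h
  · intro h
    apply Primrec.encode_iff.1
    have hR : PrimrecRel (fun (a : α) (n : ℕ) => cQ n ≤ e0 (f a)) :=
      Primrec.nat_le.comp (primrec_cQ.comp Primrec.snd) (h.comp Primrec.fst)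
    exact (Primrec.nat_findGreatest h hR).of_eq fun a => (encode_rat_eq (f a)).symm

theorem primrec_rat_num : Primrec (fun q : ℚ => q.num) := by
  apply Primrec.encode_iff.1
  exact (Primrec.fst.comp (Primrec.unpair.comp primrec_e0)).of_eq fun q => by simp [e0]

theorem primrec_rat_den : Primrec (fun q : ℚ => q.den) :=
  (Primrec.snd.comp (Primrec.unpair.comp primrec_e0)).of_eq fun q => by simp [e0]

theorem primrec_rat_num_natAbs : Primrec (fun q : ℚ => q.num.natAbs) :=
  primrec_int_natAbs.comp primrec_rat_num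


/-! ### `mkRat` and the field operations -/

theorem int_ediv_eq_of_dvd (z : ℤ) (g : ℕ) (h : (g : ℤ) ∣ z) :
    z / (g : ℤ) = ((z.toNat / g : ℕ) : ℤ) - (((-z).toNat / g : ℕ) : ℤ) := by
  rcases le_total 0 z with hz | hz
  · have h1 : (-z).toNat = 0 := by omega
    have h2 : z = (z.toNat : ℤ) := by omega
    rw [h1]
    conv_lhs => rw [h2]
    simp
  · have h1 : z.toNat = 0 := by omega
    have h2 : z = -((-z).toNat : ℤ) := by omega
    have h3 : (g : ℤ) ∣ ((-z).toNat : ℤ) := by
      have : ((-z).toNat : ℤ) = -z := by omega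
      rw [this]; exact (dvd_neg).2 h
    rw [h1]
    conv_lhs => rw [h2]
    rw [Int.neg_ediv_of_dvd h3]
    simp

theorem primrec_mkRat : Primrec₂ (fun (z : ℤ) (d : ℕ) => mkRat z d) := by
  apply primrec_rat_iff.2
  have hg : Primrec (fun p : ℤ × ℕ => p.2.gcd p.1.natAbs) :=
    primrec_gcd.comp Primrec.snd (primrec_int_natAbs.comp Primrec.fst)
  have hnum : Primrec (fun p : ℤ × ℕ => if p.2 = 0 then (0 : ℤ) else
      ((p.1.toNat / p.2.gcd p.1.natAbs : ℕ) : ℤ) - (((-p.1).toNat / p.2.gcd p.1.natAbs : ℕ) : ℤ)) :=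
    Primrec.ite (Primrec.eq.comp Primrec.snd (Primrec.const 0)) (Primrec.const 0)
      (primrec_int_subNat.comp (Primrec.nat_div.comp (primrec_int_toNat.comp Primrec.fst) hg)
        (Primrec.nat_div.comp (primrec_int_neg_toNat.comp Primrec.fst) hg))
  have hden : Primrec (fun p : ℤ × ℕ => if p.2 = 0 then 1 else p.2 / p.2.gcd p.1.natAbs) :=
    Primrec.ite (Primrec.eq.comp Primrec.snd (Primrec.const 0)) (Primrec.const 1)
      (Primrec.nat_div.comp Primrec.snd hg)
  refine (Primrec₂.natPair.comp (Primrec.encode.comp hnum) hden).of_eq fun p => ?_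
  obtain ⟨z, d⟩ := p
  simp only [e0, Rat.num_mkRat, Rat.den_mkRat]
  congr 2
  split_ifs with h
  · rfl
  · rw [int_ediv_eq_of_dvd]
    rw [Int.natCast_dvd]
    exact Nat.gcd_dvd_right _ _

theorem primrec_rat_natCast : Primrec (fun n : ℕ => (n : ℚ)) :=
  (primrec_mkRat.comp primrec_int_natCast (Primrec.const 1)).of_eq fun n => by
    simp [Rat.mkRat_eq_div]

theorem primrec_rat_intCast : Primrec (fun n : ℤ => (n : ℚ)) :=
  (primrec_mkRat.comp Primrec.id (Primrec.const 1)).of_eq fun n => by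
    simp [Rat.mkRat_eq_div]

theorem primrec_rat_neg : Primrec (fun q : ℚ => -q) :=
  (primrec_mkRat.comp (primrec_int_neg.comp primrec_rat_num) primrec_rat_den).of_eq fun q => by
    rw [← Rat.neg_mkRat, Rat.mkRat_self]

theorem primrec_rat_add : Primrec₂ (fun a b : ℚ => a + b) := by
  have hn1 : Primrec (fun p : ℚ × ℚ => p.1.num) := primrec_rat_num.comp Primrec.fst
  have hn2 : Primrec (fun p : ℚ × ℚ => p.2.num) := primrec_rat_num.comp Primrec.snd
  have hd1 : Primrec (fun p : ℚ × ℚ => p.1.den) := primrec_rat_den.comp Primrec.fst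
  have hd2 : Primrec (fun p : ℚ × ℚ => p.2.den) := primrec_rat_den.comp Primrec.snd
  exact (primrec_mkRat.comp
    (primrec_int_add.comp (primrec_int_mul.comp hn1 (primrec_int_natCast.comp hd2))
      (primrec_int_mul.comp hn2 (primrec_int_natCast.comp hd1)))
    (Primrec.nat_mul.comp hd1 hd2)).of_eq fun p => (Rat.add_def' p.1 p.2).symm

theorem primrec_rat_sub : Primrec₂ (fun a b : ℚ => a - b) :=
  (primrec_rat_add.comp Primrec.fst (primrec_rat_neg.comp Primrec.snd)).of_eq fun p => by
    simp [sub_eq_add_neg]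

theorem primrec_rat_mul : Primrec₂ (fun a b : ℚ => a * b) := by
  have hn1 : Primrec (fun p : ℚ × ℚ => p.1.num) := primrec_rat_num.comp Primrec.fst
  have hn2 : Primrec (fun p : ℚ × ℚ => p.2.num) := primrec_rat_num.comp Primrec.snd
  have hd1 : Primrec (fun p : ℚ × ℚ => p.1.den) := primrec_rat_den.comp Primrec.fst
  have hd2 : Primrec (fun p : ℚ × ℚ => p.2.den) := primrec_rat_den.comp Primrec.snd
  exact (primrec_mkRat.comp (primrec_int_mul.comp hn1 hn2)
    (Primrec.nat_mul.comp hd1 hd2)).of_eq fun p => (Rat.mul_def' p.1 p.2).symm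

theorem rat_inv_eq (q : ℚ) :
    q⁻¹ = mkRat (if 0 ≤ q.num then (q.den : ℤ) else -(q.den : ℤ)) q.num.natAbs := by
  rw [Rat.mkRat_eq_div]
  conv_lhs => rw [← Rat.num_div_den q]
  rw [inv_div]
  split_ifs with h
  · have : ((q.num.natAbs : ℕ) : ℚ) = (q.num : ℚ) := by
      have h' : ((q.num.natAbs : ℕ) : ℤ) = q.num := Int.natAbs_of_nonneg h
      calc ((q.num.natAbs : ℕ) : ℚ) = (((q.num.natAbs : ℕ) : ℤ) : ℚ) := (Int.cast_natCast _).symm
        _ = (q.num : ℚ) := by rw [h']
    rw [this]; simp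
  · have : ((q.num.natAbs : ℕ) : ℚ) = -(q.num : ℚ) := by
      have h' : ((q.num.natAbs : ℕ) : ℤ) = -q.num := by omega
      calc ((q.num.natAbs : ℕ) : ℚ) = (((q.num.natAbs : ℕ) : ℤ) : ℚ) := (Int.cast_natCast _).symm
        _ = -(q.num : ℚ) := by rw [h']; simp
    rw [this]; simp [div_neg, neg_div]

theorem primrec_rat_inv : Primrec (fun q : ℚ => q⁻¹) := by
  have h : Primrec (fun q : ℚ => if 0 ≤ q.num then (q.den : ℤ) else -(q.den : ℤ)) :=
    Primrec.ite (primrecRel_int_le.comp (Primrec.const 0) primrec_rat_num)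
      (primrec_int_natCast.comp primrec_rat_den)
      (primrec_int_neg.comp (primrec_int_natCast.comp primrec_rat_den))
  exact (primrec_mkRat.comp h primrec_rat_num_natAbs).of_eq fun q => (rat_inv_eq q).symm

theorem primrec_rat_div : Primrec₂ (fun a b : ℚ => a / b) :=
  (primrec_rat_mul.comp Primrec.fst (primrec_rat_inv.comp Primrec.snd)).of_eq fun p => by
    simp [div_eq_mul_inv]

theorem primrec_rat_pow : Primrec₂ (fun (a : ℚ) (k : ℕ) => a ^ k) := by
  have : Primrec₂ (fun (a : ℚ) (k : ℕ) => (Nat.rec (1 : ℚ) (fun _ y => y * a) k : ℚ)) :=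
    Primrec.nat_rec (Primrec.const 1)
      (primrec_rat_mul.comp (Primrec.snd.comp Primrec.snd) Primrec.fst).to₂
  refine this.of_eq fun a k => ?_
  induction k with
  | zero => simp
  | succ k ih => rw [pow_succ, ← ih]

theorem primrecRel_rat_le : PrimrecRel (fun a b : ℚ => a ≤ b) := by
  have : PrimrecPred (fun p : ℚ × ℚ => 0 ≤ (p.2 - p.1).num) :=
    primrecRel_int_le.comp (Primrec.const 0) (primrec_rat_num.comp
      (primrec_rat_sub.comp Primrec.snd Primrec.fst))
  exact this.of_eq fun p => by rw [Rat.num_nonneg, sub_nonneg]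

theorem primrecRel_rat_lt : PrimrecRel (fun a b : ℚ => a < b) :=
  (PrimrecPred.not primrecRel_rat_le.swap).of_eq fun p => by simp [Function.swap]

theorem primrec_rat_list_sum : Primrec (fun l : List ℚ => l.sum) := by
  have : Primrec (fun l : List ℚ => l.foldr (fun a s => a + s) 0) :=
    Primrec.list_foldr Primrec.id (Primrec.const 0)
      (primrec_rat_add.comp (Primrec.fst.comp Primrec.snd) (Primrec.snd.comp Primrec.snd)).to₂
  exact this.of_eq fun l => by simp [List.sum]

end Crest.Agent.S0170
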