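import Crest.Agent.S0170_Stage

/-!
# S0170, package P8a: bookkeeping of realizable maps on neighbourhoods of the pieces
-/

set_option autoImplicit false
open Crest.AnalysisR.BoxFlow

namespace Crest.Agent.S0170

variable {n : ℕ}

/-- boxes `i`, `i'` of the configuration (centres `c`, half-widths `w`) are strictly separated in
coordinate `d` -/
def SepAt (c w : Fin n → Fin 3 → ℚ) (i i' : Fin n) (d : Fin 3) : Prop :=
  w i d + w i' d < |c i d - c i' d|

/-- pairwise disjoint boxes -/
def Valid (c w : Fin n → Fin 3 → ℚ) : Prop := ∀ i i', i ≠ i' → ∃ d, SepAt c w i i' d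

/-- elementary move: box `i0` is translated by `v` along the axis `j`; the swept box misses all the
other boxes -/
def Move (w c c' : Fin n → Fin 3 → ℚ) : Prop :=
  ∃ (i0 : Fin n) (j : Fin 3) (v : ℚ),
    c' = Function.update c i0 (Function.update (c i0) j (c i0 j + v)) ∧
    ∀ i, i ≠ i0 → (∃ d, d ≠ j ∧ SepAt c w i i0 d) ∨
      c i j + w i j < min (c i0 j) (c i0 j + v) - w i0 j ∨
      max (c i0 j) (c i0 j + v) + w i0 j < c i j - w i j

theorem reach_id (K : Fin n → Set R3) : Reach K (fun _ y => y) :=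
  ⟨fun y => y, realizable_id, fun _ => ⟨Set.univ, isOpen_univ, Set.subset_univ _, fun _ _ => rfl⟩⟩

theorem continuous_shear (j m : Fin 3) (α β : ℚ) : Continuous (shear j m α β) := by
  unfold shear
  fun_prop

/-- one localized shear applied to the piece `i0` -/
theorem Reach.shear_step {K : Fin n → Set R3} {A : Fin n → R3 → R3} (h : Reach K A)
    (hA : ∀ i, Continuous (A i)) (i0 : Fin n) (j m : Fin 3) (hjm : j ≠ m) (α β : ℚ)
    (lo hi : Fin 3 → ℚ) (η : ℚ) (hη : 0 < η)
    (hin : ∀ x ∈ K i0, ∀ d, (lo d : ℝ) < A i0 x d ∧ A i0 x d < (hi d : ℝ) ∧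
      (lo d : ℝ) < shear j m α β (A i0 x) d ∧ shear j m α β (A i0 x) d < (hi d : ℝ))
    (hout : ∀ i, i ≠ i0 → ∀ x ∈ K i, ∃ d, A i x d < (lo d : ℝ) - η ∨ (hi d : ℝ) + η < A i x d) :
    Reach K (Function.update A i0 (fun x => shear j m α β (A i0 x))) := by
  obtain ⟨Ψ₀, hΨ₀, hO⟩ := h
  obtain ⟨Ψs, hΨs, hs1, hs2⟩ := exists_stage j m hjm α β lo hi η hη
  refine ⟨fun y => Ψs (Ψ₀ y), hΨ₀.comp hΨs, fun i => ?_⟩
  obtain ⟨O, hOo, hKO, hOeq⟩ := hO i
  by_cases hi0 : i = i0
  · subst hi0
    have hcs : Continuous (fun x => shear j m α β (A i x)) := (continuous_shear j m α β).comp (hA i)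
    refine ⟨O ∩ ⋂ d : Fin 3, ({x | (lo d : ℝ) < A i x d} ∩ {x | A i x d < (hi d : ℝ)} ∩
      {x | (lo d : ℝ) < shear j m α β (A i x) d} ∩ {x | shear j m α β (A i x) d < (hi d : ℝ)}), ?_, ?_, ?_⟩
    · apply hOo.inter
      apply isOpen_iInter_of_finite
      intro d
      have c1 : Continuous (fun x => A i x d) := (continuous_apply d).comp (hA i)
      have c2 : Continuous (fun x => shear j m α β (A i x) d) := (continuous_apply d).comp hcs
      exact (((isOpen_lt continuous_const c1).inter (isOpen_lt c1 continuous_const)).inter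
        (isOpen_lt continuous_const c2)).inter (isOpen_lt c2 continuous_const)
    · intro x hx
      refine ⟨hKO hx, ?_⟩
      rw [Set.mem_iInter]
      intro d
      obtain ⟨a1, a2, a3, a4⟩ := hin x hx d
      exact ⟨⟨⟨a1, a2⟩, a3⟩, a4⟩
    · intro x hx
      obtain ⟨hxO, hx2⟩ := hx
      rw [Set.mem_iInter] at hx2
      simp only [Function.update_self]
      rw [hOeq x hxO]
      apply hs1
      · intro d
        exact ⟨(hx2 d).1.1.1.le, (hx2 d).1.1.2.le⟩
      · intro d
        exact ⟨(hx2 d).1.2.le, (hx2 d).2.le⟩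
  · refine ⟨O ∩ ⋃ d : Fin 3, ({x | A i x d < (lo d : ℝ) - η} ∪ {x | (hi d : ℝ) + η < A i x d}), ?_, ?_, ?_⟩
    · apply hOo.inter
      apply isOpen_iUnion
      intro d
      have c1 : Continuous (fun x => A i x d) := (continuous_apply d).comp (hA i)
      exact (isOpen_lt c1 continuous_const).union (isOpen_lt continuous_const c1)
    · intro x hx
      refine ⟨hKO hx, ?_⟩
      rw [Set.mem_iUnion]
      obtain ⟨d, hd⟩ := hout i hi0 x hx
      exact ⟨d, hd⟩
    · intro x hx
      obtain ⟨hxO, hx2⟩ := hx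
      rw [Set.mem_iUnion] at hx2
      obtain ⟨d, hd⟩ := hx2
      rw [Function.update_of_ne hi0]
      show Ψs (Ψ₀ x) = A i x
      rw [hOeq x hxO]
      apply hs2
      refine ⟨d, ?_⟩
      rcases hd with hd | hd
      · left; exact le_of_lt hd
      · right; exact le_of_lt hd

theorem exists_pos_le_of_fin (f : Fin n → ℚ) (hf : ∀ i, 0 < f i) : ∃ η : ℚ, 0 < η ∧ ∀ i, η ≤ f i := by
  rcases isEmpty_or_nonempty (Fin n) with he | hne
  · exact ⟨1, one_pos, fun i => (he.false i).elim⟩
  · obtain ⟨i, hi⟩ := Finite.exists_min f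
    exact ⟨f i, hf i, hi⟩

theorem exists_ne (j : Fin 3) : ∃ m : Fin 3, j ≠ m := by
  fin_cases j
  · exact ⟨1, by decide⟩
  · exact ⟨0, by decide⟩
  · exact ⟨0, by decide⟩

/-- transport along one elementary move -/
theorem Reach.move {K : Fin n → Set R3} {A : Fin n → R3 → R3} {w c c' : Fin n → Fin 3 → ℚ}
    (h : Reach K A) (hA : ∀ i, Continuous (A i))
    (hsub : ∀ i, ∀ x ∈ K i, A i x ∈ box (c i) (w i)) (hm : Move w c c') :
    Reach K (fun i x => A i x + ratPoint (c' i - c i)) := by
  obtain ⟨i0, j, v, hc', hsep⟩ := hm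
  obtain ⟨m, hjm⟩ := exists_ne j
  -- the gaps
  have hgap : ∀ i, ∃ g : ℚ, 0 < g ∧ (i ≠ i0 → (∃ d, d ≠ j ∧ w i d + w i0 d + g ≤ |c i d - c i0 d|) ∨
      c i j + w i j + g ≤ min (c i0 j) (c i0 j + v) - w i0 j ∨
      max (c i0 j) (c i0 j + v) + w i0 j + g ≤ c i j - w i j) := by
    intro i
    by_cases hi : i = i0
    · exact ⟨1, one_pos, fun h => (h hi).elim⟩
    · rcases hsep i hi with ⟨d, hdj, hd⟩ | hd | hd
      · refine ⟨|c i d - c i0 d| - (w i d + w i0 d), by unfold SepAt at hd; linarith, fun _ => ?_⟩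
        left; exact ⟨d, hdj, by linarith⟩
      · refine ⟨min (c i0 j) (c i0 j + v) - w i0 j - (c i j + w i j), by linarith, fun _ => ?_⟩
        right; left; linarith
      · refine ⟨c i j - w i j - (max (c i0 j) (c i0 j + v) + w i0 j), by linarith, fun _ => ?_⟩
        right; right; linarith
  choose g hg0 hg using hgap
  obtain ⟨η₀, hη₀, hη₀le⟩ := exists_pos_le_of_fin g hg0
  set η : ℚ := η₀ / 3 with hη
  have hηpos : 0 < η := by rw [hη]; positivity
  have hη3 : ∀ i, 3 * η ≤ g i := fun i => by rw [hη]; linarith [hη₀le i]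
  -- swept box
  set lo : Fin 3 → ℚ := fun d => (if d = j then min (c i0 j) (c i0 j + v) else c i0 d) - w i0 d - η with hlo
  set hi : Fin 3 → ℚ := fun d => (if d = j then max (c i0 j) (c i0 j + v) else c i0 d) + w i0 d + η with hhi
  have hηR : (0 : ℝ) < (η : ℝ) := by exact_mod_cast hηpos
  have hstep := Reach.shear_step h hA i0 j m hjm v 0 lo hi η hηpos ?_ ?_
  · -- identify the maps
    have : (fun i x => A i x + ratPoint (c' i - c i)) =
        Function.update A i0 (fun x => shear j m v 0 (A i0 x)) := by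
      funext i x
      by_cases hi0 : i = i0
      · subst hi0
        rw [Function.update_self, hc', Function.update_self]
        unfold shear ratPoint
        funext d
        by_cases hd : d = j
        · subst hd; simp
        · simp [Function.update_of_ne hd, Pi.single_eq_of_ne hd]
      · rw [Function.update_of_ne hi0, hc', Function.update_of_ne hi0]
        unfold ratPoint
        funext d; simp
    rw [this]; exact hstep
  · intro x hx d
    have hb := hsub i0 x hx d
    rw [abs_le] at hb
    obtain ⟨hb1, hb2⟩ := hb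
    have hsh : shear j m v 0 (A i0 x) d = A i0 x d + (if d = j then (v : ℝ) else 0) := by
      unfold shear
      by_cases hd : d = j
      · subst hd; simp
      · simp [hd]
    rw [hsh]
    by_cases hd : d = j
    · subst hd
      simp only [hlo, hhi, if_true]
      push_cast
      have m1 := min_le_left ((c i0 d : ℝ)) ((c i0 d : ℝ) + v)
      have m2 := min_le_right ((c i0 d : ℝ)) ((c i0 d : ℝ) + v)
      have m3 := le_max_left ((c i0 d : ℝ)) ((c i0 d : ℝ) + v)
      have m4 := le_max_right ((c i0 d : ℝ)) ((c i0 d : ℝ) + v)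
      refine ⟨by linarith, by linarith, by linarith, by linarith⟩
    · simp only [hlo, hhi, if_neg hd]
      push_cast
      refine ⟨by linarith, by linarith, by linarith, by linarith⟩
  · intro i hi0 x hx
    have hb := hsub i x hx
    have h3 := hη3 i
    have h3R : 3 * (η : ℝ) ≤ (g i : ℝ) := by exact_mod_cast h3
    rcases hg i hi0 with ⟨d, hdj, hd⟩ | hd | hd
    · refine ⟨d, ?_⟩
      have hbd := abs_le.mp (hb d)
      simp only [hlo, hhi, if_neg hdj]
      push_cast
      have hdR : (w i d : ℝ) + w i0 d + g i ≤ |(c i d : ℝ) - c i0 d| := by exact_mod_cast hd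
      rcases abs_cases ((c i d : ℝ) - c i0 d) with ⟨e, _⟩ | ⟨e, _⟩
      · right; rw [e] at hdR; linarith [hbd.1]
      · left; rw [e] at hdR; linarith [hbd.2]
    · refine ⟨j, ?_⟩
      have hbd := abs_le.mp (hb j)
      simp only [hlo, hhi, if_true]
      push_cast
      have hdR : (c i j : ℝ) + w i j + g i ≤ min (c i0 j : ℝ) ((c i0 j : ℝ) + v) - w i0 j := by
        exact_mod_cast hd
      left; linarith [hbd.2]
    · refine ⟨j, ?_⟩
      have hbd := abs_le.mp (hb j)
      simp only [hlo, hhi, if_true]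
      push_cast
      have hdR : max (c i0 j : ℝ) ((c i0 j : ℝ) + v) + w i0 j + g i ≤ (c i j : ℝ) - w i j := by
        exact_mod_cast hd
      right; linarith [hbd.1]

/-- transport along a chain of elementary moves -/
theorem Reach.conn {K : Fin n → Set R3} {A : Fin n → R3 → R3} {w c c' : Fin n → Fin 3 → ℚ}
    (h : Reach K A) (hA : ∀ i, Continuous (A i))
    (hsub : ∀ i, ∀ x ∈ K i, A i x ∈ box (c i) (w i)) (hm : Relation.ReflTransGen (Move w) c c') :
    Reach K (fun i x => A i x + ratPoint (c' i - c i)) := by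
  induction hm with
  | refl =>
    have : (fun i x => A i x + ratPoint (c i - c i)) = A := by
      funext i x d; simp [ratPoint]
    rw [this]; exact h
  | @tail c₁ c₂ _ hmove ih =>
    have hA' : ∀ i, Continuous (fun x => A i x + ratPoint (c₁ i - c i)) :=
      fun i => (hA i).add continuous_const
    have hsub' : ∀ i, ∀ x ∈ K i, A i x + ratPoint (c₁ i - c i) ∈ box (c₁ i) (w i) := by
      intro i x hx d
      have := hsub i x hx d
      simp only [ratPoint, Pi.add_apply, Pi.sub_apply]
      push_cast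
      have e : A i x d + ((c₁ i d : ℝ) - c i d) - c₁ i d = A i x d - c i d := by ring
      rw [e]; exact this
    have := Reach.move ih hA' hsub' hmove
    have e : (fun i x => A i x + ratPoint (c₁ i - c i) + ratPoint (c₂ i - c₁ i)) =
        (fun i x => A i x + ratPoint (c₂ i - c i)) := by
      funext i x d
      simp only [ratPoint, Pi.add_apply, Pi.sub_apply]
      push_cast; ring
    rw [e] at this
    exact this

end Crest.Agent.S0170
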