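import Crest.Agent.S0170_Defs
import Crest.Agent.S0170_RatPrim

/-!
# S0170, package P5b: effectivity of separable fields, of `0` and of sums

Everything lives in the namespace `Crest.Agent.S0170.SepEff`, so that `S0170_Sep.lean` can import
this file and close its stubs by one-liners.
-/

set_option autoImplicit false
open scoped ContDiff
open Crest.AnalysisR.BoxFlow

namespace Crest.Agent.S0170.SepEff

/-! ## Calculus of `mixedDeriv` -/

theorem mixedDeriv_cons (d : Fin 4) (ds : List (Fin 4)) (U : Field) (p : ℝ × R3) :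
    mixedDeriv (d :: ds) U p = fderiv ℝ (mixedDeriv ds U) p (direction d) := rfl

theorem contDiff_mixedDeriv {U : Field} (hU : ContDiff ℝ ∞ U) (ds : List (Fin 4)) :
    ContDiff ℝ ∞ (mixedDeriv ds U) := by
  induction ds with
  | nil => exact hU
  | cons d ds ih =>
    show ContDiff ℝ ∞ (fun p => fderiv ℝ (mixedDeriv ds U) p (direction d))
    exact (ih.fderiv_right (m := ∞) (by simp)).clm_apply contDiff_const

theorem mixedDeriv_add {U V : Field} (hU : ContDiff ℝ ∞ U) (hV : ContDiff ℝ ∞ V)
    (ds : List (Fin 4)) :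
    mixedDeriv ds (fun p => U p + V p) = fun p => mixedDeriv ds U p + mixedDeriv ds V p := by
  induction ds with
  | nil => rfl
  | cons d ds ih =>
    funext p
    have h1 : DifferentiableAt ℝ (mixedDeriv ds U) p :=
      ((contDiff_mixedDeriv hU ds).differentiable (by simp)) p
    have h2 : DifferentiableAt ℝ (mixedDeriv ds V) p :=
      ((contDiff_mixedDeriv hV ds).differentiable (by simp)) p
    rw [mixedDeriv_cons, mixedDeriv_cons, mixedDeriv_cons, ih, fderiv_fun_add h1 h2]
    rfl

theorem mixedDeriv_zero (ds : List (Fin 4)) :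
    mixedDeriv ds (fun _ => 0) = fun _ => 0 := by
  induction ds with
  | nil => rfl
  | cons d ds ih =>
    funext p
    rw [mixedDeriv_cons, ih]
    simp

/-! ## Computability helpers -/

section comp
variable {α σ : Type*} [Primcodable α] [Primcodable σ]

theorem computable_fin_lam {n : ℕ} {f : α → Fin n → σ}
    (h : ∀ i, Computable (fun a => f a i)) : Computable f :=
  (Primrec.vector_get'.to_comp.comp (Computable.vector_ofFn h)).of_eq
    (fun a => by funext i; simp)

theorem primrec_fin_lam {n : ℕ} {f : α → Fin n → σ}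
    (h : ∀ i, Primrec (fun a => f a i)) : Primrec f :=
  (Primrec.vector_get'.comp (Primrec.vector_ofFn h)).of_eq
    (fun a => by funext i; simp)

theorem primrec_fin_sum_nat : ∀ {n : ℕ} {f : Fin n → α → ℕ}, (∀ i, Primrec (f i)) →
    Primrec (fun a => ∑ i, f i a)
  | 0, _, _ => by simpa using Primrec.const 0
  | n + 1, f, hf => by
    simp only [Fin.sum_univ_succ]
    exact Primrec.nat_add.comp (hf 0) (primrec_fin_sum_nat fun i => hf i.succ)

theorem primrec_fin_prod_rat : ∀ {n : ℕ} {f : Fin n → α → ℚ}, (∀ i, Primrec (f i)) →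
    Primrec (fun a => ∏ i, f i a)
  | 0, _, _ => by simpa using Primrec.const 1
  | n + 1, f, hf => by
    simp only [Fin.prod_univ_succ]
    exact primrec_rat_mul.comp (hf 0) (primrec_fin_prod_rat fun i => hf i.succ)

theorem primrec_list_count [DecidableEq σ] (d : σ) : Primrec (fun l : List σ => l.count d) := by
  have hp : PrimrecPred (fun x : σ => x = d) := Primrec.eq.comp Primrec.id (Primrec.const d)
  refine (Primrec.list_length.comp (Primrec.listFilter hp)).of_eq fun l => ?_
  rw [List.count_eq_length_filter]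
  congr 1

end comp

/-! ## `0` and sums -/

theorem effective_zero : Effective (fun _ => 0) := by
  refine ⟨fun _ => 0, fun _ => 0, Computable.const _, Computable.const _, ?_, ?_⟩
  · intro ds t q n j
    rw [mixedDeriv_zero]
    simp only [Pi.zero_apply, Rat.cast_zero, sub_self, abs_zero]
    positivity
  · intro ds p j
    rw [mixedDeriv_zero]
    simp

theorem effective_add {U V : Field} (hU : ContDiff ℝ ∞ U) (hV : ContDiff ℝ ∞ V)
    (eU : Effective U) (eV : Effective V) : Effective (fun p => U p + V p) := by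
  obtain ⟨EU, bU, cEU, cbU, aU, hbU⟩ := eU
  obtain ⟨EV, bV, cEV, cbV, aV, hbV⟩ := eV
  refine ⟨fun x j => EU (x.1, x.2.1, 2 * x.2.2 + 1) j + EV (x.1, x.2.1, 2 * x.2.2 + 1) j,
    fun ds => bU ds + bV ds, ?_, ?_, ?_, ?_⟩
  · apply computable_fin_lam
    intro j
    have harg : Computable (fun x : List (Fin 4) × (ℚ × (Fin 3 → ℚ)) × ℕ =>
        (x.1, x.2.1, 2 * x.2.2 + 1)) := by
      refine Computable.pair Computable.fst (Computable.pair (Computable.fst.comp Computable.snd) ?_)
      exact (Primrec.nat_add.comp (Primrec.nat_mul.comp (Primrec.const 2)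
        (Primrec.snd.comp Primrec.snd)) (Primrec.const 1)).to_comp
    exact primrec_rat_add.to_comp.comp
      (Computable.fin_app.comp (cEU.comp harg) (Computable.const j))
      (Computable.fin_app.comp (cEV.comp harg) (Computable.const j))
  · exact Primrec.nat_add.to_comp.comp cbU cbV
  · intro ds t q n j
    rw [mixedDeriv_add hU hV]
    have h1 := aU ds t q (2 * n + 1) j
    have h2 := aV ds t q (2 * n + 1) j
    have e : (1 : ℝ) / (((2 * n + 1 : ℕ) : ℝ) + 1) + 1 / (((2 * n + 1 : ℕ) : ℝ) + 1)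
        = 1 / ((n : ℝ) + 1) := by
      push_cast
      field_simp
      ring
    rw [← e]
    simp only [Pi.add_apply, Rat.cast_add]
    calc |mixedDeriv ds U ((t : ℝ), ratPoint q) j + mixedDeriv ds V ((t : ℝ), ratPoint q) j
          - ((EU (ds, (t, q), 2 * n + 1) j : ℝ) + (EV (ds, (t, q), 2 * n + 1) j : ℝ))|
        = |(mixedDeriv ds U ((t : ℝ), ratPoint q) j - (EU (ds, (t, q), 2 * n + 1) j : ℝ))
          + (mixedDeriv ds V ((t : ℝ), ratPoint q) j - (EV (ds, (t, q), 2 * n + 1) j : ℝ))| := by
          congr 1; ring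
      _ ≤ _ := (abs_add_le _ _).trans (add_le_add h1 h2)
  · intro ds p j
    rw [mixedDeriv_add hU hV]
    push_cast
    exact (abs_add_le _ _).trans (add_le_add (hbU ds p j) (hbV ds p j))

/-! ## Products -/

theorem abs_prod_le_pow {n : ℕ} (y : Fin n → ℝ) (C : ℝ) (hy : ∀ d, |y d| ≤ C) :
    |∏ d, y d| ≤ C ^ n := by
  rw [Finset.abs_prod]
  calc ∏ d, |y d| ≤ ∏ _d : Fin n, C :=
        Finset.prod_le_prod (fun d _ => abs_nonneg _) (fun d _ => hy d)
    _ = C ^ n := by simp

theorem abs_prod_sub_prod_le : ∀ (n : ℕ) (x y : Fin n → ℝ) (C ε : ℝ), 1 ≤ C → 0 ≤ ε →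
    (∀ d, |x d| ≤ C) → (∀ d, |y d| ≤ C) → (∀ d, |x d - y d| ≤ ε) →
    |∏ d, x d - ∏ d, y d| ≤ n * C ^ n * ε
  | 0, x, y, C, ε, _, _, _, _, _ => by simp
  | n + 1, x, y, C, ε, hC, hε, hx, hy, hxy => by
    have ih := abs_prod_sub_prod_le n (fun d => x d.succ) (fun d => y d.succ) C ε hC hε
      (fun d => hx _) (fun d => hy _) (fun d => hxy _)
    have hY := abs_prod_le_pow (fun d : Fin n => y d.succ) C (fun d => hy _)
    have hC0 : 0 ≤ C := le_trans zero_le_one hC
    rw [Fin.prod_univ_succ, Fin.prod_univ_succ]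
    have e : x 0 * ∏ d : Fin n, x d.succ - y 0 * ∏ d : Fin n, y d.succ
        = x 0 * (∏ d : Fin n, x d.succ - ∏ d : Fin n, y d.succ)
          + (x 0 - y 0) * ∏ d : Fin n, y d.succ := by ring
    rw [e]
    have h1 : |x 0 * (∏ d : Fin n, x d.succ - ∏ d : Fin n, y d.succ)|
        ≤ C * (n * C ^ n * ε) := by
      rw [abs_mul]
      exact mul_le_mul (hx 0) ih (abs_nonneg _) hC0
    have h2 : |(x 0 - y 0) * ∏ d : Fin n, y d.succ| ≤ ε * C ^ n := by
      rw [abs_mul]
      exact mul_le_mul (hxy 0) hY (abs_nonneg _) hε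
    have h3 : ε * C ^ n ≤ ε * C ^ (n + 1) :=
      mul_le_mul_of_nonneg_left (pow_le_pow_right₀ hC (Nat.le_succ n)) hε
    calc _ ≤ C * (n * C ^ n * ε) + ε * C ^ n := (abs_add_le _ _).trans (add_le_add h1 h2)
      _ ≤ C * (n * C ^ n * ε) + ε * C ^ (n + 1) := by linarith
      _ = ((n + 1 : ℕ) : ℝ) * C ^ (n + 1) * ε := by push_cast; ring

/-! ## Separable fields -/

/-- rational version of `coord` -/
def coordQ (d : Fin 4) (p : ℚ × (Fin 3 → ℚ)) : ℚ := if h : d = 0 then p.1 else p.2 (d.pred h)

theorem coord_ratPoint (d : Fin 4) (t : ℚ) (q : Fin 3 → ℚ) :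
    coord d ((t : ℝ), ratPoint q) = (coordQ d (t, q) : ℝ) := by
  unfold coord coordQ ratPoint
  split_ifs <;> rfl

theorem primrec_coordQ (d : Fin 4) : Primrec (coordQ d) := by
  unfold coordQ
  by_cases h : d = 0
  · simp only [h, dite_true]
    exact Primrec.fst
  · simp only [h, dite_false]
    exact Primrec.fin_app.comp Primrec.snd (Primrec.const _)

theorem effective_sepField_of {g : Fin 3 → Fin 4 → ℝ → ℝ} (hg : ∀ j d, Nice1 (g j d))
    (hmd : ∀ ds : List (Fin 4), mixedDeriv ds (sepField g)
      = sepField (fun j d => iteratedDeriv (ds.count d) (g j d))) :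
    Effective (sepField g) := by
  choose a ha hax using fun j d => (hg j d).approx
  choose β hβ hβx using fun j d => (hg j d).bdd
  -- common bound
  set C : List (Fin 4) → ℕ := fun ds => 1 + ∑ j : Fin 3, ∑ d : Fin 4, β j d (ds.count d) with hCdef
  have hCprim : Primrec C := by
    refine Primrec.nat_add.comp (Primrec.const 1) (primrec_fin_sum_nat fun j =>
      primrec_fin_sum_nat fun d => (hβ j d).comp (primrec_list_count d))
  have hβC : ∀ ds j d, (β j d (ds.count d) : ℝ) + 1 ≤ (C ds : ℝ) := by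
    intro ds j d
    have h1 : β j d (ds.count d) ≤ ∑ d : Fin 4, β j d (ds.count d) :=
      Finset.single_le_sum (f := fun d => β j d (ds.count d)) (fun _ _ => Nat.zero_le _)
        (Finset.mem_univ d)
    have h2 : ∑ d : Fin 4, β j d (ds.count d) ≤ ∑ j : Fin 3, ∑ d : Fin 4, β j d (ds.count d) :=
      Finset.single_le_sum (f := fun j => ∑ d : Fin 4, β j d (ds.count d))
        (fun _ _ => Nat.zero_le _) (Finset.mem_univ j)
    have h3 : β j d (ds.count d) + 1 ≤ C ds := by simp only [hCdef]; omega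
    exact_mod_cast h3
  have hC4prim : Primrec (fun ds => C ds * C ds * C ds * C ds) :=
    Primrec.nat_mul.comp (Primrec.nat_mul.comp (Primrec.nat_mul.comp hCprim hCprim) hCprim) hCprim
  refine ⟨fun x j => ∏ d : Fin 4, a j d (x.1.count d, coordQ d x.2.1,
      4 * (C x.1 * C x.1 * C x.1 * C x.1) * (x.2.2 + 1)),
    fun ds => C ds * C ds * C ds * C ds, ?_, hC4prim.to_comp, ?_, ?_⟩
  · apply Primrec.to_comp
    apply primrec_fin_lam
    intro j
    apply primrec_fin_prod_rat
    intro d
    refine (ha j d).comp (Primrec.pair ((primrec_list_count d).comp Primrec.fst)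
      (Primrec.pair ((primrec_coordQ d).comp (Primrec.fst.comp Primrec.snd)) ?_))
    exact Primrec.nat_mul.comp (Primrec.nat_mul.comp (Primrec.const 4)
      (hC4prim.comp Primrec.fst)) (Primrec.succ.comp (Primrec.snd.comp Primrec.snd))
  · intro ds t q n j
    rw [hmd]
    simp only [sepField, coord_ratPoint, Rat.cast_prod]
    set m : ℕ := 4 * (C ds * C ds * C ds * C ds) * (n + 1) with hm
    have hC1 : (1 : ℝ) ≤ (C ds : ℝ) := by
      have : 1 ≤ C ds := by simp only [hCdef]; omega
      exact_mod_cast this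
    have hε0 : (0 : ℝ) ≤ 1 / ((m : ℝ) + 1) := by positivity
    have hε1 : 1 / ((m : ℝ) + 1) ≤ 1 := by
      rw [div_le_one (by positivity)]
      have : (0 : ℝ) ≤ (m : ℝ) := Nat.cast_nonneg _
      linarith
    have hx : ∀ d : Fin 4, |iteratedDeriv (ds.count d) (g j d) (coordQ d (t, q) : ℝ)| ≤ (C ds : ℝ) := by
      intro d
      have := hβx j d (ds.count d) (coordQ d (t, q) : ℝ)
      have := hβC ds j d
      linarith
    have hxy : ∀ d : Fin 4, |iteratedDeriv (ds.count d) (g j d) (coordQ d (t, q) : ℝ)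
        - (a j d (ds.count d, coordQ d (t, q), m) : ℝ)| ≤ 1 / ((m : ℝ) + 1) :=
      fun d => hax j d (ds.count d) (coordQ d (t, q)) m
    have hy : ∀ d : Fin 4, |(a j d (ds.count d, coordQ d (t, q), m) : ℝ)| ≤ (C ds : ℝ) := by
      intro d
      have h1 := hβx j d (ds.count d) (coordQ d (t, q) : ℝ)
      have h2 := hβC ds j d
      have h3 := hxy d
      have h4 : |(a j d (ds.count d, coordQ d (t, q), m) : ℝ)|
          ≤ |iteratedDeriv (ds.count d) (g j d) (coordQ d (t, q) : ℝ)|
            + |iteratedDeriv (ds.count d) (g j d) (coordQ d (t, q) : ℝ)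
              - (a j d (ds.count d, coordQ d (t, q), m) : ℝ)| := by
        have := abs_sub_abs_le_abs_sub (a j d (ds.count d, coordQ d (t, q), m) : ℝ)
          (iteratedDeriv (ds.count d) (g j d) (coordQ d (t, q) : ℝ))
        rw [abs_sub_comm] at this
        linarith
      linarith
    have key := abs_prod_sub_prod_le 4 _ _ (C ds : ℝ) _ hC1 hε0 hx hy hxy
    refine key.trans ?_
    have hmcast : (m : ℝ) = 4 * (C ds : ℝ) ^ 4 * ((n : ℝ) + 1) := by
      rw [hm]; push_cast; ring
    have hpos : (0 : ℝ) < 4 * (C ds : ℝ) ^ 4 := by positivity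
    have hn : (0 : ℝ) < (n : ℝ) + 1 := by positivity
    rw [hmcast]
    rw [mul_one_div, div_le_div_iff₀ (by positivity) hn]
    push_cast
    nlinarith
  · intro ds p j
    rw [hmd]
    simp only [sepField]
    have hx : ∀ d : Fin 4, |iteratedDeriv (ds.count d) (g j d) (coord d p)| ≤ (C ds : ℝ) := by
      intro d
      have := hβx j d (ds.count d) (coord d p)
      have := hβC ds j d
      linarith
    have := abs_prod_le_pow _ _ hx
    refine this.trans (le_of_eq ?_)
    push_cast
    ring

end Crest.Agent.S0170.SepEff
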