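import Crest.Agent.S0170_Defs
import Crest.Agent.S0170_RatPrim
import Crest.Agent.S0170_SepEff

/-!
# S0170, package P5: separable fields are effective; effectivity of sums
-/

set_option autoImplicit false
open scoped ContDiff
open Crest.AnalysisR.BoxFlow

namespace Crest.Agent.S0170

/-- `coord d` as a continuous linear map -/
noncomputable def coordL (d : Fin 4) : (ℝ × R3) →L[ℝ] ℝ :=
  if h : d = 0 then ContinuousLinearMap.fst ℝ ℝ R3
  else (ContinuousLinearMap.proj (d.pred h)).comp (ContinuousLinearMap.snd ℝ ℝ R3)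

theorem coordL_apply (d : Fin 4) (p : ℝ × R3) : coordL d p = coord d p := by
  unfold coordL coord
  split_ifs <;> rfl

theorem coord_eq (d : Fin 4) : coord d = fun p => coordL d p := by
  funext p; rw [coordL_apply]

theorem coord_direction (d' d : Fin 4) : coord d' (direction d) = if d' = d then 1 else 0 := by
  unfold coord direction
  by_cases h' : d' = 0 <;> by_cases h : d = 0
  · simp [h', h]
  · have : (0 : Fin 4) ≠ d := fun e => h e.symm
    simp [h', h, this]
  · simp [h', h]
  · simp only [h', h, dite_false]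
    by_cases e : d' = d
    · subst e; simp
    · have : d'.pred h' ≠ d.pred h := fun e2 => e (Fin.pred_inj.1 e2)
      simp [e, this]

theorem contDiff_coord (d : Fin 4) : ContDiff ℝ ∞ (coord d) := by
  rw [coord_eq]; exact (coordL d).contDiff

theorem contDiff_sepField {g : Fin 3 → Fin 4 → ℝ → ℝ} (hg : ∀ j d, ContDiff ℝ ∞ (g j d)) :
    ContDiff ℝ ∞ (sepField g) := by
  unfold sepField
  rw [contDiff_pi]
  intro j
  exact contDiff_prod (fun d _ => (hg j d).comp (contDiff_coord d))

theorem hasCompactSupport_sepField {g : Fin 3 → Fin 4 → ℝ → ℝ}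
    (hg : ∀ j d, HasCompactSupport (g j d)) : HasCompactSupport (sepField g) := by
  -- a common radius
  have hr : ∀ j d, ∃ r : ℝ, ∀ x, r < |x| → g j d x = 0 := by
    intro j d
    obtain ⟨r, hr⟩ := (hg j d).isCompact.isBounded.subset_closedBall 0
    refine ⟨r, fun x hx => ?_⟩
    by_contra hne
    have : x ∈ tsupport (g j d) := subset_tsupport _ hne
    have := hr this
    rw [mem_closedBall_zero_iff, Real.norm_eq_abs] at this
    linarith
  choose r hr using hr
  set ρ : ℝ := ∑ j, ∑ d, |r j d| with hρ
  have hle : ∀ j d, r j d ≤ ρ := by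
    intro j d
    calc r j d ≤ |r j d| := le_abs_self _
      _ ≤ ∑ d, |r j d| := Finset.single_le_sum (f := fun d => |r j d|)
          (fun _ _ => abs_nonneg _) (Finset.mem_univ d)
      _ ≤ ρ := Finset.single_le_sum (f := fun j => ∑ d, |r j d|)
          (fun _ _ => Finset.sum_nonneg fun _ _ => abs_nonneg _) (Finset.mem_univ j)
  apply HasCompactSupport.intro (K := Set.Icc (-ρ) ρ ×ˢ Set.pi Set.univ (fun _ => Set.Icc (-ρ) ρ))
    (isCompact_Icc.prod (isCompact_univ_pi fun _ => isCompact_Icc))
  intro p hp
  -- some coordinate is large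
  have : ∃ d : Fin 4, ρ < |coord d p| := by
    by_contra hcon
    push Not at hcon
    apply hp
    refine ⟨?_, ?_⟩
    · have := hcon 0
      simp only [coord, dite_true] at this
      exact abs_le.1 this
    · intro i _
      have := hcon i.succ
      simp only [coord, Fin.succ_ne_zero, dite_false, Fin.pred_succ] at this
      exact abs_le.1 this
  obtain ⟨d, hd⟩ := this
  funext j
  show ∏ d : Fin 4, g j d (coord d p) = 0
  exact Finset.prod_eq_zero (Finset.mem_univ d) (hr j d _ (lt_of_le_of_lt (hle j d) hd))

theorem hasFDerivAt_comp_coord {f : ℝ → ℝ} (hf : ContDiff ℝ ∞ f) (d : Fin 4) (p : ℝ × R3) :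
    HasFDerivAt (fun p => f (coord d p)) (deriv f (coord d p) • coordL d) p := by
  have h1 : HasDerivAt f (deriv f (coord d p)) (coord d p) :=
    ((hf.differentiable (by simp)) _).hasDerivAt
  have h2 : HasFDerivAt (coord d) (coordL d) p := by
    rw [coord_eq]; exact (coordL d).hasFDerivAt
  exact h1.comp_hasFDerivAt p h2

theorem fderiv_sepField {g : Fin 3 → Fin 4 → ℝ → ℝ} (hg : ∀ j d, ContDiff ℝ ∞ (g j d))
    (p : ℝ × R3) (d : Fin 4) :
    fderiv ℝ (sepField g) p (direction d) =
      sepField (fun j d' => if d' = d then deriv (g j d') else g j d') p := by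
  have hcomp : ∀ j : Fin 3, HasFDerivAt (fun p => sepField g p j)
      (∑ d' : Fin 4, (∏ d'' ∈ Finset.univ.erase d', g j d'' (coord d'' p)) •
        (deriv (g j d') (coord d' p) • coordL d')) p := by
    intro j
    exact HasFDerivAt.finsetProd (fun d' _ => hasFDerivAt_comp_coord (hg j d') d' p)
  have hpi : HasFDerivAt (sepField g) (ContinuousLinearMap.pi fun j =>
      (∑ d' : Fin 4, (∏ d'' ∈ Finset.univ.erase d', g j d'' (coord d'' p)) •
        (deriv (g j d') (coord d' p) • coordL d'))) p := hasFDerivAt_pi.2 hcomp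
  rw [hpi.fderiv]
  funext j
  simp only [ContinuousLinearMap.coe_pi', FunLike.coe_sum, Finset.sum_apply,
    FunLike.coe_smul, Pi.smul_apply, coordL_apply, coord_direction, smul_eq_mul]
  rw [Finset.sum_eq_single d]
  · simp only [if_true, mul_one, sepField]
    rw [← Finset.mul_prod_erase Finset.univ _ (Finset.mem_univ d)]
    simp only [if_true]
    rw [mul_comm]
    congr 1
    apply Finset.prod_congr rfl
    intro d'' hd''
    rw [if_neg (Finset.ne_of_mem_erase hd'')]
  · intro d' _ hne
    simp [hne]
  · intro h; exact absurd (Finset.mem_univ d) h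

theorem contDiff_iteratedDeriv {f : ℝ → ℝ} (hf : ContDiff ℝ ∞ f) (n : ℕ) :
    ContDiff ℝ ∞ (iteratedDeriv n f) := by
  rw [iteratedDeriv_eq_iterate]
  exact hf.iterate_deriv n

theorem mixedDeriv_sepField {g : Fin 3 → Fin 4 → ℝ → ℝ} (hg : ∀ j d, ContDiff ℝ ∞ (g j d))
    (ds : List (Fin 4)) :
    mixedDeriv ds (sepField g) = sepField (fun j d => iteratedDeriv (ds.count d) (g j d)) := by
  induction ds with
  | nil =>
    simp only [mixedDeriv, List.count_nil, iteratedDeriv_zero]
  | cons d ds ih =>
    funext p
    show fderiv ℝ (mixedDeriv ds (sepField g)) p (direction d) = _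
    rw [ih, fderiv_sepField (fun j d => contDiff_iteratedDeriv (hg j d) _)]
    congr 1
    funext j d'
    by_cases h : d' = d
    · subst h
      simp only [if_true, List.count_cons_self, iteratedDeriv_succ]
    · have h2 : d ≠ d' := fun e => h e.symm
      simp only [if_neg h, List.count_cons_of_ne h2]

theorem spaceDiv_sepField {g : Fin 3 → Fin 4 → ℝ → ℝ} (hg : ∀ j d, ContDiff ℝ ∞ (g j d))
    (p : ℝ × R3) :
    spaceDiv (sepField g) p =
      ∑ j : Fin 3, ∏ d : Fin 4, (if d = j.succ then deriv (g j d) else g j d) (coord d p) := by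
  unfold spaceDiv
  apply Finset.sum_congr rfl
  intro j _
  have hdir : ((0 : ℝ), (Pi.single j 1 : R3)) = direction j.succ := by
    simp [direction, Fin.succ_ne_zero]
  rw [hdir, fderiv_sepField hg]
  rfl

theorem effective_sepField {g : Fin 3 → Fin 4 → ℝ → ℝ} (hg : ∀ j d, Nice1 (g j d)) :
    Effective (sepField g) :=
  SepEff.effective_sepField_of hg (mixedDeriv_sepField fun j d => (hg j d).smooth)

theorem effective_zero : Effective (fun _ => 0) := SepEff.effective_zero

theorem effective_add {U V : Field} (hU : ContDiff ℝ ∞ U) (hV : ContDiff ℝ ∞ V)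
    (eU : Effective U) (eV : Effective V) : Effective (fun p => U p + V p) :=
  SepEff.effective_add hU hV eU eV

end Crest.Agent.S0170
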