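import Crest.Agent.S0170_Flow
import Crest.Agent.S0170_Nice

/-!
# S0170, package P7: one localized shear (helper1; complete modulo the stubs of Flow/Sep/Nice/Step)

Base field `U₁ (t,x) = step'(t) • V x`, `V = ∂_m F e_j - ∂_j F e_m`, `F x = ∏ d, A d (x d)`,
`A d = plat (lo d) (hi d) η` for `d ≠ m`, `A m s = plat (lo m) (hi m) η s * (α s + β s²/2)`.
`φ` = flow of `U₁`, `Ψ = φ 1`.  For the window `[T0,T1]` the field is `χ'(t) • V x`,
`χ t = step (a t + b)`, `a t + b = (t-T0)/(T1-T0)`, with flow `Φ t x = φ (a t + b) x`.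
-/

set_option autoImplicit false
open scoped ContDiff
open Crest.AnalysisR.BoxFlow

namespace Crest.Agent.S0170

namespace Stage

theorem hasDerivAt_step (x : ℝ) : HasDerivAt step (deriv step x) x :=
  (step_contDiff.differentiable (by simp) x).hasDerivAt

/-- polynomially weighted plateau -/
noncomputable def pw (lo hi η c0 c1 c2 : ℚ) (s : ℝ) : ℝ :=
  plat lo hi η s * ((c0 : ℝ) + (c1 : ℝ) * s + (c2 : ℝ) * s ^ 2)

theorem plat_contDiff (lo hi η : ℚ) : ContDiff ℝ ∞ (plat lo hi η) := by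
  unfold plat
  apply ContDiff.mul
  · exact step_contDiff.comp (by fun_prop)
  · exact step_contDiff.comp (by fun_prop)

theorem pw_contDiff (lo hi η c0 c1 c2 : ℚ) : ContDiff ℝ ∞ (pw lo hi η c0 c1 c2) := by
  unfold pw
  exact (plat_contDiff lo hi η).mul (by fun_prop)

theorem hasDerivAt_plat (lo hi η : ℚ) (s : ℝ) :
    HasDerivAt (plat lo hi η)
      (deriv step ((s - lo + η) / η) * (1 / η) * step ((hi + η - s) / η)
        + step ((s - lo + η) / η) * (deriv step ((hi + η - s) / η) * (-1 / η))) s := by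
  have h1 : HasDerivAt (fun s : ℝ => (s - lo + η) / η) (1 / (η : ℝ)) s :=
    (((hasDerivAt_id s).sub_const _).add_const _).div_const _
  have h2 : HasDerivAt (fun s : ℝ => ((hi : ℝ) + η - s) / η) (-1 / (η : ℝ)) s :=
    ((hasDerivAt_id s).const_sub _).div_const _
  have h3 := (hasDerivAt_step ((s - lo + η) / η)).comp s h1
  have h4 := (hasDerivAt_step (((hi : ℝ) + η - s) / η)).comp s h2
  exact h3.mul h4

theorem plat_of_mem {lo hi η : ℚ} (hη : 0 < η) {s : ℝ} (h1 : (lo : ℝ) ≤ s) (h2 : s ≤ (hi : ℝ)) :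
    plat lo hi η s = 1 := by
  have hη' : (0 : ℝ) < η := by exact_mod_cast hη
  unfold plat
  rw [step_of_one_le, step_of_one_le, mul_one]
  · rw [le_div_iff₀ hη']; linarith
  · rw [le_div_iff₀ hη']; linarith

theorem deriv_plat_of_mem {lo hi η : ℚ} (hη : 0 < η) {s : ℝ} (h1 : (lo : ℝ) ≤ s)
    (h2 : s ≤ (hi : ℝ)) : HasDerivAt (plat lo hi η) 0 s := by
  have hη' : (0 : ℝ) < η := by exact_mod_cast hη
  have h := hasDerivAt_plat lo hi η s
  rw [deriv_step_of_one_le, deriv_step_of_one_le] at h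
  · simpa using h
  · rw [le_div_iff₀ hη']; linarith
  · rw [le_div_iff₀ hη']; linarith

theorem plat_of_out {lo hi η : ℚ} (hη : 0 < η) {s : ℝ}
    (h : s ≤ (lo : ℝ) - η ∨ (hi : ℝ) + η ≤ s) : plat lo hi η s = 0 := by
  have hη' : (0 : ℝ) < η := by exact_mod_cast hη
  unfold plat
  rcases h with h | h
  · rw [step_of_nonpos, zero_mul]
    apply div_nonpos_of_nonpos_of_nonneg _ hη'.le; linarith
  · rw [step_of_nonpos (x := ((hi : ℝ) + η - s) / η), mul_zero]
    apply div_nonpos_of_nonpos_of_nonneg _ hη'.le; linarith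

theorem deriv_plat_of_out {lo hi η : ℚ} (hη : 0 < η) {s : ℝ}
    (h : s ≤ (lo : ℝ) - η ∨ (hi : ℝ) + η ≤ s) : HasDerivAt (plat lo hi η) 0 s := by
  have hη' : (0 : ℝ) < η := by exact_mod_cast hη
  have h0 := hasDerivAt_plat lo hi η s
  rcases h with h | h
  · have hx : (s - lo + η) / (η : ℝ) ≤ 0 := by
      apply div_nonpos_of_nonpos_of_nonneg _ hη'.le; linarith
    rw [deriv_step_of_nonpos hx, step_of_nonpos hx] at h0
    simpa using h0
  · have hx : ((hi : ℝ) + η - s) / (η : ℝ) ≤ 0 := by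
      apply div_nonpos_of_nonpos_of_nonneg _ hη'.le; linarith
    rw [deriv_step_of_nonpos hx, step_of_nonpos hx] at h0
    simpa using h0

theorem hasDerivAt_poly (c0 c1 c2 : ℚ) (s : ℝ) :
    HasDerivAt (fun s : ℝ => (c0 : ℝ) + (c1 : ℝ) * s + (c2 : ℝ) * s ^ 2)
      ((c1 : ℝ) + 2 * (c2 : ℝ) * s) s := by
  have h1 : HasDerivAt (fun s : ℝ => (c1 : ℝ) * s) (c1 : ℝ) s := by
    simpa using (hasDerivAt_id s).const_mul (c1 : ℝ)
  have h2 : HasDerivAt (fun s : ℝ => (c2 : ℝ) * s ^ 2) ((c2 : ℝ) * (2 * s)) s := by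
    simpa using (hasDerivAt_pow 2 s).const_mul (c2 : ℝ)
  exact ((h1.const_add (c0 : ℝ)).add h2).congr_deriv (by ring)

theorem pw_of_mem {lo hi η : ℚ} (c0 c1 c2 : ℚ) (hη : 0 < η) {s : ℝ} (h1 : (lo : ℝ) ≤ s)
    (h2 : s ≤ (hi : ℝ)) : pw lo hi η c0 c1 c2 s = (c0 : ℝ) + (c1 : ℝ) * s + (c2 : ℝ) * s ^ 2 := by
  rw [pw, plat_of_mem hη h1 h2, one_mul]

theorem deriv_pw_of_mem {lo hi η : ℚ} (c0 c1 c2 : ℚ) (hη : 0 < η) {s : ℝ} (h1 : (lo : ℝ) ≤ s)
    (h2 : s ≤ (hi : ℝ)) : deriv (pw lo hi η c0 c1 c2) s = (c1 : ℝ) + 2 * (c2 : ℝ) * s := by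
  have h := (deriv_plat_of_mem hη h1 h2).mul (hasDerivAt_poly c0 c1 c2 s)
  rw [plat_of_mem hη h1 h2] at h
  have h' : HasDerivAt (pw lo hi η c0 c1 c2) ((c1 : ℝ) + 2 * (c2 : ℝ) * s) s :=
    h.congr_deriv (by ring)
  exact h'.deriv

theorem pw_of_out {lo hi η : ℚ} (c0 c1 c2 : ℚ) (hη : 0 < η) {s : ℝ}
    (h : s ≤ (lo : ℝ) - η ∨ (hi : ℝ) + η ≤ s) : pw lo hi η c0 c1 c2 s = 0 := by
  rw [pw, plat_of_out hη h, zero_mul]

theorem deriv_pw_of_out {lo hi η : ℚ} (c0 c1 c2 : ℚ) (hη : 0 < η) {s : ℝ}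
    (h : s ≤ (lo : ℝ) - η ∨ (hi : ℝ) + η ≤ s) : deriv (pw lo hi η c0 c1 c2) s = 0 := by
  have h0 := (deriv_plat_of_out hη h).mul (hasDerivAt_poly c0 c1 c2 s)
  rw [plat_of_out hη h] at h0
  have h' : HasDerivAt (pw lo hi η c0 c1 c2) 0 s := h0.congr_deriv (by ring)
  exact h'.deriv

theorem pw_compact {lo hi η : ℚ} (c0 c1 c2 : ℚ) (hη : 0 < η) :
    HasCompactSupport (pw lo hi η c0 c1 c2) := by
  apply HasCompactSupport.intro (isCompact_Icc (a := (lo : ℝ) - η) (b := (hi : ℝ) + η))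
  intro x hx
  apply pw_of_out _ _ _ hη
  by_contra hcon
  push Not at hcon
  exact hx ⟨hcon.1.le, hcon.2.le⟩

theorem deriv_pw_compact {lo hi η : ℚ} (c0 c1 c2 : ℚ) (hη : 0 < η) :
    HasCompactSupport (deriv (pw lo hi η c0 c1 c2)) := (pw_compact c0 c1 c2 hη).deriv

theorem nice_pw (lo hi η c0 c1 c2 : ℚ) (hη : 0 < η) : Nice1 (pw lo hi η c0 c1 c2) :=
  nice1_plat_mul_poly lo hi η c0 c1 c2 hη

/-- parameters of a stage -/
structure Par where
  j : Fin 3
  m : Fin 3
  hjm : j ≠ m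
  α : ℚ
  β : ℚ
  lo : Fin 3 → ℚ
  hi : Fin 3 → ℚ
  η : ℚ
  hη : 0 < η

variable (P : Par)

/-- one-variable factors of the stream function -/
noncomputable def A (d : Fin 3) : ℝ → ℝ :=
  pw (P.lo d) (P.hi d) P.η (if d = P.m then 0 else 1) (if d = P.m then P.α else 0)
    (if d = P.m then P.β / 2 else 0)

/-- space factors of the components of the field -/
noncomputable def Gs (j' d : Fin 3) : ℝ → ℝ :=
  if (j' = P.j ∧ d = P.m) ∨ (j' = P.m ∧ d = P.j) then deriv (A P d) else A P d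

/-- time factor of the components of the field -/
noncomputable def gT (τ : ℝ → ℝ) (j' : Fin 3) : ℝ → ℝ :=
  if j' = P.j then τ else if j' = P.m then (fun s => - τ s) else (fun _ => 0)

/-- all factors -/
noncomputable def g (τ : ℝ → ℝ) (j' : Fin 3) (d : Fin 4) : ℝ → ℝ :=
  Fin.cases (gT P τ j') (fun d' => Gs P j' d') d

/-- the autonomous field -/
noncomputable def V (x : R3) : R3 := fun j' =>
  (if j' = P.j then 1 else if j' = P.m then -1 else 0) * ∏ d : Fin 3, Gs P j' d (x d)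

theorem coord_zero (p : ℝ × R3) : coord 0 p = p.1 := by simp [coord]

theorem coord_succ (d : Fin 3) (p : ℝ × R3) : coord d.succ p = p.2 d := by
  simp [coord, Fin.succ_ne_zero]

theorem sepField_g (τ : ℝ → ℝ) (p : ℝ × R3) : sepField (g P τ) p = τ p.1 • V P p.2 := by
  ext j'
  simp only [sepField, Fin.prod_univ_succ (n := 3), coord_zero, coord_succ, g, Fin.cases_zero,
    Fin.cases_succ, V, Pi.smul_apply, smul_eq_mul, gT]
  split_ifs <;> ring

theorem A_contDiff (d : Fin 3) : ContDiff ℝ ∞ (A P d) := pw_contDiff _ _ _ _ _ _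

theorem A_nice (d : Fin 3) : Nice1 (A P d) := nice_pw _ _ _ _ _ _ P.hη

theorem Gs_nice (j' d : Fin 3) : Nice1 (Gs P j' d) := by
  unfold Gs
  split_ifs
  · exact (A_nice P d).deriv
  · exact A_nice P d

theorem Gs_compact (j' d : Fin 3) : HasCompactSupport (Gs P j' d) := by
  unfold Gs
  split_ifs
  · exact deriv_pw_compact _ _ _ P.hη
  · exact pw_compact _ _ _ P.hη

theorem gT_nice {τ : ℝ → ℝ} (hτ : Nice1 τ) (j' : Fin 3) : Nice1 (gT P τ j') := by
  unfold gT
  split_ifs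
  · exact hτ
  · exact hτ.neg
  · exact nice1_zero

theorem gT_compact {τ : ℝ → ℝ} (hτ : HasCompactSupport τ) (j' : Fin 3) :
    HasCompactSupport (gT P τ j') := by
  unfold gT
  split_ifs
  · exact hτ
  · exact hτ.neg
  · exact HasCompactSupport.zero

theorem g_nice {τ : ℝ → ℝ} (hτ : Nice1 τ) (j' : Fin 3) (d : Fin 4) : Nice1 (g P τ j' d) := by
  refine Fin.cases ?_ (fun d' => ?_) d
  · exact gT_nice P hτ j'
  · exact Gs_nice P j' d'

theorem g_compact {τ : ℝ → ℝ} (hτ : HasCompactSupport τ) (j' : Fin 3) (d : Fin 4) :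
    HasCompactSupport (g P τ j' d) := by
  refine Fin.cases ?_ (fun d' => ?_) d
  · exact gT_compact P hτ j'
  · exact Gs_compact P j' d'

theorem div_g {τ : ℝ → ℝ} (hτ : Nice1 τ) (p : ℝ × R3) : spaceDiv (sepField (g P τ)) p = 0 := by
  rw [spaceDiv_sepField (fun j d => (g_nice P hτ j d).smooth)]
  obtain ⟨j, m, hjm, α, β, lo, hi, η, hη⟩ := P
  simp only [Fin.sum_univ_three, Fin.prod_univ_succ (n := 3), Fin.prod_univ_three, coord_zero,
    coord_succ, g, Fin.cases_zero, Fin.cases_succ, gT, Gs]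
  fin_cases j <;> fin_cases m <;> first | exact absurd rfl hjm | skip
  all_goals simp [Fin.ext_iff]

theorem Gs_of_out (j' d : Fin 3) {s : ℝ} (h : s ≤ (P.lo d : ℝ) - P.η ∨ (P.hi d : ℝ) + P.η ≤ s) :
    Gs P j' d s = 0 := by
  unfold Gs
  split_ifs
  · exact deriv_pw_of_out _ _ _ P.hη h
  · exact pw_of_out _ _ _ P.hη h

theorem V_of_out {y : R3} (h : ∃ d, y d ≤ (P.lo d : ℝ) - P.η ∨ (P.hi d : ℝ) + P.η ≤ y d) :
    V P y = 0 := by
  obtain ⟨d, hd⟩ := h
  ext j'
  simp only [V, Pi.zero_apply]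
  rw [Finset.prod_eq_zero (Finset.mem_univ d) (Gs_of_out P j' d hd), mul_zero]

theorem V_of_mem {y : R3} (h : y ∈ cbox P.lo P.hi) :
    V P y = ((P.α : ℝ) + (P.β : ℝ) * y P.m) • (Pi.single P.j (1 : ℝ) : R3) := by
  have hjm := P.hjm
  ext j'
  simp only [V, Pi.smul_apply, smul_eq_mul, Pi.single_apply]
  by_cases h1 : j' = P.j
  · subst h1
    simp only [if_true, one_mul, mul_one]
    rw [Finset.prod_eq_single P.m]
    · have : Gs P P.j P.m = deriv (A P P.m) := by simp [Gs]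
      rw [this, A, deriv_pw_of_mem _ _ _ P.hη (h P.m).1 (h P.m).2]
      simp only [if_true]
      push_cast
      ring
    · intro d _ hd
      have : Gs P P.j d = A P d := by simp [Gs, hd, hjm]
      rw [this, A, pw_of_mem _ _ _ P.hη (h d).1 (h d).2]
      simp [hd]
    · intro h; exact absurd (Finset.mem_univ _) h
  · simp only [h1, if_false, mul_zero]
    by_cases h2 : j' = P.m
    · subst h2
      have : Gs P P.m P.j = deriv (A P P.j) := by simp [Gs]
      rw [Finset.prod_eq_zero (Finset.mem_univ P.j), mul_zero]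
      rw [this, A, deriv_pw_of_mem _ _ _ P.hη (h P.j).1 (h P.j).2]
      simp [hjm]
    · simp [h2]

theorem nice_step : Nice1 step := by
  have h := nice1_step_affine 1 0
  have e : (fun s : ℝ => step (((1 : ℚ) : ℝ) * s + ((0 : ℚ) : ℝ))) = step := by
    funext s; simp
  rwa [e] at h

theorem deriv_step_compact : HasCompactSupport (deriv step) := by
  apply HasCompactSupport.intro (isCompact_Icc (a := (0 : ℝ)) (b := 1))
  intro x hx
  by_cases h : x ≤ 0
  · exact deriv_step_of_nonpos h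
  · apply deriv_step_of_one_le
    by_contra h2
    exact hx ⟨(not_le.1 h).le, (not_le.1 h2).le⟩

/-- the base field, active during `[0,1]` -/
noncomputable def U₁ : Field := sepField (g P (deriv step))

theorem U₁_apply (p : ℝ × R3) : U₁ P p = deriv step p.1 • V P p.2 := sepField_g P _ p

theorem U₁_smooth : ContDiff ℝ ∞ (U₁ P) :=
  contDiff_sepField (fun j d => (g_nice P nice_step.deriv j d).smooth)

theorem U₁_compact : HasCompactSupport (U₁ P) :=
  hasCompactSupport_sepField (fun j d => g_compact P deriv_step_compact j d)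

theorem flow_left {φ : ℝ → R3 → R3} (hφ : IsFlow (U₁ P) φ) (x : R3) {s : ℝ} (hs : s ≤ 0) :
    φ s x = x := by
  have h := Convex.norm_image_sub_le_of_norm_hasDerivWithin_le (f := fun s => φ s x)
    (f' := fun t => U₁ P (t, φ t x)) (C := 0) (s := Set.Iic 0)
    (fun t _ => (hφ.2 t x).hasDerivWithinAt)
    (fun t ht => by rw [U₁_apply, deriv_step_of_nonpos ht]; simp) (convex_Iic 0)
    (x := 0) (y := s) (by simp) hs
  rw [zero_mul] at h
  have h2 := norm_le_zero_iff.1 h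
  rw [hφ.1 x] at h2
  exact sub_eq_zero.1 h2

theorem flow_right {φ : ℝ → R3 → R3} (hφ : IsFlow (U₁ P) φ) (x : R3) {s : ℝ} (hs : 1 ≤ s) :
    φ s x = φ 1 x := by
  have h := Convex.norm_image_sub_le_of_norm_hasDerivWithin_le (f := fun s => φ s x)
    (f' := fun t => U₁ P (t, φ t x)) (C := 0) (s := Set.Ici 1)
    (fun t _ => (hφ.2 t x).hasDerivWithinAt)
    (fun t ht => by rw [U₁_apply, deriv_step_of_one_le ht]; simp) (convex_Ici 1)
    (x := 1) (y := s) (by simp) hs
  rw [zero_mul] at h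
  exact sub_eq_zero.1 (norm_le_zero_iff.1 h)

theorem realizable_flow {φ : ℝ → R3 → R3} (hφ : IsFlow (U₁ P) φ) : Realizable (φ 1) := by
  intro T0 T1 h0 h01 h1
  have h0' : (0 : ℝ) < T0 := by exact_mod_cast h0
  have h01' : (T0 : ℝ) < T1 := by exact_mod_cast h01
  have h1' : (T1 : ℝ) < 1 := by exact_mod_cast h1
  have hpos : (0 : ℝ) < (T1 : ℝ) - T0 := by linarith
  set a : ℚ := 1 / (T1 - T0) with ha
  set b : ℚ := -T0 / (T1 - T0) with hb
  have hab : ∀ t : ℝ, (a : ℝ) * t + (b : ℝ) = (t - T0) / ((T1 : ℝ) - T0) := by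
    intro t
    rw [ha, hb]
    push_cast
    field_simp
    ring
  set χ : ℝ → ℝ := fun t : ℝ => step ((a : ℝ) * t + (b : ℝ)) with hχdef
  have hχ : Nice1 χ := nice1_step_affine a b
  have haff : ∀ t : ℝ, HasDerivAt (fun t : ℝ => (a : ℝ) * t + (b : ℝ)) (a : ℝ) t := by
    intro t
    simpa using ((hasDerivAt_id t).const_mul (a : ℝ)).add_const (b : ℝ)
  have hdχ : ∀ t, deriv χ t = (a : ℝ) * deriv step ((a : ℝ) * t + (b : ℝ)) := by
    intro t
    have := (hasDerivAt_step ((a : ℝ) * t + (b : ℝ))).comp t (haff t)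
    rw [mul_comm]
    exact this.deriv
  have hzero : ∀ t : ℝ, t ∉ Set.Icc (T0 : ℝ) (T1 : ℝ) → deriv χ t = 0 := by
    intro t ht
    rw [hdχ, hab]
    by_cases h : t ≤ T0
    · rw [deriv_step_of_nonpos, mul_zero]
      apply div_nonpos_of_nonpos_of_nonneg _ hpos.le
      linarith
    · rw [deriv_step_of_one_le, mul_zero]
      rw [le_div_iff₀ hpos]
      by_contra h2
      exact ht ⟨(not_le.1 h).le, by linarith [not_le.1 h2]⟩
  have hcomp : HasCompactSupport (deriv χ) :=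
    HasCompactSupport.intro isCompact_Icc hzero
  refine ⟨sepField (g P (deriv χ)), fun t x => φ ((a : ℝ) * t + (b : ℝ)) x, ⟨?_, ?_, ?_, ?_, ?_, ?_, ?_⟩, ?_⟩
  · exact contDiff_sepField (fun j d => (g_nice P hχ.deriv j d).smooth)
  · exact hasCompactSupport_sepField (fun j d => g_compact P hcomp j d)
  · exact effective_sepField (fun j d => g_nice P hχ.deriv j d)
  · intro p hp
    rw [sepField_g, hzero _ hp, zero_smul]
  · exact div_g P hχ.deriv
  · intro x
    apply flow_left P hφ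
    rw [hab]
    apply div_nonpos_of_nonpos_of_nonneg _ hpos.le
    linarith
  · intro t x
    have h2 := (hφ.2 ((a : ℝ) * t + (b : ℝ)) x).scomp t (haff t)
    rw [sepField_g, hdχ]
    rw [U₁_apply, smul_smul] at h2
    exact h2
  · funext x
    apply flow_right P hφ
    rw [hab, le_div_iff₀ hpos]
    linarith

theorem flow_of_out {φ : ℝ → R3 → R3} (hφ : IsFlow (U₁ P) φ) {y : R3}
    (h : ∃ d, y d ≤ (P.lo d : ℝ) - P.η ∨ (P.hi d : ℝ) + P.η ≤ y d) : φ 1 y = y := by
  have := flow_eq_of_curve (U₁_smooth P) (U₁_compact P) hφ (fun _ => y)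
    (fun t => by
      rw [U₁_apply, V_of_out P h, smul_zero]
      exact hasDerivAt_const t y) 1
  exact this

theorem flow_of_mem {φ : ℝ → R3 → R3} (hφ : IsFlow (U₁ P) φ) {y : R3}
    (h1 : y ∈ cbox P.lo P.hi) (h2 : shear P.j P.m P.α P.β y ∈ cbox P.lo P.hi) :
    φ 1 y = shear P.j P.m P.α P.β y := by
  set v : R3 := ((P.α : ℝ) + (P.β : ℝ) * y P.m) • (Pi.single P.j (1 : ℝ) : R3) with hv
  have hvm : v P.m = 0 := by
    simp [hv, P.hjm.symm]
  have hmem : ∀ t : ℝ, y + step t • v ∈ cbox P.lo P.hi := by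
    intro t d
    have a1 := h1 d
    have a2 := h2 d
    have e2 : shear P.j P.m P.α P.β y d = y d + v d := rfl
    rw [e2] at a2
    have s0 := step_nonneg t
    have s1 := step_le_one t
    simp only [Pi.add_apply, Pi.smul_apply, smul_eq_mul]
    constructor
    · nlinarith [a1.1, a2.1]
    · nlinarith [a1.2, a2.2]
  have hcurve : ∀ t : ℝ, HasDerivAt (fun t => y + step t • v) (U₁ P (t, y + step t • v)) t := by
    intro t
    rw [U₁_apply, V_of_mem P (hmem t)]
    have e : (y + step t • v) P.m = y P.m := by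
      simp [hvm]
    simp only [e]
    exact ((hasDerivAt_step t).smul_const v).const_add y
  have := flow_eq_of_curve (U₁_smooth P) (U₁_compact P) hφ (fun t => y + step t • v) hcurve 1
  simp only [step_of_nonpos le_rfl, step_of_one_le le_rfl, zero_smul, add_zero, one_smul] at this
  exact this

end Stage

theorem exists_stage (j m : Fin 3) (hjm : j ≠ m) (α β : ℚ) (lo hi : Fin 3 → ℚ) (η : ℚ)
    (hη : 0 < η) :
    ∃ Ψ : R3 → R3, Realizable Ψ ∧
      (∀ y, y ∈ cbox lo hi → shear j m α β y ∈ cbox lo hi → Ψ y = shear j m α β y) ∧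
      (∀ y, (∃ d, y d ≤ (lo d : ℝ) - η ∨ (hi d : ℝ) + η ≤ y d) → Ψ y = y) := by
  let P : Stage.Par := ⟨j, m, hjm, α, β, lo, hi, η, hη⟩
  obtain ⟨φ, hφ⟩ := exists_flow (Stage.U₁_smooth P) (Stage.U₁_compact P)
  exact ⟨φ 1, Stage.realizable_flow P hφ, fun y h1 h2 => Stage.flow_of_mem P hφ h1 h2,
    fun y h => Stage.flow_of_out P hφ h⟩

end Crest.Agent.S0170
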