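import Crest.Agent.S0170_Defs
import Crest.Agent.S0170_RatPrim

/-!
# S0170, package P2: the step function: basic properties and rational approximation
-/

set_option autoImplicit false
open scoped ContDiff

namespace Crest.Agent.S0170

theorem flat2_nonneg (x : ℝ) : 0 ≤ flat2 x := expNegInvGlue.nonneg _

theorem flat2_of_nonpos {x : ℝ} (h : x ≤ 0) : flat2 x = 0 :=
  expNegInvGlue.zero_of_nonpos (div_nonpos_of_nonpos_of_nonneg h (Real.log_nonneg (by norm_num)))

theorem flat2_pos {x : ℝ} (h : 0 < x) : 0 < flat2 x :=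
  expNegInvGlue.pos_of_pos (div_pos h (Real.log_pos (by norm_num)))

theorem flat2_eq {x : ℝ} (h : 0 < x) : flat2 x = (2 : ℝ) ^ (-(1 / x)) := by
  have hl : 0 < Real.log 2 := Real.log_pos (by norm_num)
  have h1 : ¬ x / Real.log 2 ≤ 0 := not_le.mpr (div_pos h hl)
  rw [flat2, expNegInvGlue, if_neg h1, Real.rpow_def_of_pos (by norm_num : (0 : ℝ) < 2)]
  congr 1
  field_simp

theorem flat2_contDiff : ContDiff ℝ ∞ flat2 :=
  expNegInvGlue.contDiff.comp (contDiff_id.div_const _)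

theorem step_denom_pos (x : ℝ) : 0 < flat2 x + flat2 (1 - x) := by
  rcases lt_or_ge 0 x with h | h
  · exact add_pos_of_pos_of_nonneg (flat2_pos h) (flat2_nonneg _)
  · exact add_pos_of_nonneg_of_pos (flat2_nonneg _) (flat2_pos (by linarith))

theorem step_contDiff : ContDiff ℝ ∞ step :=
  flat2_contDiff.div (flat2_contDiff.add (flat2_contDiff.comp (contDiff_const.sub contDiff_id)))
    (fun x => (step_denom_pos x).ne')

theorem step_of_nonpos {x : ℝ} (h : x ≤ 0) : step x = 0 := by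
  rw [step, flat2_of_nonpos h, zero_div]

theorem step_of_one_le {x : ℝ} (h : 1 ≤ x) : step x = 1 := by
  rw [step, flat2_of_nonpos (by linarith : 1 - x ≤ 0), add_zero]
  exact div_self (flat2_pos (by linarith)).ne'

theorem step_nonneg (x : ℝ) : 0 ≤ step x :=
  div_nonneg (flat2_nonneg x) (step_denom_pos x).le

theorem step_le_one (x : ℝ) : step x ≤ 1 := by
  rw [step, div_le_one (step_denom_pos x)]
  linarith [flat2_nonneg (1 - x)]

theorem deriv_step_of_nonpos {x : ℝ} (h : x ≤ 0) : deriv step x = 0 := by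
  apply IsLocalMin.deriv_eq_zero
  apply Filter.Eventually.of_forall
  intro y
  rw [step_of_nonpos h]
  exact step_nonneg y

theorem deriv_step_of_one_le {x : ℝ} (h : 1 ≤ x) : deriv step x = 0 := by
  apply IsLocalMax.deriv_eq_zero
  apply Filter.Eventually.of_forall
  intro y
  rw [step_of_one_le h]
  exact step_le_one y

theorem step_eq {x : ℝ} (h0 : 0 < x) (h1 : x < 1) :
    step x = 1 / (1 + (2 : ℝ) ^ (1 / x - 1 / (1 - x))) := by
  have h2 : 0 < 1 - x := by linarith
  rw [step, flat2_eq h0, flat2_eq h2]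
  have hp : (0 : ℝ) < (2 : ℝ) ^ (-(1 / x)) := Real.rpow_pos_of_pos (by norm_num) _
  have e : (2 : ℝ) ^ (-(1 / (1 - x))) = (2 : ℝ) ^ (-(1 / x)) * (2 : ℝ) ^ (1 / x - 1 / (1 - x)) := by
    rw [← Real.rpow_add (by norm_num : (0 : ℝ) < 2)]
    congr 1
    ring
  rw [e]
  have hq : (0 : ℝ) < (2 : ℝ) ^ (1 / x - 1 / (1 - x)) := Real.rpow_pos_of_pos (by norm_num) _
  field_simp


/-! ### rational approximation of `step` -/

/-- integer test equivalent to `a / M ≤ step (p / q)` -/
abbrev stepTest (p q M a : ℕ) : Prop :=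
  2 ^ (q * (q - 2 * p)) * a ^ (p * (q - p)) ≤ 2 ^ (q * (2 * p - q)) * (M - a) ^ (p * (q - p))

theorem stepTest_iff (p q M a : ℕ) (hp : 0 < p) (hpq : p < q) (hM : 0 < M) (ha : a ≤ M) :
    stepTest p q M a ↔ (a : ℝ) / M ≤ step ((p : ℝ) / q) := by
  have hq : 0 < q := hp.trans hpq
  have hpR : (0 : ℝ) < p := by exact_mod_cast hp
  have hqR : (0 : ℝ) < q := by exact_mod_cast hq
  have hpqR : (p : ℝ) < q := by exact_mod_cast hpq
  have hMR : (0 : ℝ) < M := by exact_mod_cast hM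
  have hx0 : (0 : ℝ) < (p : ℝ) / q := by positivity
  have hx1 : (p : ℝ) / q < 1 := by rw [div_lt_one hqR]; exact hpqR
  set r : ℝ := 1 / ((p : ℝ) / q) - 1 / (1 - (p : ℝ) / q) with hr
  set v : ℕ := p * (q - p) with hv
  have hv0 : v ≠ 0 := by
    rw [hv]; exact Nat.mul_ne_zero hp.ne' (Nat.sub_pos_of_lt hpq).ne'
  have hvR : (v : ℝ) = p * ((q : ℝ) - p) := by
    rw [hv, Nat.cast_mul, Nat.cast_sub hpq.le]
  set A : ℕ := q * (q - 2 * p) with hA
  set B : ℕ := q * (2 * p - q) with hB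
  have hAB : (A : ℝ) - (B : ℝ) = q * ((q : ℝ) - 2 * p) := by
    rcases le_total (2 * p) q with h | h
    · have : 2 * p - q = 0 := Nat.sub_eq_zero_of_le h
      rw [hA, hB, this, Nat.cast_mul, Nat.cast_sub h]
      push_cast; ring
    · have : q - 2 * p = 0 := Nat.sub_eq_zero_of_le h
      rw [hA, hB, this, Nat.cast_mul, Nat.cast_mul, Nat.cast_sub h]
      push_cast; ring
  have hrv : r * v = (A : ℝ) - (B : ℝ) := by
    rw [hAB, hvR, hr]
    have : (q : ℝ) - p ≠ 0 := by linarith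
    field_simp
    ring
  have h2r : (0 : ℝ) < (2 : ℝ) ^ r := Real.rpow_pos_of_pos (by norm_num) _
  have hpow : ((2 : ℝ) ^ r) ^ v = (2 : ℝ) ^ A / (2 : ℝ) ^ B := by
    rw [← Real.rpow_natCast, ← Real.rpow_mul (by norm_num : (0 : ℝ) ≤ 2), hrv,
      Real.rpow_sub (by norm_num : (0 : ℝ) < 2), Real.rpow_natCast, Real.rpow_natCast]
  rw [step_eq hx0 hx1]
  have hMa : ((M - a : ℕ) : ℝ) = (M : ℝ) - a := Nat.cast_sub ha
  have e1 : (a : ℝ) / M ≤ 1 / (1 + (2 : ℝ) ^ r) ↔ (a : ℝ) * (2 : ℝ) ^ r ≤ ((M - a : ℕ) : ℝ) := by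
    rw [div_le_div_iff₀ hMR (by positivity), hMa]
    constructor <;> intro h <;> linarith
  rw [e1]
  have e2 : (a : ℝ) * (2 : ℝ) ^ r ≤ ((M - a : ℕ) : ℝ) ↔
      ((a : ℝ) * (2 : ℝ) ^ r) ^ v ≤ (((M - a : ℕ) : ℝ)) ^ v :=
    (pow_le_pow_iff_left₀ (by positivity) (by positivity) hv0).symm
  rw [e2, mul_pow, hpow]
  have hB0 : (0 : ℝ) < (2 : ℝ) ^ B := by positivity
  rw [mul_div_assoc', div_le_iff₀ hB0]
  unfold stepTest
  rw [← hv, ← hA, ← hB]
  constructor
  · intro h
    have : ((2 ^ A * a ^ v : ℕ) : ℝ) ≤ ((2 ^ B * (M - a) ^ v : ℕ) : ℝ) := by exact_mod_cast h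
    push_cast at this
    linarith
  · intro h
    have : ((2 ^ A * a ^ v : ℕ) : ℝ) ≤ ((2 ^ B * (M - a) ^ v : ℕ) : ℝ) := by
      push_cast
      linarith
    exact_mod_cast this

theorem step_lt_one {x : ℝ} (h0 : 0 < x) (h1 : x < 1) : step x < 1 := by
  rw [step_eq h0 h1, div_lt_one (by positivity)]
  have : (0 : ℝ) < (2 : ℝ) ^ (1 / x - 1 / (1 - x)) := Real.rpow_pos_of_pos (by norm_num) _
  linarith

theorem findGreatest_approx (p q M : ℕ) (hp : 0 < p) (hpq : p < q) (hM : 0 < M) :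
    |step ((p : ℝ) / q) - ((Nat.findGreatest (stepTest p q M) M : ℕ) : ℝ) / M| ≤ 1 / (M : ℝ) := by
  have hq : 0 < q := hp.trans hpq
  have hpR : (0 : ℝ) < p := by exact_mod_cast hp
  have hqR : (0 : ℝ) < q := by exact_mod_cast hq
  have hpqR : (p : ℝ) < q := by exact_mod_cast hpq
  have hMR : (0 : ℝ) < M := by exact_mod_cast hM
  have hx0 : (0 : ℝ) < (p : ℝ) / q := by positivity
  have hx1 : (p : ℝ) / q < 1 := by rw [div_lt_one hqR]; exact hpqR
  set a := Nat.findGreatest (stepTest p q M) M with ha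
  have haM : a ≤ M := Nat.findGreatest_le M
  have h0 : stepTest p q M 0 := by
    rw [stepTest_iff p q M 0 hp hpq hM (Nat.zero_le _)]
    simpa using step_nonneg _
  have hspec : stepTest p q M a := Nat.findGreatest_spec (Nat.zero_le M) h0
  have hlow : (a : ℝ) / M ≤ step ((p : ℝ) / q) := (stepTest_iff p q M a hp hpq hM haM).mp hspec
  have hne : a ≠ M := by
    intro h
    rw [h, div_self hMR.ne'] at hlow
    exact absurd (step_lt_one hx0 hx1) (not_lt.mpr hlow)
  have hlt : a + 1 ≤ M := Nat.lt_of_le_of_ne haM hne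
  have hnot : ¬ stepTest p q M (a + 1) := Nat.findGreatest_is_greatest (Nat.lt_succ_self a) hlt
  rw [stepTest_iff p q M (a + 1) hp hpq hM hlt, not_le] at hnot
  push_cast at hnot
  rw [abs_le]
  constructor
  · have : (0 : ℝ) ≤ 1 / (M : ℝ) := by positivity
    linarith
  · have : ((a : ℝ) + 1) / M = (a : ℝ) / M + 1 / M := by ring
    linarith

/-- the approximator -/
def stepApprox (z : ℚ × ℕ) : ℚ :=
  if z.1 ≤ 0 then 0 else if 1 ≤ z.1 then 1 else
    ((Nat.findGreatest (stepTest z.1.num.natAbs z.1.den (z.2 + 1)) (z.2 + 1) : ℕ) : ℚ) /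
      ((z.2 + 1 : ℕ) : ℚ)

theorem primrec_stepApprox : Primrec stepApprox := by
  have hp : Primrec (fun w : (ℚ × ℕ) × ℕ => w.1.1.num.natAbs) :=
    primrec_rat_num_natAbs.comp (Primrec.fst.comp Primrec.fst)
  have hq : Primrec (fun w : (ℚ × ℕ) × ℕ => w.1.1.den) :=
    primrec_rat_den.comp (Primrec.fst.comp Primrec.fst)
  have hM : Primrec (fun w : (ℚ × ℕ) × ℕ => w.1.2 + 1) :=
    Primrec.succ.comp (Primrec.snd.comp Primrec.fst)
  have ha : Primrec (fun w : (ℚ × ℕ) × ℕ => w.2) := Primrec.snd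
  have h2p : Primrec (fun w : (ℚ × ℕ) × ℕ => 2 * w.1.1.num.natAbs) :=
    Primrec.nat_mul.comp (Primrec.const 2) hp
  have hv : Primrec (fun w : (ℚ × ℕ) × ℕ => w.1.1.num.natAbs * (w.1.1.den - w.1.1.num.natAbs)) :=
    Primrec.nat_mul.comp hp (Primrec.nat_sub.comp hq hp)
  have hrel : PrimrecRel (fun (z : ℚ × ℕ) (a : ℕ) => stepTest z.1.num.natAbs z.1.den (z.2 + 1) a) := by
    apply Primrec.nat_le.comp
    · exact Primrec.nat_mul.comp
        (primrec_nat_pow.comp (Primrec.const 2) (Primrec.nat_mul.comp hq (Primrec.nat_sub.comp hq h2p)))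
        (primrec_nat_pow.comp ha hv)
    · exact Primrec.nat_mul.comp
        (primrec_nat_pow.comp (Primrec.const 2) (Primrec.nat_mul.comp hq (Primrec.nat_sub.comp h2p hq)))
        (primrec_nat_pow.comp (Primrec.nat_sub.comp hM ha) hv)
  have hfg : Primrec (fun z : ℚ × ℕ =>
      Nat.findGreatest (stepTest z.1.num.natAbs z.1.den (z.2 + 1)) (z.2 + 1)) :=
    Primrec.nat_findGreatest (Primrec.succ.comp Primrec.snd) hrel
  unfold stepApprox
  apply Primrec.ite (primrecRel_rat_le.comp Primrec.fst (Primrec.const 0)) (Primrec.const 0)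
  apply Primrec.ite (primrecRel_rat_le.comp (Primrec.const 1) Primrec.fst) (Primrec.const 1)
  exact primrec_rat_div.comp (primrec_rat_natCast.comp hfg)
    (primrec_rat_natCast.comp (Primrec.succ.comp Primrec.snd))

/-- Approximator (suggestion): for `0 < x = p/q < 1` and `M = n+1`, take the greatest `a ≤ M` with
`2^(q*(q-2p)) * a^v ≤ 2^(q*(2p-q)) * (M-a)^v`, `v = p*(q-p)` (truncated subtractions), and return
`a/M`; indeed `a/M ≤ step x ↔ a * 2^r ≤ M - a` with `r = q(q-2p)/v`. -/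
theorem approx1_step : Approx1 step := by
  refine ⟨stepApprox, primrec_stepApprox, ?_⟩
  intro x n
  have hn : (0 : ℝ) ≤ 1 / ((n : ℝ) + 1) := by positivity
  unfold stepApprox
  simp only
  split_ifs with h0 h1
  · have : (x : ℝ) ≤ 0 := by exact_mod_cast h0
    rw [step_of_nonpos this]
    simpa using hn
  · have : (1 : ℝ) ≤ (x : ℝ) := by exact_mod_cast h1
    rw [step_of_one_le this]
    simpa using hn
  · rw [not_le] at h0 h1
    have hnum : 0 < x.num := Rat.num_pos.mpr h0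
    have hp : 0 < x.num.natAbs := Int.natAbs_pos.mpr hnum.ne'
    have hnumeq : ((x.num.natAbs : ℕ) : ℤ) = x.num := Int.natAbs_of_nonneg hnum.le
    have hxq : x = (x.num.natAbs : ℚ) / (x.den : ℚ) := by
      have h := (Rat.num_div_den x).symm
      rw [← hnumeq] at h
      simpa using h
    have hden : (0 : ℚ) < x.den := by exact_mod_cast x.den_pos
    have hpq : x.num.natAbs < x.den := by
      have : (x.num.natAbs : ℚ) / (x.den : ℚ) < 1 := by rw [← hxq]; exact h1
      rw [div_lt_one hden] at this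
      exact_mod_cast this
    have hxR : (x : ℝ) = (x.num.natAbs : ℝ) / (x.den : ℝ) := by
      conv_lhs => rw [hxq]
      push_cast
      rfl
    have key := findGreatest_approx x.num.natAbs x.den (n + 1) hp hpq (Nat.succ_pos n)
    rw [← hxR] at key
    push_cast at key ⊢
    exact key

end Crest.Agent.S0170
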