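import Crest.Agent.S0170_Step

/-!
# S0170, package P3: primitive recursive bounds for all derivatives of `step`

On `(0,1)`, with `S = step x`, `u = 1/x`, `v = 1/(1-x)`, `c = log 2`:
`S' = c S (1-S) (u²+v²)`, `u' = -u²`, `v' = v²`.  With `Tt i j a b = S^(i+1) (1-S)^(j+1) u^a v^b` the
derivative of a `Tt` is a combination of six `Tt`'s, which gives by induction on `k` the closed bound
`|D^k Tt i j a b| ≤ (2(p+k+2)+q+2k)^k * 4 * 2^(q+2k) * (q+2k)!`, `p = i+j`, `q = a+b`.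
-/

set_option autoImplicit false
open scoped ContDiff Nat

namespace Crest.Agent.S0170

namespace StepBound

/-- the monomials -/
noncomputable def Tt (i j a b : ℕ) (x : ℝ) : ℝ :=
  step x ^ (i + 1) * (1 - step x) ^ (j + 1) * x⁻¹ ^ a * (1 - x)⁻¹ ^ b

/-- the derivative of a monomial -/
noncomputable def dTt (i j a b : ℕ) (x : ℝ) : ℝ :=
  (Real.log 2 * ((i : ℝ) + 1)) * (Tt i (j + 1) (a + 2) b x + Tt i (j + 1) a (b + 2) x)
    - (Real.log 2 * ((j : ℝ) + 1)) * (Tt (i + 1) j (a + 2) b x + Tt (i + 1) j a (b + 2) x)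
    - (a : ℝ) * Tt i j (a + 1) b x + (b : ℝ) * Tt i j a (b + 1) x

theorem hasDerivAt_step {x : ℝ} (h0 : 0 < x) (h1 : x < 1) :
    HasDerivAt step (Real.log 2 * (step x * (1 - step x) * (x⁻¹ ^ 2 + (1 - x)⁻¹ ^ 2))) x := by
  have h1' : (0 : ℝ) < 1 - x := by linarith
  have hev : step =ᶠ[nhds x] fun y => (1 + (2 : ℝ) ^ (y⁻¹ - (1 - y)⁻¹))⁻¹ := by
    filter_upwards [Ioo_mem_nhds h0 h1] with y hy
    rw [step_eq hy.1 hy.2]
    simp [one_div]
  have hg : HasDerivAt (fun y : ℝ => y⁻¹ - (1 - y)⁻¹) (-(x ^ 2)⁻¹ - (-(-1) / (1 - x) ^ 2)) x :=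
    (hasDerivAt_inv h0.ne').sub (((hasDerivAt_id x).const_sub 1).inv h1'.ne')
  have hE := hg.const_rpow (a := 2) (by norm_num)
  set E : ℝ := (2 : ℝ) ^ (x⁻¹ - (1 - x)⁻¹) with hEdef
  have hEpos : 0 < E := Real.rpow_pos_of_pos (by norm_num) _
  have hS := (hE.const_add 1).inv (by positivity : (1 + E) ≠ 0)
  rw [← hEdef] at hS
  have hval : step x = (1 + E)⁻¹ := hev.eq_of_nhds
  refine (hS.congr_of_eventuallyEq hev).congr_deriv ?_
  rw [hval]
  field_simp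
  ring

theorem hasDerivAt_inv_pow (a : ℕ) {x : ℝ} (hx : x ≠ 0) :
    HasDerivAt (fun y : ℝ => y⁻¹ ^ a) (-(a : ℝ) * x⁻¹ ^ (a + 1)) x := by
  cases a with
  | zero => simpa using hasDerivAt_const x (1 : ℝ)
  | succ n =>
    have := (hasDerivAt_inv hx).pow (n + 1)
    refine this.congr_deriv ?_
    simp only [Nat.add_sub_cancel, ← inv_pow]
    ring

theorem hasDerivAt_one_sub_inv_pow (b : ℕ) {x : ℝ} (hx : 1 - x ≠ 0) :
    HasDerivAt (fun y : ℝ => (1 - y)⁻¹ ^ b) ((b : ℝ) * (1 - x)⁻¹ ^ (b + 1)) x := by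
  have h := (hasDerivAt_inv_pow b hx).comp x ((hasDerivAt_id x).const_sub 1)
  refine h.congr_deriv ?_
  ring

theorem hasDerivAt_Tt (i j a b : ℕ) {x : ℝ} (h0 : 0 < x) (h1 : x < 1) :
    HasDerivAt (Tt i j a b) (dTt i j a b x) x := by
  have h1' : (0 : ℝ) < 1 - x := by linarith
  have hS := hasDerivAt_step h0 h1
  have hA := hS.pow (i + 1)
  have hB := (hS.const_sub 1).pow (j + 1)
  have hC := hasDerivAt_inv_pow a h0.ne'
  have hD := hasDerivAt_one_sub_inv_pow b h1'.ne'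
  have := ((hA.mul hB).mul hC).mul hD
  refine this.congr_deriv ?_
  simp only [dTt, Tt, Nat.add_sub_cancel, Nat.cast_add, Nat.cast_one, Pi.pow_apply, Pi.mul_apply]
  ring

theorem contDiffAt_Tt (n : ℕ) (i j a b : ℕ) {x : ℝ} (h0 : 0 < x) (h1 : x < 1) :
    ContDiffAt ℝ n (Tt i j a b) x := by
  have h1' : (1 : ℝ) - x ≠ 0 := by linarith
  have hs : ContDiffAt ℝ n step x := (step_contDiff.of_le (by exact_mod_cast le_top)).contDiffAt
  have hu : ContDiffAt ℝ n (fun y : ℝ => y⁻¹) x := contDiffAt_inv ℝ h0.ne'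
  have hv : ContDiffAt ℝ n (fun y : ℝ => (1 - y)⁻¹) x :=
    (contDiffAt_const.sub contDiffAt_id).inv h1'
  exact (((hs.pow _).mul ((contDiffAt_const.sub hs).pow _)).mul (hu.pow _)).mul (hv.pow _)

/-! ### the basic bound -/

theorem pow_mul_two_rpow_neg_le (a : ℕ) {w : ℝ} (hw : 0 ≤ w) :
    w ^ a * (2 : ℝ) ^ (-w) ≤ 2 ^ a * (a ! : ℝ) := by
  have hc : (1 / 2 : ℝ) ≤ Real.log 2 := by
    have := Real.log_two_gt_d9; linarith
  have h2 : (2 : ℝ) ^ (-w) = (Real.exp (Real.log 2 * w))⁻¹ := by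
    rw [Real.rpow_def_of_pos (by norm_num), ← Real.exp_neg]
    congr 1; ring
  have hexp := Real.pow_div_factorial_le_exp (Real.log 2 * w) (by positivity) a
  have hfac : (0 : ℝ) < (a ! : ℝ) := by exact_mod_cast Nat.factorial_pos a
  rw [h2, ← div_eq_mul_inv, div_le_iff₀ (Real.exp_pos _)]
  have h3 : w ^ a ≤ 2 ^ a * (Real.log 2 * w) ^ a := by
    rw [← mul_pow]
    apply pow_le_pow_left₀ hw
    nlinarith
  have h4 : (Real.log 2 * w) ^ a ≤ (a ! : ℝ) * Real.exp (Real.log 2 * w) := by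
    rw [div_le_iff₀ hfac] at hexp
    linarith
  calc w ^ a ≤ 2 ^ a * (Real.log 2 * w) ^ a := h3
    _ ≤ 2 ^ a * ((a ! : ℝ) * Real.exp (Real.log 2 * w)) := by gcongr
    _ = 2 ^ a * (a ! : ℝ) * Real.exp (Real.log 2 * w) := by ring

theorem abs_Tt_le (i j a b : ℕ) {x : ℝ} (h0 : 0 < x) (h1 : x < 1) :
    |Tt i j a b x| ≤ 4 * 2 ^ (a + b) * ((a + b)! : ℝ) := by
  have h1' : (0 : ℝ) < 1 - x := by linarith
  have hS0 := step_nonneg x
  have hS1 := step_le_one x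
  have hR0 : 0 ≤ 1 - step x := by linarith
  have hR1 : 1 - step x ≤ 1 := by linarith
  have hu : 0 < x⁻¹ := inv_pos.mpr h0
  have hv : 0 < (1 - x)⁻¹ := inv_pos.mpr h1'
  set E : ℝ := (2 : ℝ) ^ (x⁻¹ - (1 - x)⁻¹) with hEdef
  have hEpos : 0 < E := Real.rpow_pos_of_pos (by norm_num) _
  have hval : step x = (1 + E)⁻¹ := by
    rw [step_eq h0 h1]; simp [one_div, hEdef]
  have hnn : 0 ≤ Tt i j a b x := by unfold Tt; positivity
  rw [abs_of_nonneg hnn]
  have hSi : step x ^ (i + 1) ≤ step x := by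
    calc step x ^ (i + 1) = step x ^ i * step x := pow_succ _ _
      _ ≤ 1 * step x := by gcongr; exact pow_le_one₀ hS0 hS1
      _ = step x := one_mul _
  have hRj : (1 - step x) ^ (j + 1) ≤ 1 - step x := by
    calc (1 - step x) ^ (j + 1) = (1 - step x) ^ j * (1 - step x) := pow_succ _ _
      _ ≤ 1 * (1 - step x) := by gcongr; exact pow_le_one₀ hR0 hR1
      _ = 1 - step x := one_mul _
  have hfa : ((a ! : ℕ) : ℝ) ≤ ((a + b)! : ℝ) := by
    exact_mod_cast Nat.factorial_le (Nat.le_add_right a b)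
  have hfb : ((b ! : ℕ) : ℝ) ≤ ((a + b)! : ℝ) := by
    exact_mod_cast Nat.factorial_le (Nat.le_add_left b a)
  have hfpos : (0 : ℝ) < ((a + b)! : ℝ) := by exact_mod_cast Nat.factorial_pos _
  rcases le_total x (1 / 2) with hx | hx
  · -- `v ≤ 2`, `S ≤ 4 * 2^(-u)`
    have hv2 : (1 - x)⁻¹ ≤ 2 := by
      rw [inv_le_comm₀ h1' (by norm_num)]; linarith
    have hSle : step x ≤ 4 * (2 : ℝ) ^ (-x⁻¹) := by
      have : (1 + E)⁻¹ ≤ E⁻¹ := by
        apply inv_anti₀ hEpos; linarith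
      rw [hval]
      refine this.trans ?_
      rw [hEdef, ← Real.rpow_neg (by norm_num)]
      have : -(x⁻¹ - (1 - x)⁻¹) = (1 - x)⁻¹ + (-x⁻¹) := by ring
      rw [this, Real.rpow_add (by norm_num)]
      have h4 : (2 : ℝ) ^ ((1 - x)⁻¹) ≤ 4 := by
        calc (2 : ℝ) ^ ((1 - x)⁻¹) ≤ (2 : ℝ) ^ (2 : ℝ) :=
              Real.rpow_le_rpow_of_exponent_le (by norm_num) hv2
          _ = 4 := by norm_num
      have hp : 0 ≤ (2 : ℝ) ^ (-x⁻¹) := (Real.rpow_pos_of_pos (by norm_num) _).le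
      gcongr
    have hkey := pow_mul_two_rpow_neg_le a hu.le
    have hp : 0 ≤ (2 : ℝ) ^ (-x⁻¹) := (Real.rpow_pos_of_pos (by norm_num) _).le
    calc Tt i j a b x
        = step x ^ (i + 1) * (1 - step x) ^ (j + 1) * x⁻¹ ^ a * (1 - x)⁻¹ ^ b := rfl
      _ ≤ (4 * (2 : ℝ) ^ (-x⁻¹)) * 1 * x⁻¹ ^ a * 2 ^ b := by
          gcongr
          · exact hSi.trans hSle
          · exact hRj.trans hR1
      _ = 4 * (x⁻¹ ^ a * (2 : ℝ) ^ (-x⁻¹)) * 2 ^ b := by ring
      _ ≤ 4 * (2 ^ a * (a ! : ℝ)) * 2 ^ b := by gcongr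
      _ = 4 * 2 ^ (a + b) * (a ! : ℝ) := by rw [pow_add]; ring
      _ ≤ 4 * 2 ^ (a + b) * ((a + b)! : ℝ) := by gcongr
  · -- `u ≤ 2`, `1 - S ≤ 4 * 2^(-v)`
    have hu2 : x⁻¹ ≤ 2 := by
      rw [inv_le_comm₀ h0 (by norm_num)]; linarith
    have hRle : 1 - step x ≤ 4 * (2 : ℝ) ^ (-(1 - x)⁻¹) := by
      have : 1 - (1 + E)⁻¹ ≤ E := by
        have h1E : (0 : ℝ) < 1 + E := by linarith
        have : 1 - (1 + E)⁻¹ = E / (1 + E) := by field_simp; ring
        rw [this, div_le_iff₀ h1E]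
        nlinarith
      rw [hval]
      refine this.trans ?_
      rw [hEdef]
      have : x⁻¹ - (1 - x)⁻¹ = x⁻¹ + (-(1 - x)⁻¹) := by ring
      rw [this, Real.rpow_add (by norm_num)]
      have h4 : (2 : ℝ) ^ (x⁻¹) ≤ 4 := by
        calc (2 : ℝ) ^ (x⁻¹) ≤ (2 : ℝ) ^ (2 : ℝ) :=
              Real.rpow_le_rpow_of_exponent_le (by norm_num) hu2
          _ = 4 := by norm_num
      have hp : 0 ≤ (2 : ℝ) ^ (-(1 - x)⁻¹) := (Real.rpow_pos_of_pos (by norm_num) _).le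
      gcongr
    have hkey := pow_mul_two_rpow_neg_le b hv.le
    have hp : 0 ≤ (2 : ℝ) ^ (-(1 - x)⁻¹) := (Real.rpow_pos_of_pos (by norm_num) _).le
    calc Tt i j a b x
        = step x ^ (i + 1) * (1 - step x) ^ (j + 1) * x⁻¹ ^ a * (1 - x)⁻¹ ^ b := rfl
      _ ≤ 1 * (4 * (2 : ℝ) ^ (-(1 - x)⁻¹)) * 2 ^ a * (1 - x)⁻¹ ^ b := by
          gcongr
          · exact hSi.trans hS1
          · exact hRj.trans hRle
      _ = 4 * ((1 - x)⁻¹ ^ b * (2 : ℝ) ^ (-(1 - x)⁻¹)) * 2 ^ a := by ring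
      _ ≤ 4 * (2 ^ b * (b ! : ℝ)) * 2 ^ a := by gcongr
      _ = 4 * 2 ^ (a + b) * (b ! : ℝ) := by rw [pow_add]; ring
      _ ≤ 4 * 2 ^ (a + b) * ((a + b)! : ℝ) := by gcongr

/-! ### the induction -/

/-- the closed bound -/
def Bc (k p q : ℕ) : ℕ := (2 * (p + k + 2) + q + 2 * k) ^ k * (4 * 2 ^ (q + 2 * k) * (q + 2 * k)!)

theorem Bc_step (k p q : ℕ) :
    (2 * (p + 2)) * Bc k (p + 1) (q + 2) + q * Bc k p (q + 1) ≤ Bc (k + 1) p q := by
  set A : ℕ := 2 * (p + (k + 1) + 2) + q + 2 * (k + 1) with hA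
  set F : ℕ := 4 * 2 ^ (q + 2 * (k + 1)) * (q + 2 * (k + 1))! with hF
  have e1 : Bc k (p + 1) (q + 2) = A ^ k * F := by
    unfold Bc
    have h1 : 2 * (p + 1 + k + 2) + (q + 2) + 2 * k = A := by rw [hA]; ring
    have h2 : q + 2 + 2 * k = q + 2 * (k + 1) := by ring
    rw [h1, h2]
  have e2 : Bc k p (q + 1) ≤ A ^ k * F := by
    unfold Bc
    apply Nat.mul_le_mul
    · apply Nat.pow_le_pow_left; rw [hA]; omega
    · rw [hF]
      apply Nat.mul_le_mul
      · apply Nat.mul_le_mul_left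
        apply Nat.pow_le_pow_right (by norm_num); omega
      · apply Nat.factorial_le; omega
  have e3 : Bc (k + 1) p q = A ^ (k + 1) * F := rfl
  rw [e1, e3]
  calc 2 * (p + 2) * (A ^ k * F) + q * Bc k p (q + 1)
      ≤ 2 * (p + 2) * (A ^ k * F) + q * (A ^ k * F) := by gcongr
    _ = (2 * (p + 2) + q) * (A ^ k * F) := by ring
    _ ≤ A * (A ^ k * F) := by
        apply Nat.mul_le_mul_right; rw [hA]; omega
    _ = A ^ (k + 1) * F := by ring

theorem iteratedDeriv_comb6 (k : ℕ) (c1 c2 c3 c4 : ℝ) {f1 f2 f3 f4 f5 f6 : ℝ → ℝ} {x : ℝ}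
    (h1 : ContDiffAt ℝ k f1 x) (h2 : ContDiffAt ℝ k f2 x) (h3 : ContDiffAt ℝ k f3 x)
    (h4 : ContDiffAt ℝ k f4 x) (h5 : ContDiffAt ℝ k f5 x) (h6 : ContDiffAt ℝ k f6 x) :
    iteratedDeriv k (fun y => c1 * (f1 y + f2 y) - c2 * (f3 y + f4 y) - c3 * f5 y + c4 * f6 y) x =
      c1 * (iteratedDeriv k f1 x + iteratedDeriv k f2 x)
        - c2 * (iteratedDeriv k f3 x + iteratedDeriv k f4 x)
        - c3 * iteratedDeriv k f5 x + c4 * iteratedDeriv k f6 x := by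
  have g1 : ContDiffAt ℝ k (fun y => c1 * (f1 y + f2 y)) x := contDiffAt_const.mul (h1.add h2)
  have g2 : ContDiffAt ℝ k (fun y => c2 * (f3 y + f4 y)) x := contDiffAt_const.mul (h3.add h4)
  have g3 : ContDiffAt ℝ k (fun y => c3 * f5 y) x := contDiffAt_const.mul h5
  have g4 : ContDiffAt ℝ k (fun y => c4 * f6 y) x := contDiffAt_const.mul h6
  rw [iteratedDeriv_fun_add ((g1.sub g2).sub g3) g4, iteratedDeriv_fun_sub (g1.sub g2) g3,
    iteratedDeriv_fun_sub g1 g2, iteratedDeriv_const_mul_field, iteratedDeriv_const_mul_field,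
    iteratedDeriv_const_mul_field, iteratedDeriv_const_mul_field, iteratedDeriv_fun_add h1 h2,
    iteratedDeriv_fun_add h3 h4]

theorem log_two_mem : 0 ≤ Real.log 2 ∧ Real.log 2 ≤ 1 := by
  constructor
  · exact Real.log_nonneg (by norm_num)
  · have := Real.log_two_lt_d9; linarith

theorem abs_iteratedDeriv_Tt_le (k : ℕ) : ∀ (i j a b : ℕ) (x : ℝ), 0 < x → x < 1 →
    |iteratedDeriv k (Tt i j a b) x| ≤ (Bc k (i + j) (a + b) : ℝ) := by
  induction k with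
  | zero =>
    intro i j a b x h0 h1
    have := abs_Tt_le i j a b h0 h1
    simpa [Bc] using this
  | succ k ih =>
    intro i j a b x h0 h1
    have hev : deriv (Tt i j a b) =ᶠ[nhds x] dTt i j a b := by
      filter_upwards [Ioo_mem_nhds h0 h1] with y hy
      exact (hasDerivAt_Tt i j a b hy.1 hy.2).deriv
    rw [iteratedDeriv_succ', hev.iteratedDeriv_eq k]
    have hcomb := iteratedDeriv_comb6 k (Real.log 2 * ((i : ℝ) + 1)) (Real.log 2 * ((j : ℝ) + 1))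
      (a : ℝ) (b : ℝ)
      (contDiffAt_Tt k i (j + 1) (a + 2) b h0 h1) (contDiffAt_Tt k i (j + 1) a (b + 2) h0 h1)
      (contDiffAt_Tt k (i + 1) j (a + 2) b h0 h1) (contDiffAt_Tt k (i + 1) j a (b + 2) h0 h1)
      (contDiffAt_Tt k i j (a + 1) b h0 h1) (contDiffAt_Tt k i j a (b + 1) h0 h1)
    have hfun : dTt i j a b = fun y =>
        (Real.log 2 * ((i : ℝ) + 1)) * (Tt i (j + 1) (a + 2) b y + Tt i (j + 1) a (b + 2) y)
        - (Real.log 2 * ((j : ℝ) + 1)) * (Tt (i + 1) j (a + 2) b y + Tt (i + 1) j a (b + 2) y)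
        - (a : ℝ) * Tt i j (a + 1) b y + (b : ℝ) * Tt i j a (b + 1) y := rfl
    rw [hfun, hcomb]
    have b1 := ih i (j + 1) (a + 2) b x h0 h1
    have b2 := ih i (j + 1) a (b + 2) x h0 h1
    have b3 := ih (i + 1) j (a + 2) b x h0 h1
    have b4 := ih (i + 1) j a (b + 2) x h0 h1
    have b5 := ih i j (a + 1) b x h0 h1
    have b6 := ih i j a (b + 1) x h0 h1
    rw [show i + (j + 1) = i + j + 1 by omega, show a + 2 + b = a + b + 2 by omega] at b1
    rw [show i + (j + 1) = i + j + 1 by omega, show a + (b + 2) = a + b + 2 by omega] at b2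
    rw [show i + 1 + j = i + j + 1 by omega, show a + 2 + b = a + b + 2 by omega] at b3
    rw [show i + 1 + j = i + j + 1 by omega, show a + (b + 2) = a + b + 2 by omega] at b4
    rw [show a + 1 + b = a + b + 1 by omega] at b5
    rw [show a + (b + 1) = a + b + 1 by omega] at b6
    set X : ℝ := (Bc k (i + j + 1) (a + b + 2) : ℝ) with hX
    set Y : ℝ := (Bc k (i + j) (a + b + 1) : ℝ) with hY
    have hX0 : 0 ≤ X := Nat.cast_nonneg _
    have hY0 : 0 ≤ Y := Nat.cast_nonneg _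
    obtain ⟨hl0, hl1⟩ := log_two_mem
    have hstep : ((2 * (i + j + 2)) * Bc k (i + j + 1) (a + b + 2) + (a + b) * Bc k (i + j) (a + b + 1) : ℕ)
        ≤ Bc (k + 1) (i + j) (a + b) := Bc_step k (i + j) (a + b)
    have hstep' : (2 * ((i : ℝ) + j + 2)) * X + ((a : ℝ) + b) * Y ≤ (Bc (k + 1) (i + j) (a + b) : ℝ) := by
      have := (Nat.cast_le (α := ℝ)).mpr hstep
      push_cast at this
      simpa [hX, hY] using this
    refine le_trans ?_ hstep'
    set A1 := iteratedDeriv k (Tt i (j + 1) (a + 2) b) x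
    set A2 := iteratedDeriv k (Tt i (j + 1) a (b + 2)) x
    set A3 := iteratedDeriv k (Tt (i + 1) j (a + 2) b) x
    set A4 := iteratedDeriv k (Tt (i + 1) j a (b + 2)) x
    set A5 := iteratedDeriv k (Tt i j (a + 1) b) x
    set A6 := iteratedDeriv k (Tt i j a (b + 1)) x
    have hi : (0 : ℝ) ≤ (i : ℝ) + 1 := by positivity
    have hj : (0 : ℝ) ≤ (j : ℝ) + 1 := by positivity
    have ha : (0 : ℝ) ≤ (a : ℝ) := Nat.cast_nonneg _
    have hb : (0 : ℝ) ≤ (b : ℝ) := Nat.cast_nonneg _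
    have t1 : |Real.log 2 * ((i : ℝ) + 1) * (A1 + A2)| ≤ ((i : ℝ) + 1) * (X + X) := by
      rw [abs_mul, abs_mul, abs_of_nonneg hl0, abs_of_nonneg hi]
      calc Real.log 2 * ((i : ℝ) + 1) * |A1 + A2| ≤ 1 * ((i : ℝ) + 1) * (|A1| + |A2|) := by
            gcongr; exact abs_add_le _ _
        _ ≤ 1 * ((i : ℝ) + 1) * (X + X) := by gcongr
        _ = ((i : ℝ) + 1) * (X + X) := by ring
    have t2 : |Real.log 2 * ((j : ℝ) + 1) * (A3 + A4)| ≤ ((j : ℝ) + 1) * (X + X) := by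
      rw [abs_mul, abs_mul, abs_of_nonneg hl0, abs_of_nonneg hj]
      calc Real.log 2 * ((j : ℝ) + 1) * |A3 + A4| ≤ 1 * ((j : ℝ) + 1) * (|A3| + |A4|) := by
            gcongr; exact abs_add_le _ _
        _ ≤ 1 * ((j : ℝ) + 1) * (X + X) := by gcongr
        _ = ((j : ℝ) + 1) * (X + X) := by ring
    have t3 : |(a : ℝ) * A5| ≤ (a : ℝ) * Y := by
      rw [abs_mul, abs_of_nonneg ha]; gcongr
    have t4 : |(b : ℝ) * A6| ≤ (b : ℝ) * Y := by
      rw [abs_mul, abs_of_nonneg hb]; gcongr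
    calc |Real.log 2 * ((i : ℝ) + 1) * (A1 + A2) - Real.log 2 * ((j : ℝ) + 1) * (A3 + A4)
          - (a : ℝ) * A5 + (b : ℝ) * A6|
        ≤ |Real.log 2 * ((i : ℝ) + 1) * (A1 + A2)| + |Real.log 2 * ((j : ℝ) + 1) * (A3 + A4)|
          + |(a : ℝ) * A5| + |(b : ℝ) * A6| := by
          refine (abs_add_le _ _).trans ?_
          gcongr
          refine (abs_sub _ _).trans ?_
          gcongr
          exact abs_sub _ _
      _ ≤ ((i : ℝ) + 1) * (X + X) + ((j : ℝ) + 1) * (X + X) + (a : ℝ) * Y + (b : ℝ) * Y := by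
          gcongr
      _ = (2 * ((i : ℝ) + j + 2)) * X + ((a : ℝ) + b) * Y := by ring

theorem abs_iteratedDeriv_step_succ_le (k : ℕ) {x : ℝ} (h0 : 0 < x) (h1 : x < 1) :
    |iteratedDeriv (k + 1) step x| ≤ (2 * Bc k 0 2 : ℕ) := by
  have hev : deriv step =ᶠ[nhds x] fun y => Real.log 2 * (Tt 0 0 2 0 y + Tt 0 0 0 2 y) := by
    filter_upwards [Ioo_mem_nhds h0 h1] with y hy
    rw [(hasDerivAt_step hy.1 hy.2).deriv]
    simp only [Tt]
    ring
  rw [iteratedDeriv_succ', hev.iteratedDeriv_eq k, iteratedDeriv_const_mul_field,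
    iteratedDeriv_fun_add (contDiffAt_Tt k 0 0 2 0 h0 h1) (contDiffAt_Tt k 0 0 0 2 h0 h1)]
  have b1 := abs_iteratedDeriv_Tt_le k 0 0 2 0 x h0 h1
  have b2 := abs_iteratedDeriv_Tt_le k 0 0 0 2 x h0 h1
  simp only [Nat.add_zero, Nat.zero_add] at b1 b2
  obtain ⟨hl0, hl1⟩ := log_two_mem
  rw [abs_mul, abs_of_nonneg hl0]
  push_cast
  have hB : (0 : ℝ) ≤ (Bc k 0 2 : ℝ) := Nat.cast_nonneg _
  calc Real.log 2 * |iteratedDeriv k (Tt 0 0 2 0) x + iteratedDeriv k (Tt 0 0 0 2) x|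
      ≤ 1 * (|iteratedDeriv k (Tt 0 0 2 0) x| + |iteratedDeriv k (Tt 0 0 0 2) x|) := by
        gcongr; exact abs_add_le _ _
    _ ≤ 1 * ((Bc k 0 2 : ℝ) + (Bc k 0 2 : ℝ)) := by gcongr
    _ = 2 * (Bc k 0 2 : ℝ) := by ring

/-- the final bound -/
def beta (k : ℕ) : ℕ :=
  2 * ((2 * (0 + (k - 1) + 2) + 2 + 2 * (k - 1)) ^ (k - 1) *
    (4 * 2 ^ (2 + 2 * (k - 1)) * (2 + 2 * (k - 1)) ^ (2 + 2 * (k - 1)))) + 1

theorem two_Bc_le_beta (k : ℕ) : 2 * Bc k 0 2 ≤ beta (k + 1) := by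
  unfold beta Bc
  simp only [Nat.add_sub_cancel]
  have := Nat.factorial_le_pow (2 + 2 * k)
  refine le_trans ?_ (Nat.le_succ _)
  gcongr

theorem one_le_beta (k : ℕ) : 1 ≤ beta k := by unfold beta; omega

theorem abs_iteratedDeriv_step_Ioo (k : ℕ) {x : ℝ} (h0 : 0 < x) (h1 : x < 1) :
    |iteratedDeriv k step x| ≤ (beta k : ℝ) := by
  cases k with
  | zero =>
    rw [iteratedDeriv_zero, abs_of_nonneg (step_nonneg x)]
    exact (step_le_one x).trans (by exact_mod_cast one_le_beta 0)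
  | succ k =>
    exact (abs_iteratedDeriv_step_succ_le k h0 h1).trans (by exact_mod_cast two_Bc_le_beta k)

theorem abs_iteratedDeriv_step_le (k : ℕ) (x : ℝ) : |iteratedDeriv k step x| ≤ (beta k : ℝ) := by
  have h1b : (1 : ℝ) ≤ (beta k : ℝ) := by exact_mod_cast one_le_beta k
  rcases lt_or_ge x 0 with hx | hx
  · have hev : step =ᶠ[nhds x] fun _ => (0 : ℝ) := by
      filter_upwards [Iio_mem_nhds hx] with y hy
      exact step_of_nonpos (le_of_lt hy)
    rw [hev.iteratedDeriv_eq k]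
    simp
  rcases lt_or_ge 1 x with hx1 | hx1
  · have hev : step =ᶠ[nhds x] fun _ => (1 : ℝ) := by
      filter_upwards [Ioi_mem_nhds hx1] with y hy
      exact step_of_one_le (le_of_lt hy)
    rw [hev.iteratedDeriv_eq k, iteratedDeriv_const]
    split_ifs
    · simpa using h1b
    · simp
  · have hcont : Continuous (fun y => |iteratedDeriv k step y|) :=
      (step_contDiff.continuous_iteratedDeriv k (by exact_mod_cast le_top)).abs
    have hclosed : IsClosed {y : ℝ | |iteratedDeriv k step y| ≤ (beta k : ℝ)} :=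
      isClosed_le hcont continuous_const
    have hsub : Set.Ioo (0 : ℝ) 1 ⊆ {y : ℝ | |iteratedDeriv k step y| ≤ (beta k : ℝ)} :=
      fun y hy => abs_iteratedDeriv_step_Ioo k hy.1 hy.2
    have := hclosed.closure_subset_iff.mpr hsub
    rw [closure_Ioo (by norm_num)] at this
    exact this ⟨hx, hx1⟩

theorem primrec_beta : Primrec beta := by
  have hm : Primrec (fun k : ℕ => k - 1) := Primrec.nat_sub.comp Primrec.id (Primrec.const 1)
  have h2m : Primrec (fun k : ℕ => 2 * (k - 1)) := Primrec.nat_mul.comp (Primrec.const 2) hm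
  have hq : Primrec (fun k : ℕ => 2 + 2 * (k - 1)) := Primrec.nat_add.comp (Primrec.const 2) h2m
  have hA : Primrec (fun k : ℕ => 2 * (0 + (k - 1) + 2) + 2 + 2 * (k - 1)) :=
    Primrec.nat_add.comp (Primrec.nat_add.comp (Primrec.nat_mul.comp (Primrec.const 2)
      (Primrec.nat_add.comp (Primrec.nat_add.comp (Primrec.const 0) hm) (Primrec.const 2)))
      (Primrec.const 2)) h2m
  have hP1 : Primrec (fun k : ℕ => (2 * (0 + (k - 1) + 2) + 2 + 2 * (k - 1)) ^ (k - 1)) :=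
    primrec_nat_pow.comp hA hm
  have hP2 : Primrec (fun k : ℕ => 4 * 2 ^ (2 + 2 * (k - 1))) :=
    Primrec.nat_mul.comp (Primrec.const 4) (primrec_nat_pow.comp (Primrec.const 2) hq)
  have hP3 : Primrec (fun k : ℕ => (2 + 2 * (k - 1)) ^ (2 + 2 * (k - 1))) :=
    primrec_nat_pow.comp hq hq
  exact Primrec.nat_add.comp (Primrec.nat_mul.comp (Primrec.const 2)
    (Primrec.nat_mul.comp hP1 (Primrec.nat_mul.comp hP2 hP3))) (Primrec.const 1)

end StepBound

theorem bdd1_step : Bdd1 step :=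
  ⟨StepBound.beta, StepBound.primrec_beta, StepBound.abs_iteratedDeriv_step_le⟩

end Crest.Agent.S0170
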