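import Mathlib

set_option autoImplicit false

namespace Crest.Agent.S0359A

/-- the Clarkson defect -/
noncomputable def phi (P a b : ℝ) : ℝ := |a + b| ^ P + |a - b| ^ P - 2 * |a| ^ P - 2 * |b| ^ P

theorem abs_rpow_eq (P t : ℝ) : |t| ^ P = (t ^ 2) ^ (P / 2) := by
  rw [← sq_abs, ← Real.rpow_natCast, ← Real.rpow_mul (abs_nonneg t)]
  congr 1
  push_cast
  ring

theorem phi_pos {P : ℝ} (hP : 2 < P) {a b : ℝ} (hab : a * b ≠ 0) : 0 < phi P a b := by
  unfold phi
  rw [abs_rpow_eq P (a + b), abs_rpow_eq P (a - b), abs_rpow_eq P a, abs_rpow_eq P b]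
  have hq : 1 < P / 2 := by linarith
  have hx : (0 : ℝ) ≤ (a + b) ^ 2 := sq_nonneg _
  have hy : (0 : ℝ) ≤ (a - b) ^ 2 := sq_nonneg _
  have hxy : (a + b) ^ 2 ≠ (a - b) ^ 2 := by
    intro h
    apply hab
    nlinarith
  have h1 := (strictConvexOn_rpow hq).2 (Set.mem_Ici.mpr hx) (Set.mem_Ici.mpr hy) hxy
    (by norm_num : (0 : ℝ) < 1 / 2) (by norm_num : (0 : ℝ) < 1 / 2) (by norm_num)
  simp only [smul_eq_mul] at h1
  have h2 : (1 / 2 : ℝ) * (a + b) ^ 2 + 1 / 2 * (a - b) ^ 2 = a ^ 2 + b ^ 2 := by ring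
  rw [h2] at h1
  have h3 := Real.add_rpow_le_rpow_add (sq_nonneg a) (sq_nonneg b) hq.le
  linarith

theorem phi_neg {P : ℝ} (hP1 : 1 < P) (hP : P < 2) {a b : ℝ} (hab : a * b ≠ 0) :
    phi P a b < 0 := by
  unfold phi
  rw [abs_rpow_eq P (a + b), abs_rpow_eq P (a - b), abs_rpow_eq P a, abs_rpow_eq P b]
  have hq0 : 0 < P / 2 := by linarith
  have hq : P / 2 < 1 := by linarith
  have hx : (0 : ℝ) ≤ (a + b) ^ 2 := sq_nonneg _
  have hy : (0 : ℝ) ≤ (a - b) ^ 2 := sq_nonneg _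
  have hxy : (a + b) ^ 2 ≠ (a - b) ^ 2 := by
    intro h
    apply hab
    nlinarith
  have h1 := (Real.strictConcaveOn_rpow hq0 hq).2 (Set.mem_Ici.mpr hx) (Set.mem_Ici.mpr hy) hxy
    (by norm_num : (0 : ℝ) < 1 / 2) (by norm_num : (0 : ℝ) < 1 / 2) (by norm_num)
  simp only [smul_eq_mul] at h1
  have h2 : (1 / 2 : ℝ) * (a + b) ^ 2 + 1 / 2 * (a - b) ^ 2 = a ^ 2 + b ^ 2 := by ring
  rw [h2] at h1
  have h3 := Real.rpow_add_le_add_rpow (sq_nonneg a) (sq_nonneg b) hq0.le hq.le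
  linarith

theorem phi_zero {P : ℝ} (hP : 0 < P) {a b : ℝ} (hab : a * b = 0) : phi P a b = 0 := by
  unfold phi
  rcases mul_eq_zero.mp hab with h | h
  · subst h
    simp [Real.zero_rpow hP.ne']
    ring
  · subst h
    simp [Real.zero_rpow hP.ne']
    ring

/-- the defect sum vanishes iff the two vectors are disjointly supported -/
theorem sum_phi_eq_zero_iff {κ : Type*} [Fintype κ] {P : ℝ} (hP1 : 1 < P) (hP2 : P ≠ 2)
    (u v : κ → ℝ) : (∑ c, phi P (u c) (v c) = 0) ↔ ∀ c, u c * v c = 0 := by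
  constructor
  · intro h c
    by_contra hc
    rcases lt_or_gt_of_ne hP2 with hlt | hgt
    · have hle : ∀ c ∈ (Finset.univ : Finset κ), phi P (u c) (v c) ≤ 0 := by
        intro c _
        by_cases h0 : u c * v c = 0
        · exact (phi_zero (by linarith) h0).le
        · exact (phi_neg hP1 hlt h0).le
      have := Finset.sum_lt_sum hle ⟨c, Finset.mem_univ c, phi_neg hP1 hlt hc⟩
      simp at this
      linarith
    · have hle : ∀ c ∈ (Finset.univ : Finset κ), 0 ≤ phi P (u c) (v c) := by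
        intro c _
        by_cases h0 : u c * v c = 0
        · exact (phi_zero (by linarith) h0).ge
        · exact (phi_pos hgt h0).le
      have := Finset.sum_lt_sum hle ⟨c, Finset.mem_univ c, phi_pos hgt hc⟩
      simp at this
      linarith
  · intro h
    exact Finset.sum_eq_zero (fun c _ => phi_zero (by linarith) (h c))

theorem abs_add_rpow_le {P : ℝ} (hP : 1 < P) (a b : ℝ) :
    |a + b| ^ P ≤ 2 ^ P * ((|a| ^ P + |b| ^ P) / 2) := by
  have h0 : |a + b| ≤ 2 * ((|a| + |b|) / 2) := by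
    have := abs_add_le a b
    linarith
  have hm : 0 ≤ (|a| + |b|) / 2 := by positivity
  have h1 : |a + b| ^ P ≤ (2 * ((|a| + |b|) / 2)) ^ P :=
    Real.rpow_le_rpow (abs_nonneg _) h0 (by linarith)
  rw [Real.mul_rpow (by norm_num) hm] at h1
  have h2 := (convexOn_rpow hP.le).2 (Set.mem_Ici.mpr (abs_nonneg a)) (Set.mem_Ici.mpr (abs_nonneg b))
    (by norm_num : (0 : ℝ) ≤ 1 / 2) (by norm_num : (0 : ℝ) ≤ 1 / 2) (by norm_num)
  simp only [smul_eq_mul] at h2
  have h3 : (1 / 2 : ℝ) * |a| + 1 / 2 * |b| = (|a| + |b|) / 2 := by ring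
  rw [h3] at h2
  have h4 : (0 : ℝ) < 2 ^ P := by positivity
  calc |a + b| ^ P ≤ 2 ^ P * ((|a| + |b|) / 2) ^ P := h1
    _ ≤ 2 ^ P * ((|a| ^ P + |b| ^ P) / 2) := by
        apply mul_le_mul_of_nonneg_left _ h4.le
        linarith

theorem abs_add_rpow_lt {P : ℝ} (hP : 1 < P) {a b : ℝ} (hab : a ≠ b) :
    |a + b| ^ P < 2 ^ P * ((|a| ^ P + |b| ^ P) / 2) := by
  have h4 : (0 : ℝ) < 2 ^ P := by positivity
  by_cases habs : |a| = |b|
  · have hneg : a = -b := by
      rcases abs_eq_abs.mp habs with h | h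
      · exact absurd h hab
      · exact h
    have hb : b ≠ 0 := by
      intro hb
      apply hab
      rw [hneg, hb]; simp
    have : a + b = 0 := by rw [hneg]; ring
    rw [this, abs_zero, Real.zero_rpow (by linarith)]
    have : 0 < |b| ^ P := Real.rpow_pos_of_pos (abs_pos.mpr hb) _
    have h5 : 0 ≤ |a| ^ P := Real.rpow_nonneg (abs_nonneg _) _
    positivity
  · have h0 : |a + b| ≤ 2 * ((|a| + |b|) / 2) := by
      have := abs_add_le a b
      linarith
    have hm : 0 ≤ (|a| + |b|) / 2 := by positivity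
    have h1 : |a + b| ^ P ≤ (2 * ((|a| + |b|) / 2)) ^ P :=
      Real.rpow_le_rpow (abs_nonneg _) h0 (by linarith)
    rw [Real.mul_rpow (by norm_num) hm] at h1
    have h2 := (strictConvexOn_rpow hP).2 (Set.mem_Ici.mpr (abs_nonneg a))
      (Set.mem_Ici.mpr (abs_nonneg b)) habs
      (by norm_num : (0 : ℝ) < 1 / 2) (by norm_num : (0 : ℝ) < 1 / 2) (by norm_num)
    simp only [smul_eq_mul] at h2
    have h3 : (1 / 2 : ℝ) * |a| + 1 / 2 * |b| = (|a| + |b|) / 2 := by ring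
    rw [h3] at h2
    calc |a + b| ^ P ≤ 2 ^ P * ((|a| + |b|) / 2) ^ P := h1
      _ < 2 ^ P * ((|a| ^ P + |b| ^ P) / 2) := by
          apply mul_lt_mul_of_pos_left _ h4
          linarith

/-- rigidity of antipodes in `ℓ^P` -/
theorem antipode {κ : Type*} [Fintype κ] {P : ℝ} (hP : 1 < P) (u v : κ → ℝ) (M : ℝ)
    (hu : ∑ c, |u c| ^ P = M) (hv : ∑ c, |v c| ^ P = M)
    (huv : ∑ c, |u c - v c| ^ P = 2 ^ P * M) : ∀ c, v c = - u c := by
  intro c
  by_contra hc
  have hne : u c ≠ - v c := by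
    intro h
    apply hc
    rw [h]; ring
  have hle : ∀ c ∈ (Finset.univ : Finset κ),
      |u c - v c| ^ P ≤ 2 ^ P * ((|u c| ^ P + |v c| ^ P) / 2) := by
    intro c _
    have := abs_add_rpow_le hP (u c) (- v c)
    rwa [abs_neg, ← sub_eq_add_neg] at this
  have hlt : |u c - v c| ^ P < 2 ^ P * ((|u c| ^ P + |v c| ^ P) / 2) := by
    have := abs_add_rpow_lt hP hne
    rwa [abs_neg, ← sub_eq_add_neg] at this
  have := Finset.sum_lt_sum hle ⟨c, Finset.mem_univ c, hlt⟩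
  rw [huv, ← Finset.mul_sum, ← Finset.sum_div, Finset.sum_add_distrib, hu, hv] at this
  have h5 : (M + M) / 2 = M := by ring
  rw [h5] at this
  exact lt_irrefl _ this

end Crest.Agent.S0359A
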