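import Mathlib

set_option autoImplicit false
open MeasureTheory
open scoped ENNReal

namespace Crest.Agent.S0359B

variable {ι : Type} [Fintype ι] [MeasurableSpace ι] [MeasurableSingletonClass ι]

theorem memLp_count (p : ℝ≥0∞) (F : ι → ℝ) : MemLp F p (Measure.count : Measure ι) :=
  ⟨(measurable_of_countable F).aestronglyMeasurable,
    eLpNorm_count_lt_top_of_lt (fun _ => enorm_lt_top)⟩

/-- the canonical map from functions on a finite type to `L^p` of the counting measure -/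
noncomputable def T (p : ℝ≥0∞) [Fact (1 ≤ p)] (F : ι → ℝ) : Lp ℝ p (Measure.count : Measure ι) :=
  (memLp_count p F).toLp F

theorem T_sub (p : ℝ≥0∞) [Fact (1 ≤ p)] (F G : ι → ℝ) : T p F - T p G = T p (F - G) :=
  (MemLp.toLp_sub _ _).symm

theorem norm_T (p : ℝ≥0∞) [Fact (1 ≤ p)] (hp0 : p ≠ 0) (hptop : p ≠ ⊤) (F : ι → ℝ) :
    ‖T p F‖ ^ p.toReal = ∑ x, |F x| ^ p.toReal := by
  have hP : 0 < p.toReal := ENNReal.toReal_pos hp0 hptop
  unfold T
  rw [Lp.norm_toLp, eLpNorm_eq_lintegral_rpow_enorm_toReal hp0 hptop, lintegral_fintype]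
  have h1 : ∀ x : ι, ‖F x‖ₑ ^ p.toReal * (Measure.count : Measure ι) {x}
      = ENNReal.ofReal (|F x| ^ p.toReal) := by
    intro x
    rw [Measure.count_singleton, mul_one, Real.enorm_eq_ofReal_abs,
      ENNReal.ofReal_rpow_of_nonneg (abs_nonneg _) hP.le]
  simp_rw [h1]
  rw [← ENNReal.ofReal_sum_of_nonneg (fun x _ => Real.rpow_nonneg (abs_nonneg _) _)]
  have hs : 0 ≤ ∑ x, |F x| ^ p.toReal :=
    Finset.sum_nonneg (fun x _ => Real.rpow_nonneg (abs_nonneg _) _)
  rw [ENNReal.ofReal_rpow_of_nonneg hs (by positivity), ENNReal.toReal_ofReal (by positivity),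
    ← Real.rpow_mul hs]
  simp [hP.ne']

theorem T_injective (p : ℝ≥0∞) [Fact (1 ≤ p)] (hp0 : p ≠ 0) (hptop : p ≠ ⊤) :
    Function.Injective (T p : (ι → ℝ) → Lp ℝ p (Measure.count : Measure ι)) := by
  intro F G h
  have hP : 0 < p.toReal := ENNReal.toReal_pos hp0 hptop
  have h1 : T p (F - G) = 0 := by rw [← T_sub, h, sub_self]
  have h2 := norm_T p hp0 hptop (F - G)
  rw [h1, norm_zero, Real.zero_rpow hP.ne'] at h2
  have h3 := (Finset.sum_eq_zero_iff_of_nonneg
    (fun x _ => Real.rpow_nonneg (abs_nonneg ((F - G) x)) p.toReal)).mp h2.symm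
  funext x
  have h4 := h3 x (Finset.mem_univ x)
  have h5 : |(F - G) x| = 0 := by
    by_contra hne
    have : 0 < |(F - G) x| ^ p.toReal :=
      Real.rpow_pos_of_pos (lt_of_le_of_ne (abs_nonneg _) (Ne.symm hne)) _
    linarith
  have h6 : (F - G) x = 0 := abs_eq_zero.mp h5
  simpa [sub_eq_zero] using h6

end Crest.Agent.S0359B
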