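import Crest.Agent.S0359A

set_option autoImplicit false

namespace Crest.Agent.S0359C

open Crest.Agent.S0359A

/-- A scaled isometry between point sets of `ℓ^P` spaces preserves disjointness of supports
(after moving the image of `0` to `0`), in both directions. -/
theorem core {ι κ : Type*} [Fintype ι] [Fintype κ] {P : ℝ} (hP1 : 1 < P) (hP2 : P ≠ 2)
    {s : ℝ} (hs : 0 < s) (S : Set (ι → ℝ)) (Y : (ι → ℝ) → κ → ℝ)
    (hY : ∀ G ∈ S, ∀ H ∈ S, ∑ c, |Y G c - Y H c| ^ P = s ^ P * ∑ x, |G x - H x| ^ P)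
    (h0 : (0 : ι → ℝ) ∈ S) (G H : ι → ℝ) (hG : G ∈ S) (hH : H ∈ S) (hH' : -H ∈ S) :
    (∀ x, G x * H x = 0) ↔ ∀ c, (Y G c - Y 0 c) * (Y H c - Y 0 c) = 0 := by
  have hsP : 0 < s ^ P := Real.rpow_pos_of_pos hs P
  -- norms
  have hnorm : ∀ K ∈ S, ∑ c, |Y K c - Y 0 c| ^ P = s ^ P * ∑ x, |K x| ^ P := by
    intro K hK
    have := hY K hK 0 h0
    simpa using this
  -- antipode of H
  have hanti : ∀ c, Y (-H) c - Y 0 c = - (Y H c - Y 0 c) := by
    apply antipode hP1 (fun c => Y H c - Y 0 c) (fun c => Y (-H) c - Y 0 c)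
      (s ^ P * ∑ x, |H x| ^ P) (hnorm H hH)
    · have := hnorm (-H) hH'
      simpa using this
    · have h1 := hY H hH (-H) hH'
      have h2 : ∀ x, |H x - (-H) x| ^ P = 2 ^ P * |H x| ^ P := by
        intro x
        have : H x - (-H) x = 2 * H x := by simp; ring
        rw [this, abs_mul, Real.mul_rpow (abs_nonneg _) (abs_nonneg _)]
        simp
      simp_rw [h2] at h1
      rw [← Finset.mul_sum] at h1
      have h3 : ∀ c, (Y H c - Y 0 c) - (Y (-H) c - Y 0 c) = Y H c - Y (-H) c := by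
        intro c; ring
      simp_rw [h3]
      rw [h1]; ring
  -- the defect sums correspond
  have hdef : ∑ c, phi P (Y G c - Y 0 c) (Y H c - Y 0 c) = s ^ P * ∑ x, phi P (G x) (H x) := by
    have e1 : ∀ c, (Y G c - Y 0 c) + (Y H c - Y 0 c) = Y G c - Y (-H) c := by
      intro c
      have := hanti c
      linarith
    have e2 : ∀ c, (Y G c - Y 0 c) - (Y H c - Y 0 c) = Y G c - Y H c := by
      intro c; ring
    have e3 : ∀ x, G x - (-H) x = G x + H x := by
      intro x; simp
    unfold phi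
    simp_rw [e1, e2]
    rw [Finset.sum_sub_distrib, Finset.sum_sub_distrib, Finset.sum_add_distrib,
      ← Finset.mul_sum, ← Finset.mul_sum, hY G hG (-H) hH', hY G hG H hH, hnorm G hG, hnorm H hH]
    simp_rw [e3]
    rw [Finset.sum_sub_distrib, Finset.sum_sub_distrib, Finset.sum_add_distrib,
      ← Finset.mul_sum, ← Finset.mul_sum]
    ring
  rw [← sum_phi_eq_zero_iff hP1 hP2 G H, ← sum_phi_eq_zero_iff hP1 hP2, hdef]
  constructor
  · intro h; rw [h, mul_zero]
  · intro h
    rcases mul_eq_zero.mp h with h | h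
    · exact absurd h hsP.ne'
    · exact h

/-- counting: rows and columns of a `k × k` grid -/
theorem count {k d : ℕ} (A B : Fin k → Fin d → ℝ)
    (hA : ∀ i i', i ≠ i' → ∀ c, A i c * A i' c = 0)
    (hB : ∀ j j', j ≠ j' → ∀ c, B j c * B j' c = 0)
    (hAB : ∀ i j, ¬ ∀ c, A i c * B j c = 0) : k ^ 2 ≤ d := by
  classical
  have hex : ∀ ij : Fin k × Fin k, ∃ c, A ij.1 c * B ij.2 c ≠ 0 := by
    intro ij
    exact not_forall.mp (hAB ij.1 ij.2)
  choose c hc using hex
  have hinj : Function.Injective c := by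
    intro a b hab
    have ha := hc a
    have hb := hc b
    rw [← hab] at hb
    have ha1 : A a.1 (c a) ≠ 0 := left_ne_zero_of_mul ha
    have ha2 : B a.2 (c a) ≠ 0 := right_ne_zero_of_mul ha
    have hb1 : A b.1 (c a) ≠ 0 := left_ne_zero_of_mul hb
    have hb2 : B b.2 (c a) ≠ 0 := right_ne_zero_of_mul hb
    apply Prod.ext
    · by_contra hne
      exact mul_ne_zero ha1 hb1 (hA _ _ hne _)
    · by_contra hne
      exact mul_ne_zero ha2 hb2 (hB _ _ hne _)
  have := Fintype.card_le_of_injective c hinj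
  simpa [sq] using this

end Crest.Agent.S0359C
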