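import Crest.Statements.S0359
import Crest.Agent.S0359A
import Crest.Agent.S0359B
import Crest.Agent.S0359C

set_option autoImplicit false
open MeasureTheory
open scoped ENNReal
open Crest Crest.GeometryTopology

namespace Crest.Agent.S0359

open Crest.Agent.S0359A Crest.Agent.S0359B Crest.Agent.S0359C

/-- Fix an exponent 1 < p < ∞ with p ≠ 2 and n ≥ 9. If d is a dimension such that every n distinct points of any real L^p space can be mapped to the d-dimensional real ℓ^p space with all pairwise distances multiplied by one common factor s > 0 (an isometric embedding up to scaling), then ⌊(n − 1)/4⌋² ≤ d. -/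
theorem result
    (p : ℝ≥0∞) [Fact (1 ≤ p)] (hp1 : 1 < p) (hptop : p ≠ ⊤) (hp2 : p ≠ 2)
    (n : ℕ) (hn : 9 ≤ n) (d : ℕ)
    (hd : ∀ (α : Type) [MeasurableSpace α] (μ : Measure α) (x : Fin n → Lp ℝ p μ),
      Function.Injective x →
      ∃ (y : Fin n → PiLp p (fun _ : Fin d => ℝ)) (s : ℝ), 0 < s ∧
        ∀ i j, ‖y i - y j‖ = s * ‖x i - x j‖) :
    ((n - 1) / 4) ^ 2 ≤ d := by
  classical
  have hp0 : p ≠ 0 := (lt_trans zero_lt_one hp1).ne'
  have hP1 : 1 < p.toReal := by
    have := (ENNReal.toReal_lt_toReal ENNReal.one_ne_top hptop).mpr hp1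
    simpa using this
  have hP0 : 0 < p.toReal := by linarith
  have hP2 : p.toReal ≠ 2 := by
    intro h
    apply hp2
    rw [← ENNReal.ofReal_toReal hptop, h]
    simp
  obtain ⟨k, hk⟩ : ∃ k, k = (n - 1) / 4 := ⟨_, rfl⟩
  rw [← hk]
  have hk4 : 4 * k + 1 ≤ n := by omega
  have hk1 : 1 ≤ k := by omega
  have : Nonempty (Fin k × Fin k) := ⟨(⟨0, hk1⟩, ⟨0, hk1⟩)⟩
  let f : Fin k → Fin k × Fin k → ℝ := fun i x => if x.1 = i then 1 else 0
  let g : Fin k → Fin k × Fin k → ℝ := fun j x => if x.2 = j then 1 else 0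
  let S : Finset (Fin k × Fin k → ℝ) :=
    {0} ∪ (Finset.univ.image f ∪ Finset.univ.image (fun i => - f i)
      ∪ (Finset.univ.image g ∪ Finset.univ.image (fun j => - g j)))
  have hScard : S.card ≤ n := by
    have c1 : (Finset.univ.image f).card ≤ k := by
      simpa using (Finset.card_image_le (s := (Finset.univ : Finset (Fin k))) (f := f))
    have c2 : (Finset.univ.image (fun i => - f i)).card ≤ k := by
      simpa using (Finset.card_image_le (s := (Finset.univ : Finset (Fin k))) (f := fun i => - f i))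
    have c3 : (Finset.univ.image g).card ≤ k := by
      simpa using (Finset.card_image_le (s := (Finset.univ : Finset (Fin k))) (f := g))
    have c4 : (Finset.univ.image (fun j => - g j)).card ≤ k := by
      simpa using (Finset.card_image_le (s := (Finset.univ : Finset (Fin k))) (f := fun j => - g j))
    have u1 := Finset.card_union_le ({0} : Finset (Fin k × Fin k → ℝ))
      (Finset.univ.image f ∪ Finset.univ.image (fun i => - f i)
      ∪ (Finset.univ.image g ∪ Finset.univ.image (fun j => - g j)))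
    have u2 := Finset.card_union_le (Finset.univ.image f ∪ Finset.univ.image (fun i => - f i))
      (Finset.univ.image g ∪ Finset.univ.image (fun j => - g j))
    have u3 := Finset.card_union_le (Finset.univ.image f) (Finset.univ.image (fun i => - f i))
    have u4 := Finset.card_union_le (Finset.univ.image g) (Finset.univ.image (fun j => - g j))
    have u0 : ({0} : Finset (Fin k × Fin k → ℝ)).card = 1 := Finset.card_singleton _
    show ({0} ∪ (Finset.univ.image f ∪ Finset.univ.image (fun i => - f i)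
      ∪ (Finset.univ.image g ∪ Finset.univ.image (fun j => - g j)))).card ≤ n
    omega
  obtain ⟨S', hSS', hS'card⟩ := Infinite.exists_superset_card_eq S n hScard
  let e : S' ≃ Fin n := S'.equivFinOfCardEq hS'card
  let x : Fin n → Lp ℝ p (Measure.count : Measure (Fin k × Fin k)) := fun i => T p (e.symm i).1
  have hx : Function.Injective x := by
    intro i j hij
    have h1 := T_injective p hp0 hptop hij
    exact e.symm.injective (Subtype.ext h1)
  obtain ⟨y, s, hs, hy⟩ := hd (Fin k × Fin k) Measure.count x hx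
  let Y : (Fin k × Fin k → ℝ) → Fin d → ℝ := fun G =>
    if h : G ∈ S' then (fun c => y (e ⟨G, h⟩) c) else 0
  have hY : ∀ G ∈ (S' : Set (Fin k × Fin k → ℝ)), ∀ H ∈ (S' : Set (Fin k × Fin k → ℝ)),
      ∑ c, |Y G c - Y H c| ^ p.toReal = s ^ p.toReal * ∑ z, |G z - H z| ^ p.toReal := by
    intro G hG H hH
    have hG' : G ∈ S' := hG
    have hH' : H ∈ S' := hH
    have h1 := hy (e ⟨G, hG'⟩) (e ⟨H, hH'⟩)
    have hxG : x (e ⟨G, hG'⟩) = T p G := by
      show T p (e.symm (e ⟨G, hG'⟩)).1 = T p G
      rw [Equiv.symm_apply_apply]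
    have hxH : x (e ⟨H, hH'⟩) = T p H := by
      show T p (e.symm (e ⟨H, hH'⟩)).1 = T p H
      rw [Equiv.symm_apply_apply]
    rw [hxG, hxH, T_sub] at h1
    have h2 : ‖y (e ⟨G, hG'⟩) - y (e ⟨H, hH'⟩)‖ ^ p.toReal
        = ∑ c, |Y G c - Y H c| ^ p.toReal := by
      rw [PiLp.norm_eq_sum hP0, ← Real.rpow_mul
        (Finset.sum_nonneg (fun c _ => Real.rpow_nonneg (norm_nonneg _) _))]
      simp [Y, hG', hH', hP0.ne']
    rw [← h2, h1, Real.mul_rpow hs.le (norm_nonneg _), norm_T p hp0 hptop]
    simp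
  have mem0 : (0 : Fin k × Fin k → ℝ) ∈ (S' : Set (Fin k × Fin k → ℝ)) := by
    apply hSS'
    simp [S]
  have memf : ∀ i, f i ∈ (S' : Set (Fin k × Fin k → ℝ)) := by
    intro i
    apply hSS'
    simp only [S, Finset.mem_union, Finset.mem_image, Finset.mem_univ, true_and]
    exact Or.inr (Or.inl (Or.inl ⟨i, rfl⟩))
  have memf' : ∀ i, - f i ∈ (S' : Set (Fin k × Fin k → ℝ)) := by
    intro i
    apply hSS'
    simp only [S, Finset.mem_union, Finset.mem_image, Finset.mem_univ, true_and]
    exact Or.inr (Or.inl (Or.inr ⟨i, rfl⟩))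
  have memg : ∀ j, g j ∈ (S' : Set (Fin k × Fin k → ℝ)) := by
    intro j
    apply hSS'
    simp only [S, Finset.mem_union, Finset.mem_image, Finset.mem_univ, true_and]
    exact Or.inr (Or.inr (Or.inl ⟨j, rfl⟩))
  have memg' : ∀ j, - g j ∈ (S' : Set (Fin k × Fin k → ℝ)) := by
    intro j
    apply hSS'
    simp only [S, Finset.mem_union, Finset.mem_image, Finset.mem_univ, true_and]
    exact Or.inr (Or.inr (Or.inr ⟨j, rfl⟩))
  apply count (fun i c => Y (f i) c - Y 0 c) (fun j c => Y (g j) c - Y 0 c)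
  · intro i i' hne
    apply (core hP1 hP2 hs (S' : Set (Fin k × Fin k → ℝ)) Y hY mem0 (f i) (f i')
      (memf i) (memf i') (memf' i')).mp
    intro z
    by_cases h1 : z.1 = i
    · have h2 : z.1 ≠ i' := by rw [h1]; exact hne
      simp [f, h2]
    · simp [f, h1]
  · intro j j' hne
    apply (core hP1 hP2 hs (S' : Set (Fin k × Fin k → ℝ)) Y hY mem0 (g j) (g j')
      (memg j) (memg j') (memg' j')).mp
    intro z
    by_cases h1 : z.2 = j
    · have h2 : z.2 ≠ j' := by rw [h1]; exact hne
      simp [g, h2]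
    · simp [g, h1]
  · intro i j hall
    have := (core hP1 hP2 hs (S' : Set (Fin k × Fin k → ℝ)) Y hY mem0 (f i) (g j)
      (memf i) (memg j) (memg' j)).mpr hall (i, j)
    simp [f, g] at this

end Crest.Agent.S0359
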