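import Crest.Agent.S0505B

/-! Helper library for statement S0505: arithmetic of the parameters `t = ⌈√n⌉`, `r = ⌈n/t⌉`. -/

set_option autoImplicit false

namespace Crest.Agent.S0505C

theorem one_le_t (n : ℕ) (hn : 2 ≤ n) : 1 ≤ ⌈Real.sqrt n⌉₊ := by
  have : 0 < Real.sqrt n := Real.sqrt_pos.mpr (by exact_mod_cast (by omega : 0 < n))
  exact Nat.one_le_iff_ne_zero.mpr (Nat.ceil_pos.mpr this).ne'

theorem one_le_r (n : ℕ) (hn : 2 ≤ n) : 1 ≤ ⌈(n : ℝ) / ⌈Real.sqrt n⌉₊⌉₊ := by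
  have ht := one_le_t n hn
  have h1 : (0 : ℝ) < (⌈Real.sqrt n⌉₊ : ℝ) := by exact_mod_cast ht
  have h2 : (0 : ℝ) < (n : ℝ) := by exact_mod_cast (by omega : 0 < n)
  exact Nat.one_le_iff_ne_zero.mpr (Nat.ceil_pos.mpr (div_pos h2 h1)).ne'

theorem le_r_mul_t (n : ℕ) (hn : 2 ≤ n) :
    n ≤ ⌈(n : ℝ) / ⌈Real.sqrt n⌉₊⌉₊ * ⌈Real.sqrt n⌉₊ := by
  have ht := one_le_t n hn
  have h1 : (0 : ℝ) < (⌈Real.sqrt n⌉₊ : ℝ) := by exact_mod_cast ht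
  have h := Nat.le_ceil ((n : ℝ) / ⌈Real.sqrt n⌉₊)
  rw [div_le_iff₀ h1] at h
  exact_mod_cast h

theorem pred_r_mul_t_lt (n : ℕ) (hn : 2 ≤ n) :
    (⌈(n : ℝ) / ⌈Real.sqrt n⌉₊⌉₊ - 1) * ⌈Real.sqrt n⌉₊ < n := by
  have ht := one_le_t n hn
  have hr := one_le_r n hn
  have h1 : (0 : ℝ) < (⌈Real.sqrt n⌉₊ : ℝ) := by exact_mod_cast ht
  have h : ((⌈(n : ℝ) / ⌈Real.sqrt n⌉₊⌉₊ - 1 : ℕ) : ℝ) < (n : ℝ) / ⌈Real.sqrt n⌉₊ :=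
    Nat.lt_ceil.mp (by omega)
  rw [lt_div_iff₀ h1] at h
  exact_mod_cast h

theorem numeric_two :
    ((2 * 2 ^ 3 + ⌈((2 : ℕ) : ℝ) / ⌈Real.sqrt (2 : ℕ)⌉₊⌉₊ * 2 ^ 2 +
          ⌈((2 : ℕ) : ℝ) / ⌈Real.sqrt (2 : ℕ)⌉₊⌉₊ * 2 ^ (⌈Real.sqrt (2 : ℕ)⌉₊ + 1) +
          2 ^ (⌈((2 : ℕ) : ℝ) / ⌈Real.sqrt (2 : ℕ)⌉₊⌉₊ - 1) + 1 : ℕ) : ℝ)
      ≤ ((2 : ℕ) : ℝ) ^ (Real.sqrt (2 : ℕ) + 4) := by
  have hs1 : (1 : ℝ) < Real.sqrt (2 : ℕ) := by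
    rw [Real.lt_sqrt (by norm_num)]; norm_num
  have hs2 : Real.sqrt (2 : ℕ) ≤ 2 := by
    rw [Real.sqrt_le_left (by norm_num)]; norm_num
  have ht : ⌈Real.sqrt (2 : ℕ)⌉₊ = 2 := by
    rw [Nat.ceil_eq_iff (by norm_num)]
    constructor
    · simpa using hs1
    · exact_mod_cast hs2
  have hr : ⌈((2 : ℕ) : ℝ) / ⌈Real.sqrt (2 : ℕ)⌉₊⌉₊ = 1 := by
    rw [ht]; norm_num
  rw [hr, ht]
  have h5 : ((2 : ℕ) : ℝ) ^ ((5 : ℕ) : ℝ) ≤ ((2 : ℕ) : ℝ) ^ (Real.sqrt (2 : ℕ) + 4) := by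
    apply Real.rpow_le_rpow_of_exponent_le (by norm_num)
    have h6 := hs1
    push_cast at h6 ⊢
    linarith
  rw [Real.rpow_natCast] at h5
  refine le_trans ?_ h5
  norm_num

theorem numeric_ge_three (n : ℕ) (hn : 3 ≤ n) :
    ((2 * n ^ 3 + ⌈(n : ℝ) / ⌈Real.sqrt n⌉₊⌉₊ * n ^ 2 +
          ⌈(n : ℝ) / ⌈Real.sqrt n⌉₊⌉₊ * n ^ (⌈Real.sqrt n⌉₊ + 1) +
          n ^ (⌈(n : ℝ) / ⌈Real.sqrt n⌉₊⌉₊ - 1) + 1 : ℕ) : ℝ)
      ≤ (n : ℝ) ^ (Real.sqrt n + 4) := by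
  have hn2 : 2 ≤ n := by omega
  set t := ⌈Real.sqrt n⌉₊ with ht_def
  set r := ⌈(n : ℝ) / t⌉₊ with hr_def
  have ht := one_le_t n hn2
  have hr := one_le_r n hn2
  have hlt := pred_r_mul_t_lt n hn2
  rw [← ht_def] at ht
  rw [← ht_def, ← hr_def] at hr hlt
  have hx3 : (3 : ℝ) ≤ (n : ℝ) := by exact_mod_cast hn
  have hx0 : (0 : ℝ) < (n : ℝ) := by linarith
  have hx1 : (1 : ℝ) ≤ (n : ℝ) := by linarith
  set s := Real.sqrt n with hs_def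
  have hs1 : 1 ≤ s := by
    rw [hs_def]; exact Real.one_le_sqrt.mpr hx1
  have hs0 : 0 < s := by linarith
  have hss : s * s = n := Real.mul_self_sqrt hx0.le
  have hts : (t : ℝ) < s + 1 := Nat.ceil_lt_add_one hs0.le
  have hst : s ≤ (t : ℝ) := Nat.le_ceil s
  set A := (n : ℝ) ^ s with hA_def
  have hA : (n : ℝ) ≤ A := by
    have := Real.rpow_le_rpow_of_exponent_le hx1 hs1
    rwa [Real.rpow_one] at this
  -- r ≤ n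
  have hrn : r ≤ n := by
    rw [hr_def]
    apply Nat.ceil_le.mpr
    have h1 : (1 : ℝ) ≤ (t : ℝ) := by exact_mod_cast ht
    exact div_le_self hx0.le h1
  have hrn' : (r : ℝ) ≤ (n : ℝ) := by exact_mod_cast hrn
  -- n^(t+1) ≤ A n^2
  have h1 : (n : ℝ) ^ (t + 1) ≤ A * (n : ℝ) ^ 2 := by
    have e : A * (n : ℝ) ^ 2 = (n : ℝ) ^ (s + 2) := by
      rw [Real.rpow_add hx0, hA_def]
      norm_num
    rw [e, ← Real.rpow_natCast]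
    apply Real.rpow_le_rpow_of_exponent_le hx1
    push_cast
    linarith
  -- n^(r-1) ≤ A
  have h2 : (n : ℝ) ^ (r - 1) ≤ A := by
    rw [hA_def, ← Real.rpow_natCast]
    apply Real.rpow_le_rpow_of_exponent_le hx1
    have hlt' : ((r - 1 : ℕ) : ℝ) * (t : ℝ) < (n : ℝ) := by exact_mod_cast hlt
    have hq0 : (0 : ℝ) ≤ ((r - 1 : ℕ) : ℝ) := Nat.cast_nonneg _
    by_contra hcon'
    have hcon := not_le.mp hcon'
    have : s * s < ((r - 1 : ℕ) : ℝ) * (t : ℝ) := by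
      calc s * s < ((r - 1 : ℕ) : ℝ) * s := by
            exact mul_lt_mul_of_pos_right hcon hs0
        _ ≤ ((r - 1 : ℕ) : ℝ) * (t : ℝ) := mul_le_mul_of_nonneg_left hst hq0
    linarith
  have e4 : (n : ℝ) ^ (s + 4) = A * (n : ℝ) ^ 4 := by
    rw [Real.rpow_add hx0, hA_def]
    norm_num
  rw [e4]
  push_cast
  set x := (n : ℝ) with hx_def
  have hA0 : 0 < A := by linarith
  have hx2 : 0 ≤ x ^ 2 := by positivity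
  have b1 : (r : ℝ) * x ^ 2 ≤ x * x ^ 2 := mul_le_mul_of_nonneg_right hrn' hx2
  have b2 : (r : ℝ) * x ^ (t + 1) ≤ x * (A * x ^ 2) := by
    have : 0 ≤ x ^ (t + 1) := by positivity
    calc (r : ℝ) * x ^ (t + 1) ≤ x * x ^ (t + 1) := mul_le_mul_of_nonneg_right hrn' this
      _ ≤ x * (A * x ^ 2) := mul_le_mul_of_nonneg_left h1 hx0.le
  -- final polynomial inequality
  have p1 : 0 ≤ x ^ 4 - x ^ 3 - 1 := by nlinarith [pow_pos hx0 3, pow_pos hx0 2]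
  have p2 : x * (x ^ 4 - x ^ 3 - 1) ≤ A * (x ^ 4 - x ^ 3 - 1) :=
    mul_le_mul_of_nonneg_right hA p1
  have p3 : 3 * x ^ 3 + 1 ≤ x * (x ^ 4 - x ^ 3 - 1) := by
    nlinarith [pow_pos hx0 3, pow_pos hx0 2, pow_pos hx0 4, mul_pos hx0 hx0]
  nlinarith [b1, b2, h2, p2, p3]

end Crest.Agent.S0505C
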