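import Crest.Statements.S0505
import Crest.Agent.S0505C

set_option autoImplicit false
universe u
open Crest Crest.LogicCS

namespace Crest.Agent.S0505

/-- For every field K and every n ≥ 2 there is a syntactically homogeneous depth-five sum-product circuit over K in the n³ matrix-entry variables (shared gates, unrestricted fan-in and bottom support) whose output is the top-left entry of the ordered product of the n variable matrices of order n and whose number of vertices, leaves included, is at most 2n³ + r·n² + r·n^(t+1) + n^(r−1) + 1 with t = ⌈√n⌉, r = ⌈n/t⌉, and also at most n^(√n + 4). Layers are indexed by initial segments of ℕ. -/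
theorem result (K : Type u) [Field K] (n : ℕ)
    (hn : 2 ≤ n) :
    ∃ (l b p s r : ℕ)
      (C : Crest.ArithCircuit.SPSPS K (Fin n × Fin n × Fin n) (Fin l) (Fin b) (Fin p) (Fin s) (Fin r)),
      C.IsHomogeneous ∧ C.output = Crest.ArithCircuit.imm K n ∧
        C.size ≤ 2 * n ^ 3 + ⌈(n : ℝ) / ⌈Real.sqrt n⌉₊⌉₊ * n ^ 2 +
          ⌈(n : ℝ) / ⌈Real.sqrt n⌉₊⌉₊ * n ^ (⌈Real.sqrt n⌉₊ + 1) +
          n ^ (⌈(n : ℝ) / ⌈Real.sqrt n⌉₊⌉₊ - 1) + 1 ∧
        (C.size : ℝ) ≤ (n : ℝ) ^ (Real.sqrt n + 4) := by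
  have hnum : ((2 * n ^ 3 + ⌈(n : ℝ) / ⌈Real.sqrt n⌉₊⌉₊ * n ^ 2 +
          ⌈(n : ℝ) / ⌈Real.sqrt n⌉₊⌉₊ * n ^ (⌈Real.sqrt n⌉₊ + 1) +
          n ^ (⌈(n : ℝ) / ⌈Real.sqrt n⌉₊⌉₊ - 1) + 1 : ℕ) : ℝ)
      ≤ (n : ℝ) ^ (Real.sqrt n + 4) := by
    rcases Nat.lt_or_ge n 3 with h | h
    · have h2 : n = 2 := by omega
      subst h2
      exact Crest.Agent.S0505C.numeric_two
    · exact Crest.Agent.S0505C.numeric_ge_three n h
  have : NeZero n := ⟨by omega⟩
  have ht := Crest.Agent.S0505C.one_le_t n hn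
  have hr := Crest.Agent.S0505C.one_le_r n hn
  have hle := Crest.Agent.S0505C.le_r_mul_t n hn
  have hlt := Crest.Agent.S0505C.pred_r_mul_t_lt n hn
  generalize ⌈(n : ℝ) / ⌈Real.sqrt n⌉₊⌉₊ = r at *
  generalize ⌈Real.sqrt n⌉₊ = t at *
  obtain ⟨r₁, rfl⟩ : ∃ r₁, r = r₁ + 1 := ⟨r - 1, by omega⟩
  simp only [Nat.add_sub_cancel] at hlt hnum ⊢
  let off : ℕ → ℕ := fun c => min (c * t) n
  let len : ℕ → ℕ := fun c => off (c + 1) - off c
  have h0 : off 0 = 0 := by simp [off]
  have hoff : ∀ c, off (c + 1) = off c + len c := by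
    intro c
    simp only [len, off]
    have e : (c + 1) * t = c * t + t := by ring
    rw [e]
    omega
  have hoffr : off (r₁ + 1) = n := by
    simp only [off]
    exact min_eq_right hle
  have hlen : ∀ c : Fin (r₁ + 1), 1 ≤ len c := by
    intro c
    have hc : (c : ℕ) ≤ r₁ := by have := c.2; omega
    have h1 : (c : ℕ) * t ≤ r₁ * t := Nat.mul_le_mul_right t hc
    simp only [len, off]
    have e : ((c : ℕ) + 1) * t = c * t + t := by ring
    rw [e]
    omega
  have hlen' : ∀ c : Fin (r₁ + 1), len c ≤ t := by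
    intro c
    simp only [len, off]
    have e : ((c : ℕ) + 1) * t = c * t + t := by ring
    rw [e]
    omega
  have hsize := Crest.Agent.S0505B.circ_size K n r₁ off len t hlen'
  have hsz : (Crest.Agent.S0505A.reindex (Crest.Agent.S0505B.circ K n r₁ off len)
      (Fintype.equivFin _) (Fintype.equivFin _) (Fintype.equivFin _) (Fintype.equivFin _)
      (Fintype.equivFin _)).size = (Crest.Agent.S0505B.circ K n r₁ off len).size := by
    simp only [Crest.ArithCircuit.SPSPS.size, Fintype.card_fin]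
  refine ⟨_, _, _, _, _, Crest.Agent.S0505A.reindex (Crest.Agent.S0505B.circ K n r₁ off len)
    (Fintype.equivFin _) (Fintype.equivFin _) (Fintype.equivFin _) (Fintype.equivFin _)
    (Fintype.equivFin _), ?_, ?_, ?_, ?_⟩
  · exact Crest.Agent.S0505A.reindex_isHomogeneous _ _ _ _ _ _
      (Crest.Agent.S0505B.circ_isHomogeneous K n r₁ off len hlen)
  · rw [Crest.Agent.S0505A.reindex_output, Crest.Agent.S0505B.output_eq K n r₁ off len h0 hoff,
      hoffr, Crest.Agent.S0505B.imm_eq, Crest.Agent.S0505B.Mseq_prod]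
  · rw [hsz]
    exact hsize
  · rw [hsz]
    refine le_trans ?_ hnum
    exact_mod_cast hsize

end Crest.Agent.S0505
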