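import Crest.Statements.S0505

/-! Helper library for statement S0505: products of a sequence of matrices expanded over paths. -/

set_option autoImplicit false

namespace Crest.Agent.S0505A

section Path

variable {n : ℕ} {R : Type*} [CommSemiring R]

/-- `M a * M (a+1) * ... * M (a+len-1)`. -/
def prodRange (M : ℕ → Matrix (Fin n) (Fin n) R) : ℕ → ℕ → Matrix (Fin n) (Fin n) R
  | _, 0 => 1
  | a, len + 1 => M a * prodRange M (a + 1) len

/-- End point of the path `i → w 0 → w 1 → ...`. -/
def endpt : (len : ℕ) → Fin n → (Fin len → Fin n) → Fin n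
  | 0, i, _ => i
  | len + 1, _, w => endpt len (w 0) (Fin.tail w)

/-- The multiset of the gates along the path `i → w 0 → w 1 → ...`, positions `a, a+1, ...`. -/
def pathMS {G : Type*} (gate : ℕ → Fin n → Fin n → G) :
    (len : ℕ) → ℕ → Fin n → (Fin len → Fin n) → Multiset G
  | 0, _, _, _ => 0
  | len + 1, a, i, w => gate a i (w 0) ::ₘ pathMS gate len (a + 1) (w 0) (Fin.tail w)

theorem mulVec_prodRange {G : Type*} (gate : ℕ → Fin n → Fin n → G) (val : G → R)
    (M : ℕ → Matrix (Fin n) (Fin n) R) (hM : ∀ k i j, val (gate k i j) = M k i j)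
    (v : Fin n → R) (len : ℕ) : ∀ (a : ℕ) (i : Fin n),
    ((prodRange M a len).mulVec v) i =
      ∑ w : Fin len → Fin n, ((pathMS gate len a i w).map val).prod * v (endpt len i w) := by
  induction len with
  | zero =>
    intro a i
    simp [prodRange, pathMS, endpt]
  | succ len ih =>
    intro a i
    rw [← (Fin.consEquiv (fun _ => Fin n)).sum_comp, Fintype.sum_prod_type]
    simp only [prodRange, ← Matrix.mulVec_mulVec]
    rw [Matrix.mulVec, dotProduct]
    refine Finset.sum_congr rfl fun k _ => ?_
    rw [ih (a + 1) k, Finset.mul_sum]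
    refine Finset.sum_congr rfl fun w _ => ?_
    have e : (Fin.consEquiv (fun _ : Fin (len + 1) => Fin n)) (k, w)
        = (Fin.cons k w : Fin (len + 1) → Fin n) := rfl
    rw [e]
    simp [pathMS, endpt, hM, mul_assoc]

theorem prodRange_add (M : ℕ → Matrix (Fin n) (Fin n) R) (x y : ℕ) : ∀ a : ℕ,
    prodRange M a (x + y) = prodRange M a x * prodRange M (a + x) y := by
  induction x with
  | zero => intro a; simp [prodRange]
  | succ x ih =>
    intro a
    have h1 : x + 1 + y = (x + y) + 1 := by omega
    have h2 : a + (x + 1) = a + 1 + x := by omega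
    rw [h1, h2]
    simp only [prodRange]
    rw [ih (a + 1), Matrix.mul_assoc]

theorem prodRange_one (M : ℕ → Matrix (Fin n) (Fin n) R) (a : ℕ) : prodRange M a 1 = M a := by
  simp [prodRange]

theorem prodRange_blocks (M N : ℕ → Matrix (Fin n) (Fin n) R) (off len : ℕ → ℕ)
    (h0 : off 0 = 0) (hoff : ∀ c, off (c + 1) = off c + len c) (r : ℕ) :
    (∀ c < r, N c = prodRange M (off c) (len c)) → prodRange N 0 r = prodRange M 0 (off r) := by
  induction r with
  | zero => intro _; simp [prodRange, h0]
  | succ r ih =>
    intro h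
    rw [prodRange_add, prodRange_one, ih (fun c hc => h c (by omega)), hoff, prodRange_add]
    simp only [zero_add]
    rw [h r (by omega)]

theorem ofFn_prod (M : ℕ → Matrix (Fin n) (Fin n) R) (m : ℕ) : ∀ (a : ℕ)
    (f : Fin m → Matrix (Fin n) (Fin n) R), (∀ k : Fin m, M (a + k) = f k) →
    (List.ofFn f).prod = prodRange M a m := by
  induction m with
  | zero => intro a f _; simp [prodRange]
  | succ m ih =>
    intro a f h
    rw [List.ofFn_succ, List.prod_cons, prodRange, ih (a + 1) (fun i => f i.succ), ← h 0]
    · simp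
    · intro k
      rw [← h k.succ]
      congr 1
      simp
      omega

theorem sum_deg {G : Type*} (gate : ℕ → Fin n → Fin n → G) (deg : G → ℕ) (d : ℕ → ℕ)
    (hd : ∀ k i j, deg (gate k i j) = d k) (len : ℕ) : ∀ (a : ℕ) (i : Fin n) (w : Fin len → Fin n),
    ((pathMS gate len a i w).map deg).sum = ∑ k ∈ Finset.range len, d (a + k) := by
  induction len with
  | zero => intro a i w; simp [pathMS]
  | succ len ih =>
    intro a i w
    simp only [pathMS, Multiset.map_cons, Multiset.sum_cons, hd, ih]
    rw [Finset.sum_range_succ']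
    simp only [add_zero]
    rw [add_comm]
    congr 1
    refine Finset.sum_congr rfl fun k _ => ?_
    congr 1
    omega

theorem endpt_const (j : Fin n) (len : ℕ) : ∀ i : Fin n, endpt (len + 1) i (fun _ => j) = j := by
  induction len with
  | zero => intro i; simp [endpt]
  | succ len ih =>
    intro i
    rw [endpt]
    exact ih j

theorem eq_sup_of_const {α : Type*} (s : Finset α) (f : α → ℕ) (d : ℕ) (h : ∀ x ∈ s, f x = d) :
    ∀ x ∈ s, f x = s.sup f := by
  intro x hx
  exact le_antisymm (Finset.le_sup hx) (Finset.sup_le fun y hy => by rw [h y hy, h x hx])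

end Path

section Reindex

open Crest.ArithCircuit

variable {K ι L B P S R L' B' P' S' R' : Type*} [CommSemiring K]

/-- Transport a circuit along bijections of its index types. -/
def reindex (C : SPSPS K ι L B P S R) (eL : L ≃ L') (eB : B ≃ B') (eP : P ≃ P') (eS : S ≃ S')
    (eR : R ≃ R') : SPSPS K ι L' B' P' S' R' where
  leaf := fun l => C.leaf (eL.symm l)
  inB := fun b => (C.inB (eB.symm b)).map eL.toEmbedding
  coefB := fun b l => C.coefB (eB.symm b) (eL.symm l)
  inP := fun p => (C.inP (eP.symm p)).map eB
  inS := fun s => (C.inS (eS.symm s)).map eP.toEmbedding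
  coefS := fun s p => C.coefS (eS.symm s) (eP.symm p)
  inR := fun r => (C.inR (eR.symm r)).map eS
  inOut := C.inOut.map eR.toEmbedding
  coefOut := fun r => C.coefOut (eR.symm r)

variable (C : SPSPS K ι L B P S R) (eL : L ≃ L') (eB : B ≃ B') (eP : P ≃ P') (eS : S ≃ S')
    (eR : R ≃ R')

theorem reindex_valB (b : B) : (reindex C eL eB eP eS eR).valB (eB b) = C.valB b := by
  simp [SPSPS.valB, SPSPS.leafVal, reindex]

theorem reindex_valP (p : P) : (reindex C eL eB eP eS eR).valP (eP p) = C.valP p := by
  simp only [SPSPS.valP]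
  have : (reindex C eL eB eP eS eR).inP (eP p) = (C.inP p).map eB := by simp [reindex]
  rw [this, Multiset.map_map]
  congr 1
  refine Multiset.map_congr rfl fun b _ => ?_
  exact reindex_valB C eL eB eP eS eR b

theorem reindex_valS (s : S) : (reindex C eL eB eP eS eR).valS (eS s) = C.valS s := by
  simp only [SPSPS.valS]
  have h1 : (reindex C eL eB eP eS eR).inS (eS s) = (C.inS s).map eP.toEmbedding := by
    simp [reindex]
  rw [h1, Finset.sum_map]
  refine Finset.sum_congr rfl fun p _ => ?_
  have h2 : (reindex C eL eB eP eS eR).coefS (eS s) (eP p) = C.coefS s p := by simp [reindex]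
  simp only [Equiv.coe_toEmbedding]
  rw [h2, reindex_valP]

theorem reindex_valR (r : R) : (reindex C eL eB eP eS eR).valR (eR r) = C.valR r := by
  simp only [SPSPS.valR]
  have : (reindex C eL eB eP eS eR).inR (eR r) = (C.inR r).map eS := by simp [reindex]
  rw [this, Multiset.map_map]
  congr 1
  refine Multiset.map_congr rfl fun b _ => ?_
  exact reindex_valS C eL eB eP eS eR b

theorem reindex_output : (reindex C eL eB eP eS eR).output = C.output := by
  simp only [SPSPS.output]
  have h1 : (reindex C eL eB eP eS eR).inOut = C.inOut.map eR.toEmbedding := rfl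
  rw [h1, Finset.sum_map]
  refine Finset.sum_congr rfl fun r _ => ?_
  have h2 : (reindex C eL eB eP eS eR).coefOut (eR r) = C.coefOut r := by simp [reindex]
  simp only [Equiv.coe_toEmbedding]
  rw [h2, reindex_valR]

omit [CommSemiring K] in
theorem reindex_leafDeg (l : L) : (reindex C eL eB eP eS eR).leafDeg (eL l) = C.leafDeg l := by
  simp [SPSPS.leafDeg, reindex]

omit [CommSemiring K] in
theorem reindex_degB (b : B) : (reindex C eL eB eP eS eR).degB (eB b) = C.degB b := by
  simp only [SPSPS.degB]
  have h1 : (reindex C eL eB eP eS eR).inB (eB b) = (C.inB b).map eL.toEmbedding := by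
    simp [reindex]
  rw [h1, Finset.sup_map]
  refine Finset.sup_congr rfl fun l _ => ?_
  exact reindex_leafDeg C eL eB eP eS eR l

omit [CommSemiring K] in
theorem reindex_degP (p : P) : (reindex C eL eB eP eS eR).degP (eP p) = C.degP p := by
  simp only [SPSPS.degP]
  have : (reindex C eL eB eP eS eR).inP (eP p) = (C.inP p).map eB := by simp [reindex]
  rw [this, Multiset.map_map]
  congr 1
  refine Multiset.map_congr rfl fun b _ => ?_
  exact reindex_degB C eL eB eP eS eR b

omit [CommSemiring K] in
theorem reindex_degS (s : S) : (reindex C eL eB eP eS eR).degS (eS s) = C.degS s := by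
  simp only [SPSPS.degS]
  have h1 : (reindex C eL eB eP eS eR).inS (eS s) = (C.inS s).map eP.toEmbedding := by
    simp [reindex]
  rw [h1, Finset.sup_map]
  refine Finset.sup_congr rfl fun l _ => ?_
  exact reindex_degP C eL eB eP eS eR l

omit [CommSemiring K] in
theorem reindex_degR (r : R) : (reindex C eL eB eP eS eR).degR (eR r) = C.degR r := by
  simp only [SPSPS.degR]
  have : (reindex C eL eB eP eS eR).inR (eR r) = (C.inR r).map eS := by simp [reindex]
  rw [this, Multiset.map_map]
  congr 1
  refine Multiset.map_congr rfl fun b _ => ?_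
  exact reindex_degS C eL eB eP eS eR b

omit [CommSemiring K] in
theorem reindex_degOut : (reindex C eL eB eP eS eR).degOut = C.degOut := by
  simp only [SPSPS.degOut]
  have h1 : (reindex C eL eB eP eS eR).inOut = C.inOut.map eR.toEmbedding := rfl
  rw [h1, Finset.sup_map]
  refine Finset.sup_congr rfl fun l _ => ?_
  exact reindex_degR C eL eB eP eS eR l

omit [CommSemiring K] in
theorem reindex_isHomogeneous (h : C.IsHomogeneous) :
    (reindex C eL eB eP eS eR).IsHomogeneous := by
  obtain ⟨h1, h2, h3⟩ := h
  refine ⟨fun b' l' hl' => ?_, fun s' p' hp' => ?_, fun r' hr' => ?_⟩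
  · obtain ⟨b, rfl⟩ := eB.surjective b'
    have e1 : (reindex C eL eB eP eS eR).inB (eB b) = (C.inB b).map eL.toEmbedding := by
      simp [reindex]
    rw [e1, Finset.mem_map] at hl'
    obtain ⟨l, hl, rfl⟩ := hl'
    simp only [Equiv.coe_toEmbedding]
    rw [reindex_leafDeg, reindex_degB]
    exact h1 b l hl
  · obtain ⟨s, rfl⟩ := eS.surjective s'
    have e1 : (reindex C eL eB eP eS eR).inS (eS s) = (C.inS s).map eP.toEmbedding := by
      simp [reindex]
    rw [e1, Finset.mem_map] at hp'
    obtain ⟨p, hp, rfl⟩ := hp'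
    simp only [Equiv.coe_toEmbedding]
    rw [reindex_degP, reindex_degS]
    exact h2 s p hp
  · have e1 : (reindex C eL eB eP eS eR).inOut = C.inOut.map eR.toEmbedding := rfl
    rw [e1, Finset.mem_map] at hr'
    obtain ⟨r, hr, rfl⟩ := hr'
    simp only [Equiv.coe_toEmbedding]
    rw [reindex_degR, reindex_degOut]
    exact h3 r hr

end Reindex

end Crest.Agent.S0505A
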