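import Crest.Agent.S0505A

/-! Helper library for statement S0505: the block circuit for iterated matrix multiplication. -/

set_option autoImplicit false

namespace Crest.Agent.S0505B

open Crest.ArithCircuit Crest.Agent.S0505A MvPolynomial

variable (K : Type*) [CommSemiring K] (n : ℕ) [NeZero n] (r₁ : ℕ) (off len : ℕ → ℕ)

/-- Variables / leaves / bottom gates. -/
abbrev Var : Type := Fin n × Fin n × Fin n

/-- Lower product gates: a block, a start vertex and a path inside the block. -/
abbrev PGate : Type := Σ c : Fin (r₁ + 1), Fin n × (Fin (len c) → Fin n)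

/-- Middle sum gates: the entries of the block products. -/
abbrev SGate : Type := Fin (r₁ + 1) × Fin n × Fin n

/-- Top product gates: the intermediate vertices between blocks. -/
abbrev RGate : Type := Fin r₁ → Fin n

def gateB : ℕ → Fin n → Fin n → Var n := fun k i j => (Fin.ofNat n k, i, j)

def gateS : ℕ → Fin n → Fin n → SGate n r₁ := fun c i j => (Fin.ofNat (r₁ + 1) c, i, j)

/-- The block circuit. -/
def circ : SPSPS K (Var n) (Var n) (Var n) (PGate n r₁ len) (SGate n r₁) (RGate n r₁) where
  leaf := Sum.inl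
  inB := fun b => {b}
  coefB := fun _ _ => 1
  inP := fun p => pathMS (gateB n) (len p.1) (off p.1) p.2.1 p.2.2
  inS := fun s => (Finset.univ.filter
      (fun w : Fin (len s.1) → Fin n => endpt (len s.1) s.2.1 w = s.2.2)).map
    ⟨fun w => (⟨s.1, s.2.1, w⟩ : PGate n r₁ len), fun w w' h => by
      simpa using h⟩
  coefS := fun _ _ => 1
  inR := fun w => gateS n r₁ r₁ (endpt r₁ 0 w) 0 ::ₘ pathMS (gateS n r₁) r₁ 0 0 w
  inOut := Finset.univ
  coefOut := fun _ => 1

/-- The periodically extended sequence of variable matrices. -/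
noncomputable def Mseq : ℕ → Matrix (Fin n) (Fin n) (MvPolynomial (Var n) K) :=
  fun k => varMatrix K n (Fin.ofNat n k)

theorem valB_eq (b : Var n) : (circ K n r₁ off len).valB b = X b := by
  simp [SPSPS.valB, SPSPS.leafVal, circ]

theorem valB_gate (k : ℕ) (i j : Fin n) :
    (circ K n r₁ off len).valB (gateB n k i j) = Mseq K n k i j := by
  rw [valB_eq]
  simp [Mseq, varMatrix, gateB]

theorem valS_eq (c : Fin (r₁ + 1)) (i j : Fin n) :
    (circ K n r₁ off len).valS (c, i, j) = prodRange (Mseq K n) (off c) (len c) i j := by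
  have h := mulVec_prodRange (gateB n) (circ K n r₁ off len).valB (Mseq K n)
    (valB_gate K n r₁ off len) (Pi.single j 1) (len c) (off c) i
  have h2 : ((prodRange (Mseq K n) (off c) (len c)).mulVec (Pi.single j 1)) i
      = prodRange (Mseq K n) (off c) (len c) i j := by
    simp [Matrix.mulVec, dotProduct, Pi.single_apply]
  rw [← h2, h]
  simp only [SPSPS.valS, circ, Finset.sum_map, one_smul,
    Finset.sum_filter, SPSPS.valP, Pi.single_apply, mul_ite, mul_one, mul_zero]
  rfl

/-- The block matrices computed by the middle layer (periodically extended). -/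
noncomputable def Nseq : ℕ → Matrix (Fin n) (Fin n) (MvPolynomial (Var n) K) :=
  fun c => Matrix.of fun i j => (circ K n r₁ off len).valS (gateS n r₁ c i j)

theorem Nseq_eq (c : ℕ) (hc : c < r₁ + 1) :
    Nseq K n r₁ off len c = prodRange (Mseq K n) (off c) (len c) := by
  ext i j
  simp only [Nseq, Matrix.of_apply, gateS, valS_eq]
  have : ((Fin.ofNat (r₁ + 1) c : Fin (r₁ + 1)) : ℕ) = c := by
    simp [Fin.ofNat, Nat.mod_eq_of_lt hc]
  rw [this]

theorem output_eq (h0 : off 0 = 0) (hoff : ∀ c, off (c + 1) = off c + len c) :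
    (circ K n r₁ off len).output = prodRange (Mseq K n) 0 (off (r₁ + 1)) 0 0 := by
  rw [← prodRange_blocks (Mseq K n) (Nseq K n r₁ off len) off len h0 hoff (r₁ + 1)
    (fun c hc => Nseq_eq K n r₁ off len c hc), prodRange_add, prodRange_one, Matrix.mul_apply]
  have h := mulVec_prodRange (gateS n r₁) (circ K n r₁ off len).valS (Nseq K n r₁ off len)
    (fun k i j => by simp [Nseq]) (fun k => Nseq K n r₁ off len (0 + r₁) k 0) r₁ 0 0
  rw [Matrix.mulVec, dotProduct] at h
  rw [h]
  simp only [SPSPS.output, circ, one_smul, SPSPS.valR, Multiset.map_cons, Multiset.prod_cons,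
    Nseq, Matrix.of_apply, zero_add]
  refine Finset.sum_congr rfl fun w _ => ?_
  rw [mul_comm]

theorem Mseq_prod : (List.ofFn (varMatrix K n)).prod = prodRange (Mseq K n) 0 n := by
  refine ofFn_prod (Mseq K n) n 0 (varMatrix K n) fun k => ?_
  simp only [Mseq, zero_add]
  congr 1
  ext
  simp [Fin.ofNat, Nat.mod_eq_of_lt k.2]

theorem imm_eq : imm K n = (List.ofFn (varMatrix K n)).prod 0 0 := by
  cases n with
  | zero => exact absurd rfl (NeZero.ne 0)
  | succ m => rfl

theorem degB_eq (b : Var n) : (circ K n r₁ off len).degB b = 1 := by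
  simp [SPSPS.degB, SPSPS.leafDeg, circ]

theorem degP_eq (p : PGate n r₁ len) : (circ K n r₁ off len).degP p = len p.1 := by
  have h := sum_deg (gateB n) (circ K n r₁ off len).degB (fun _ => 1)
    (fun k i j => degB_eq K n r₁ off len _) (len p.1) (off p.1) p.2.1 p.2.2
  simp only [Finset.sum_const, Finset.card_range, smul_eq_mul, mul_one] at h
  exact h

theorem degP_mem (s : SGate n r₁) (p : PGate n r₁ len) (hp : p ∈ (circ K n r₁ off len).inS s) :
    (circ K n r₁ off len).degP p = len s.1 := by
  rw [degP_eq]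
  simp only [circ, Finset.mem_map, Finset.mem_filter, Finset.mem_univ, true_and] at hp
  obtain ⟨w, _, rfl⟩ := hp
  rfl

theorem degS_eq (hlen : ∀ c : Fin (r₁ + 1), 1 ≤ len c) (s : SGate n r₁) :
    (circ K n r₁ off len).degS s = len s.1 := by
  obtain ⟨m, hm⟩ : ∃ m, len s.1 = m + 1 := ⟨len s.1 - 1, by have := hlen s.1; omega⟩
  have hmem : (⟨s.1, s.2.1, fun _ => s.2.2⟩ : PGate n r₁ len) ∈ (circ K n r₁ off len).inS s := by
    simp only [circ, Finset.mem_map, Finset.mem_filter, Finset.mem_univ, true_and]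
    refine ⟨fun _ => s.2.2, ?_, rfl⟩
    have key : ∀ L : ℕ, L = m + 1 → endpt L s.2.1 (fun _ => s.2.2) = s.2.2 := by
      intro L hL
      subst hL
      exact endpt_const _ m _
    exact key _ hm
  have h := eq_sup_of_const ((circ K n r₁ off len).inS s) (circ K n r₁ off len).degP (len s.1)
    (fun p hp => degP_mem K n r₁ off len s p hp) _ hmem
  rw [SPSPS.degS, ← h, degP_mem K n r₁ off len s _ hmem]

theorem circ_isHomogeneous (hlen : ∀ c : Fin (r₁ + 1), 1 ≤ len c) :
    (circ K n r₁ off len).IsHomogeneous := by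
  refine ⟨fun b l hl => ?_, fun s p hp => ?_, ?_⟩
  · rw [degB_eq]
    simp [SPSPS.leafDeg, circ]
  · exact eq_sup_of_const ((circ K n r₁ off len).inS s) (circ K n r₁ off len).degP (len s.1)
      (fun p hp => degP_mem K n r₁ off len s p hp) p hp
  · refine eq_sup_of_const _ (circ K n r₁ off len).degR
      (len (Fin.ofNat (r₁ + 1) r₁ : Fin (r₁ + 1)) +
        ∑ k ∈ Finset.range r₁, len (Fin.ofNat (r₁ + 1) (0 + k) : Fin (r₁ + 1))) fun w _ => ?_
    have h := sum_deg (gateS n r₁) (circ K n r₁ off len).degS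
      (fun k => len (Fin.ofNat (r₁ + 1) k : Fin (r₁ + 1)))
      (fun k i j => degS_eq K n r₁ off len hlen _) r₁ 0 0 w
    simp only [SPSPS.degR]
    have e : (circ K n r₁ off len).inR w
        = gateS n r₁ r₁ (endpt r₁ 0 w) 0 ::ₘ pathMS (gateS n r₁) r₁ 0 0 w := rfl
    rw [e, Multiset.map_cons, Multiset.sum_cons, h, degS_eq K n r₁ off len hlen]
    rfl

theorem circ_size (t : ℕ) (hlen' : ∀ c : Fin (r₁ + 1), len c ≤ t) :
    (circ K n r₁ off len).size ≤
      2 * n ^ 3 + (r₁ + 1) * n ^ 2 + (r₁ + 1) * n ^ (t + 1) + n ^ r₁ + 1 := by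
  have hn : 1 ≤ n := Nat.one_le_iff_ne_zero.mpr (NeZero.ne n)
  have h1 : Fintype.card (Var n) = n ^ 3 := by
    simp only [Fintype.card_prod, Fintype.card_fin]; ring
  have h2 : Fintype.card (SGate n r₁) = (r₁ + 1) * n ^ 2 := by
    simp only [Fintype.card_prod, Fintype.card_fin]; ring
  have h3 : Fintype.card (RGate n r₁) = n ^ r₁ := by
    simp only [Fintype.card_fun, Fintype.card_fin]
  have h4 : Fintype.card (PGate n r₁ len) ≤ (r₁ + 1) * n ^ (t + 1) := by
    rw [Fintype.card_sigma]
    calc ∑ c : Fin (r₁ + 1), Fintype.card (Fin n × (Fin (len c) → Fin n))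
        ≤ ∑ _c : Fin (r₁ + 1), n ^ (t + 1) := by
          refine Finset.sum_le_sum fun c _ => ?_
          simp only [Fintype.card_prod, Fintype.card_fun, Fintype.card_fin]
          calc n * n ^ len c = n ^ (len c + 1) := by ring
            _ ≤ n ^ (t + 1) := Nat.pow_le_pow_right hn (by have := hlen' c; omega)
      _ = (r₁ + 1) * n ^ (t + 1) := by simp
  simp only [SPSPS.size]
  rw [h1, h2, h3]
  omega

end Crest.Agent.S0505B
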